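import Mathlib
import Crest.Agent.X212.Prf6.Bas

-- ▼ part X212/Lad50/SmaleA
section

/-!
# Row 212, PERF-SMALE (helper50), part A: a nowhere vanishing plane field has no bounded orbit

`no_loop`: the chord `c (s + ε) - c s` of a simple closed curve has odd winding number.
`unbounded`: a forward orbit of the field `exp ∘ ℓ` leaves every ball.
-/

set_option autoImplicit false
noncomputable section
open Set Filter Topology Function Complex

namespace Crest.Agent.X212.Lad50.Sm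

theorem exists_log {A : Type*} [TopologicalSpace A] [SimplyConnectedSpace A]
    [LocallyPathConnectedSpace A] {f : A → ℂ} (hf : Continuous f) (h0 : ∀ a, f a ≠ 0) (a₀ : A)
    {e : ℂ} (he : exp e = f a₀) : ∃ L : A → ℂ, Continuous L ∧ L a₀ = e ∧ ∀ a, exp (L a) = f a := by
  obtain ⟨F, ⟨h1, h2⟩, -⟩ := isCoveringMapOn_exp.existsUnique_continuousMap_lifts ⟨f, hf⟩
    (a₀ := a₀) (e₀ := e) he h0
  exact ⟨F, F.continuous, h1, fun a => congrFun h2 a⟩

theorem log_constOn {A : Type*} [TopologicalSpace A] {s : Set A} (hs : IsPreconnected s)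
    {L : A → ℂ} (hL : ContinuousOn L s) {c : ℂ} (h : ∀ a ∈ s, exp (L a) = c) {a b : A}
    (ha : a ∈ s) (hb : b ∈ s) : L a = L b :=
  isCoveringMap_exp.constOn_of_comp hs hL
    (fun x hx y hy => Subtype.ext ((h x hx).trans (h y hy).symm)) ha hb

theorem log_const {A : Type*} [TopologicalSpace A] [PreconnectedSpace A]
    {L : A → ℂ} (hL : Continuous L) {c : ℂ} (h : ∀ a, exp (L a) = c) (a b : A) : L a = L b :=
  log_constOn isPreconnected_univ hL.continuousOn (fun a _ => h a) (mem_univ a) (mem_univ b)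

/-- the chords of a simple closed curve have no periodic logarithm -/
theorem no_loop {c : ℝ → ℂ} (hc : Continuous c) (hp : ∀ s, c (s + 1) = c s)
    (hi : ∀ s t, s < t → t < s + 1 → c t ≠ c s) {m : ℝ → ℂ} (hm : Continuous m)
    (hmp : m 1 = m 0) {ε : ℝ} (hε : ε ∈ Ioo (0 : ℝ) 1)
    (he : ∀ s, exp (m s) = c (s + ε) - c s) : False := by
  have hσ : Continuous Real.sigmoid := _root_.continuous_sigmoid
  set D : ℝ × ℝ → ℂ := fun p => c (p.1 + Real.sigmoid p.2) - c p.1 with hD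
  have hD0 : ∀ p, D p ≠ 0 := fun p => sub_ne_zero.2 (hi _ _
    (by linarith [Real.sigmoid_pos p.2]) (by linarith [Real.sigmoid_lt_one p.2]))
  have hDc : Continuous D := by fun_prop
  obtain ⟨L, hL, -, hLe⟩ := exists_log hDc hD0 0 (exp_log (hD0 0))
  set τ : ℝ × ℝ → ℝ × ℝ := fun p => (p.1 + Real.sigmoid p.2, -p.2) with hτ
  have hτc : Continuous τ := by fun_prop
  have h1 : ∀ p, exp (L (τ p) - L p) = -1 := fun p => by
    rw [exp_sub, hLe, hLe, div_eq_iff (hD0 p)]
    simp only [hD, hτ, Real.sigmoid_neg]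
    rw [show p.1 + Real.sigmoid p.2 + (1 - Real.sigmoid p.2) = p.1 + 1 by ring, hp]
    ring
  obtain ⟨u, rfl⟩ : ε ∈ range Real.sigmoid := Real.range_sigmoid ▸ hε
  have h2 := log_const (L := fun p => L (τ p) - L p) ((hL.comp hτc).sub hL) h1 (τ (0, u)) (0, u)
  have h3 : τ (τ (0, u)) = (1, u) := by
    simp only [hτ, Real.sigmoid_neg, neg_neg]
    congr 1
    ring
  have h4 := log_const (L := fun s : ℝ => L (s, u) - m s) (c := 1) (by fun_prop) (fun s => by
    rw [exp_sub, hLe, he, div_self (hD0 (s, u))]) 1 0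
  rw [h3] at h2
  have h5 := h1 (0, u)
  rw [show L (τ (0, u)) - L (0, u) = 0 by linear_combination (h4 - h2 + hmp) / 2 , exp_zero] at h5
  norm_num at h5

theorem cone {a : ℂ} (ha : |a.im| < 1 / 2) {σ : ℝ} (hσ : σ = 1 ∨ σ = -1) :
    0 < (exp a * (1 + σ * I)).re := by
  have h1 := Real.abs_sin_le_abs (x := a.im)
  have h2 := Real.one_sub_sq_div_two_le_cos (x := a.im)
  have h3 : a.im ^ 2 < 1 / 4 := by nlinarith [abs_lt.1 ha]
  have h4 := abs_le.1 (h1.trans ha.le)
  have h5 := Real.exp_pos a.re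
  simp only [mul_re, add_re, one_re, ofReal_re, I_re, mul_zero, ofReal_im, I_im, mul_one,
    sub_self, add_zero, add_im, one_im, mul_im, zero_add, exp_re, exp_im]
  have h6 : 0 < Real.cos a.im - Real.sin a.im * σ := by
    rcases hσ with rfl | rfl <;> linarith [h4.1, h4.2]
  nlinarith [mul_pos h5 h6]

theorem mono_of_right {g g' : ℝ → ℝ} {a b : ℝ} (hab : a ≤ b) (hg : ContinuousOn g (Icc a b))
    (hd : ∀ x ∈ Ico a b, HasDerivWithinAt g (g' x) (Ici x) x) (hp : ∀ x ∈ Ico a b, 0 < g' x) :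
    g a ≤ g b := by
  have := image_le_of_deriv_right_lt_deriv_boundary (f := fun x => -g x) (f' := fun x => -g' x)
    hg.neg (fun x hx => (hd x hx).neg) (B := fun _ => -g a) (B' := fun _ => 0) le_rfl
    (fun x => hasDerivAt_const x _) (fun x hx _ => by linarith [hp x hx]) (right_mem_Icc.2 hab)
  linarith

/-- an orbit arc between two consecutive hits of a short vertical segment is impossible -/
theorem no_return {ℓ : ℂ → ℂ} (hℓ : Continuous ℓ) {γ : ℝ → ℂ}
    (hγ : ∀ t, HasDerivAt γ (exp (ℓ (γ t))) t)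
    (hu : ∀ a b, γ a = γ b → ∀ r, γ (a + r) = γ (b + r)) {r t0 t1 : ℝ} (h01 : t0 < t1)
    (hs : ∀ z : ℂ, z.re = 0 → |z.im| ≤ r → |(ℓ z).im| < 1 / 4)
    (h0 : (γ t0).re = 0 ∧ |(γ t0).im| ≤ r) (h1 : (γ t1).re = 0 ∧ |(γ t1).im| ≤ r)
    (hn : ∀ t, t0 < t → t < t1 → ¬((γ t).re = 0 ∧ |(γ t).im| ≤ r)) : False := by
  have hγc : Continuous γ := continuous_iff_continuousAt.2 fun t => (hγ t).continuousAt
  obtain ⟨σ, l, hσ, hl, hσl⟩ : ∃ σ l : ℝ, (σ = 1 ∨ σ = -1) ∧ 0 ≤ l ∧
      (γ t0).im = (γ t1).im + σ * l := by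
    rcases le_total (γ t0).im (γ t1).im with h | h
    · exact ⟨-1, (γ t1).im - (γ t0).im, .inr rfl, by linarith, by ring⟩
    · exact ⟨1, (γ t0).im - (γ t1).im, .inl rfl, by linarith, by ring⟩
  have hσ0 : σ ≠ 0 := by rcases hσ with rfl | rfl <;> norm_num
  set P : ℝ := t1 - t0 + l with hP
  have hP0 : 0 < P := by linarith
  set c0 : ℝ → ℂ := fun τ => γ (min τ t1) + (σ * max (τ - t1) 0 : ℝ) * I with hc0
  have hc0c : Continuous c0 := by fun_prop
  have e1 : ∀ τ ≤ t1, c0 τ = γ τ := fun τ h => by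
    simp [hc0, min_eq_left h, max_eq_right (sub_nonpos.2 h)]
  have e2 : ∀ τ, t1 ≤ τ → c0 τ = γ t1 + (σ * (τ - t1) : ℝ) * I := fun τ h => by
    simp only [hc0, min_eq_right h, max_eq_left (sub_nonneg.2 h)]
  have e3 : ∀ τ, t1 ≤ τ → τ ≤ t0 + P → (c0 τ).re = 0 ∧ |(c0 τ).im| ≤ r := fun τ h h' => by
    rw [e2 τ h]
    have a0 := abs_le.1 h0.2
    have a1 := abs_le.1 h1.2
    refine ⟨by simp [h1.1], ?_⟩
    have : (γ t1 + (σ * (τ - t1) : ℝ) * I).im = (γ t1).im + σ * (τ - t1) := by simp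
    rw [this, abs_le]
    rcases hσ with rfl | rfl <;> constructor <;> linarith [a0.1, a0.2, a1.1, a1.2]
  have e4 : c0 (t0 + P) = c0 t0 := by
    rw [e2 _ (by linarith), e1 _ h01.le]
    apply Complex.ext
    · simp [h0.1, h1.1]
    · have : (γ t1 + (σ * (t0 + P - t1) : ℝ) * I).im = (γ t1).im + σ * (t0 + P - t1) := by simp
      rw [this, hσl, hP]; ring
  have inj : ∀ τ τ', t0 ≤ τ → τ < τ' → τ' < t0 + P → c0 τ ≠ c0 τ' := by
    intro τ τ' ha hab hb h
    rcases le_or_gt τ' t1 with h2 | h2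
    · rw [e1 _ h2, e1 _ (by linarith)] at h
      have h3 := hu _ _ h (t0 - τ)
      rw [show τ + (t0 - τ) = t0 by ring] at h3
      have h4 : ¬ τ' + (t0 - τ) < t1 := fun h4 => hn _ (by linarith) h4 (h3 ▸ h0)
      have h5 : τ' + (t0 - τ) = t1 := by linarith [not_lt.1 h4]
      rw [h5] at h3
      rw [h3] at hσl
      have : l = 0 := by
        have : σ * l = 0 := by linarith
        exact (mul_eq_zero.1 this).resolve_left hσ0
      linarith
    have h6 := congrArg Complex.im h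
    rw [e2 _ h2.le] at h6
    rcases le_or_gt t1 τ with h3 | h3
    · rw [e2 _ h3] at h6
      simp only [add_im, mul_im, ofReal_re, I_im, mul_one, ofReal_im, I_re, mul_zero, add_zero,
        add_right_inj] at h6
      have := mul_left_cancel₀ hσ0 h6
      linarith
    · have h4 := e3 _ h2.le hb.le
      rw [← h, e1 _ h3.le] at h4
      have h5 : τ = t0 := by
        by_contra h5
        exact hn τ (lt_of_le_of_ne ha (Ne.symm h5)) h3 h4
      rw [e1 _ h3.le, h5, hσl] at h6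
      simp only [add_im, mul_im, ofReal_re, I_im, mul_one, ofReal_im, I_re, mul_zero, add_zero,
        add_right_inj] at h6
      have := mul_left_cancel₀ hσ0 h6
      linarith
  set c : ℝ → ℂ := fun s => c0 (t0 + P * Int.fract s) with hc
  have hcc : Continuous c :=
    ContinuousOn.comp_fract'' (f := fun x : ℝ => c0 (t0 + P * x)) (by fun_prop) (by simp [e4])
  have hcn : ∀ s (n : ℤ), c (s + n) = c s := fun s n => by simp only [hc, Int.fract_add_intCast]
  have hf : ∀ s : ℝ, t0 ≤ t0 + P * Int.fract s ∧ t0 + P * Int.fract s < t0 + P := fun s =>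
    ⟨by nlinarith [Int.fract_nonneg s], by nlinarith [Int.fract_lt_one s]⟩
  have hi : ∀ s t, s < t → t < s + 1 → c t ≠ c s := by
    intro s t h2 h3 h
    rcases lt_trichotomy (Int.fract s) (Int.fract t) with h4 | h4 | h4
    · exact inj _ _ (hf s).1 (by nlinarith) (hf t).2 h.symm
    · obtain ⟨n, hn⟩ := Int.fract_eq_fract.1 h4
      have h5 : (-1 : ℝ) < n := by linarith
      have h6 : (n : ℝ) < 0 := by linarith
      have h7 : (-1 : ℤ) < n := by exact_mod_cast h5
      have h8 : n < 0 := by exact_mod_cast h6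
      omega
    · exact inj _ _ (hf t).1 (by nlinarith) (hf s).2 h
  -- right derivatives
  have hd : ∀ t, (HasDerivWithinAt c (P * exp (ℓ (c t))) (Ici t) t) ∨
      (HasDerivWithinAt c (σ * P * I) (Ici t) t ∧ |(ℓ (c t)).im| < 1 / 4) := by
    intro t
    have hfl : ∀ᶠ x : ℝ in 𝓝[≥] t, Int.fract x = x - (⌊t⌋ : ℝ) := by
      filter_upwards [Ico_mem_nhdsGE (Int.lt_floor_add_one t)] with x hx
      rw [Int.fract, Int.floor_eq_on_Ico ⌊t⌋ x ⟨(Int.floor_le t).trans hx.1, hx.2⟩]
    have hl : HasDerivAt (fun x : ℝ => t0 + P * (x - ⌊t⌋)) P t := by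
      simpa using (((hasDerivAt_id t).sub_const (⌊t⌋ : ℝ)).const_mul P).const_add t0
    rcases lt_or_ge (t0 + P * Int.fract t) t1 with h2 | h2
    · left
      have h3 : c t = γ (t0 + P * (t - ⌊t⌋)) := e1 _ h2.le
      have h4 := (hγ (t0 + P * (t - ⌊t⌋))).scomp t hl
      rw [← h3, real_smul] at h4
      refine h4.hasDerivWithinAt.congr_of_eventuallyEq ?_ h3
      have h5 : ∀ᶠ x in 𝓝 t, t0 + P * (x - ⌊t⌋) < t1 :=
        hl.continuousAt.eventually_lt continuousAt_const h2
      filter_upwards [hfl, mem_nhdsWithin_of_mem_nhds h5] with x hx hx'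
      simp only [hc, hx, comp_apply]
      exact e1 _ hx'.le
    · right
      have h3 := e3 _ h2 (hf t).2.le
      refine ⟨?_, hs _ h3.1 h3.2⟩
      have h4 := (((((hl.sub_const t1).const_mul σ).ofReal_comp).mul_const I).const_add (γ t1))
      rw [ofReal_mul] at h4
      refine h4.hasDerivWithinAt.congr_of_eventuallyEq ?_ (e2 _ h2)
      filter_upwards [hfl, self_mem_nhdsWithin] with x hx hx'
      simp only [hc, hx]
      refine e2 _ (h2.trans ?_)
      have : t ≤ x := hx'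
      rw [Int.fract]
      nlinarith
  -- a uniform chord length
  obtain ⟨δ, hδ, hu⟩ := Metric.uniformContinuousOn_iff.1
    ((isCompact_Icc (a := (0 : ℝ)) (b := 2)).uniformContinuousOn_of_continuous
      (f := fun s => (ℓ (c s)).im) (by fun_prop)) (1 / 4) (by norm_num)
  set ε := min (δ / 2) (1 / 2) with hε
  have hε0 : 0 < ε := lt_min (by linarith) (by norm_num)
  have hε1 : ε ≤ 1 / 2 := min_le_right _ _
  have hε2 : ε ≤ δ / 2 := min_le_left _ _
  have key : ∀ s ∈ Ico (0 : ℝ) 1, (c (s + ε) - c s) * exp (-ℓ (c s)) ∈ slitPlane := by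
    intro s hs'
    set u : ℂ := exp (-ℓ (c s)) * (1 + (-σ : ℝ) * I) with hu'
    have hσ' : -σ = 1 ∨ -σ = -1 := by rcases hσ with rfl | rfl <;> norm_num
    have hcl : ∀ x ∈ Ico s (s + ε), |(ℓ (c x)).im - (ℓ (c s)).im| < 1 / 4 := fun x hx =>
      hu x ⟨by linarith [hx.1, hs'.1], by linarith [hx.2, hs'.2]⟩ s
        ⟨hs'.1, by linarith [hs'.2]⟩ (by
          rw [Real.dist_eq, abs_lt]; constructor <;> linarith [hx.1, hx.2])
    have hex : ∀ x ∈ Ico s (s + ε), ∃ w : ℂ, HasDerivWithinAt c w (Ici x) x ∧ 0 < (w * u).re := by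
      intro x hx
      have h2 := abs_lt.1 (hcl x hx)
      rcases hd x with h | ⟨h, h'⟩
      · refine ⟨_, h, ?_⟩
        have := cone (a := ℓ (c x) - ℓ (c s)) (by
          rw [sub_im, abs_lt]; constructor <;> linarith [h2.1, h2.2]) hσ'
        rw [show (P : ℂ) * exp (ℓ (c x)) * u =
          P * (exp (ℓ (c x) - ℓ (c s)) * (1 + (-σ : ℝ) * I)) by
            rw [hu', sub_eq_add_neg, exp_add]; ring, re_ofReal_mul]
        positivity
      · refine ⟨_, h, ?_⟩
        have h3 := abs_lt.1 h'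
        have := cone (a := -ℓ (c s)) (by
          rw [neg_im, abs_lt]; constructor <;> linarith [h2.1, h2.2, h3.1, h3.2]) hσ
        have h4 : (σ : ℂ) ^ 2 = 1 := by rcases hσ with rfl | rfl <;> norm_num
        rw [show (σ : ℂ) * P * I * u = P * (exp (-ℓ (c s)) * (1 + σ * I)) by
          rw [hu']; push_cast
          linear_combination (-P * exp (-ℓ (c s)) * σ ^ 2) * I_sq + (P * exp (-ℓ (c s))) * h4,
          re_ofReal_mul]
        positivity
    choose! w hw hw' using hex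
    have h2 := mono_of_right (g := fun x => (c x * u).re) (g' := fun x => (w x * u).re)
      (a := s) (b := s + ε) (by linarith) (by fun_prop)
      (fun x hx => reCLM.hasFDerivAt.comp_hasDerivWithinAt x ((hw x hx).mul_const u)) hw'
    have h3 : (c (s + ε) - c s) * exp (-ℓ (c s)) ≠ 0 :=
      mul_ne_zero (sub_ne_zero.2 (hi _ _ (by linarith) (by linarith))) (exp_ne_zero _)
    set q := (c (s + ε) - c s) * exp (-ℓ (c s)) with hq
    have h4 : 0 ≤ (q * (1 + (-σ : ℝ) * I)).re := by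
      have : q * (1 + (-σ : ℝ) * I) = c (s + ε) * u - c s * u := by rw [hq, hu']; ring
      rw [this, sub_re]; linarith
    rw [mem_slitPlane_iff]
    by_contra h5
    push Not at h5
    have h6 : 0 ≤ q.re := by simpa [h5.2] using h4
    exact h3 (Complex.ext (le_antisymm h5.1 h6) h5.2)
  have key' : ∀ s, (c (s + ε) - c s) * exp (-ℓ (c s)) ∈ slitPlane := fun s => by
    have := key (Int.fract s) ⟨Int.fract_nonneg s, Int.fract_lt_one s⟩
    rwa [← hcn (Int.fract s + ε) ⌊s⌋, ← hcn (Int.fract s) ⌊s⌋, add_right_comm,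
      Int.fract_add_floor] at this
  have hp : ∀ s, c (s + 1) = c s := fun s => by simpa using hcn s 1
  refine no_loop hcc hp hi (m := fun s => ℓ (c s) + log ((c (s + ε) - c s) * exp (-ℓ (c s))))
    ((hℓ.comp hcc).add (Continuous.clog (by fun_prop) key')) ?_ ⟨hε0, by linarith⟩ fun s => ?_
  · have a1 := hp 0
    have a2 := hp ε
    rw [zero_add] at a1
    simp only [zero_add]
    rw [a1, add_comm 1 ε, a2]
  · rw [exp_add, exp_log (slitPlane_ne_zero (key' s)), mul_left_comm, ← exp_add, add_neg_cancel,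
      exp_zero, mul_one]

/-- no orbit with bounded speed accumulates at a point where the field is `1` -/
theorem no_rec {ℓ : ℂ → ℂ} (hℓ : Continuous ℓ) (h0 : ℓ 0 = 0) {γ : ℝ → ℂ}
    (hγ : ∀ t, HasDerivAt γ (exp (ℓ (γ t))) t)
    (hu : ∀ a b, γ a = γ b → ∀ r, γ (a + r) = γ (b + r)) {M : ℝ} (hM0 : 0 < M)
    (hM : ∀ t, 0 ≤ t → ‖exp (ℓ (γ t))‖ ≤ M) (hrec : ∀ δ > 0, ∀ T, ∃ t ≥ T, ‖γ t‖ < δ) : False := by
  have hγc : Continuous γ := continuous_iff_continuousAt.2 fun t => (hγ t).continuousAt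
  have a1 : ∀ᶠ z in 𝓝 (0 : ℂ), |(ℓ z).im| < 1 / 4 :=
    ContinuousAt.eventually_lt (by fun_prop) continuousAt_const (by simp [h0])
  have a2 : ∀ᶠ z in 𝓝 (0 : ℂ), 1 / 2 < (exp (ℓ z)).re :=
    ContinuousAt.eventually_lt continuousAt_const (by fun_prop) (by simp [h0]; norm_num)
  obtain ⟨r', hr', hb⟩ := Metric.eventually_nhds_iff.1 (a1.and a2)
  simp only [dist_zero_right] at hb
  set r := r' / 3 with hr
  have hr0 : 0 < r := by linarith
  set η := r / (2 * M) with hη
  have hη0 : 0 < η := by positivity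
  have lip : ∀ a b, 0 ≤ a → 0 ≤ b → |b - a| ≤ η → ‖γ b‖ ≤ ‖γ a‖ + r / 2 := by
    intro a b ha hb' hab
    have h1 := (convex_Ici (0 : ℝ)).norm_image_sub_le_of_norm_hasDerivWithin_le (f := γ)
      (fun x _ => (hγ x).hasDerivWithinAt) (fun x hx => hM x hx) ha hb'
    have h2 : M * ‖b - a‖ ≤ r / 2 := by
      calc M * ‖b - a‖ ≤ M * η := mul_le_mul_of_nonneg_left hab hM0.le
        _ = r / 2 := by rw [hη]; field_simp
    linarith [norm_le_norm_add_norm_sub' (γ b) (γ a)]
  have hre : ∀ t, HasDerivAt (fun t => (γ t).re) (exp (ℓ (γ t))).re t := fun t =>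
    reCLM.hasFDerivAt.comp_hasDerivAt t (hγ t)
  have grow : ∀ a b, a ≤ b → (∀ x ∈ Icc a b, ‖γ x‖ < r') → (γ a).re + (b - a) / 2 ≤ (γ b).re := by
    intro a b hab hx
    have := mono_of_right (g := fun x => (γ x).re - x / 2)
      (g' := fun x => (exp (ℓ (γ x))).re - 1 / 2) hab (by fun_prop)
      (fun x _ => ((hre x).sub ((hasDerivAt_id x).div_const 2)).hasDerivWithinAt)
      (fun x hx' => by linarith [(hb (hx x (Ico_subset_Icc_self hx'))).2])
    linarith
  have hit : ∀ T, 0 ≤ T → ∃ t ≥ T, (γ t).re = 0 ∧ |(γ t).im| ≤ r := by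
    intro T hT
    obtain ⟨t, ht, hn⟩ := hrec (min (η / 2) (r / 2)) (lt_min (by linarith) (by linarith)) (T + η)
    have b1 := (lt_min_iff.1 hn).1
    have b2 := (lt_min_iff.1 hn).2
    have b3 : ∀ x ∈ Icc (t - η) (t + η), ‖γ x‖ ≤ r := fun x hx => by
      have := lip t x (by linarith) (by linarith [hx.1]) (abs_le.2 ⟨by linarith [hx.1],
        by linarith [hx.2]⟩)
      linarith
    have b4 := abs_lt.1 ((abs_re_le_norm (γ t)).trans_lt b1)
    have b5 := grow (t - η) t (by linarith) fun x hx => by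
      linarith [b3 x ⟨hx.1, by linarith [hx.2]⟩]
    have b6 := grow t (t + η) (by linarith) fun x hx => by
      linarith [b3 x ⟨by linarith [hx.1], hx.2⟩]
    obtain ⟨x, hx, hx0⟩ := intermediate_value_Icc (f := fun t => (γ t).re)
      (a := t - η) (b := t + η) (by linarith) (by fun_prop)
      (show (0 : ℝ) ∈ _ from ⟨by linarith [b4.2], by linarith [b4.1]⟩)
    exact ⟨x, by linarith [hx.1], hx0, (abs_im_le_norm _).trans (b3 x hx)⟩
  have nrm : ∀ z : ℂ, z.re = 0 → ‖z‖ ≤ |z.im| := fun z hz => by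
    simpa [hz] using norm_le_abs_re_add_abs_im z
  obtain ⟨t0, ht0, hh0⟩ := hit 0 le_rfl
  set H : Set ℝ := {t | t0 + η ≤ t ∧ (γ t).re = 0 ∧ |(γ t).im| ≤ r} with hH
  have hHc : IsClosed H := (isClosed_le continuous_const continuous_id).inter
    ((isClosed_eq (f := fun t => (γ t).re) (by fun_prop) continuous_const).inter
      (isClosed_le (f := fun t => |(γ t).im|) (by fun_prop) continuous_const))
  have hHb : BddBelow H := ⟨t0 + η, fun t ht => ht.1⟩
  have hHn : H.Nonempty := hit (t0 + η) (by linarith)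
  have hm := hHc.csInf_mem hHn hHb
  refine no_return hℓ hγ hu (r := r) (t0 := t0) (t1 := sInf H) (by linarith [hm.1])
    (fun z hz hz' => (hb (by linarith [nrm z hz])).1) hh0 hm.2 fun t h1 h2 h3 => ?_
  rcases le_total (t0 + η) t with h4 | h4
  · exact absurd (csInf_le hHb ⟨h4, h3⟩) (not_le.2 h2)
  · have := grow t0 t h1.le fun x hx => by
      have := lip t0 x ht0 (by linarith [hx.1]) (abs_le.2 ⟨by linarith [hx.1],
        by linarith [hx.2]⟩)
      linarith [nrm _ hh0.1, hh0.2]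
    rw [hh0.1, h3.1] at this
    linarith

/-- forward orbits of a nowhere vanishing plane field are unbounded -/
theorem unbounded {ℓ : ℂ → ℂ} (hℓ : Continuous ℓ) {γ : ℝ → ℂ}
    (hγ : ∀ t, HasDerivAt γ (exp (ℓ (γ t))) t)
    (hu : ∀ a b, γ a = γ b → ∀ r, γ (a + r) = γ (b + r)) (R : ℝ) : ∃ t ≥ 0, R < ‖γ t‖ := by
  by_contra hb
  push Not at hb
  have hK := isCompact_closedBall (0 : ℂ) R
  obtain ⟨q, -, φ, hφ, hq⟩ := hK.tendsto_subseq (x := fun n : ℕ => γ n)
    fun n => mem_closedBall_zero_iff.2 (hb n (Nat.cast_nonneg n))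
  obtain ⟨M, hM⟩ := hK.exists_bound_of_continuousOn (f := fun z => exp (ℓ z - ℓ q)) (by fun_prop)
  have hv := exp_ne_zero (ℓ q)
  have e : ∀ t, exp (ℓ q) * ((γ t - q) / exp (ℓ q)) + q = γ t := fun t => by field_simp; ring
  refine no_rec (ℓ := fun z => ℓ (exp (ℓ q) * z + q) - ℓ q) (by fun_prop) (by simp)
    (γ := fun t => (γ t - q) / exp (ℓ q)) (fun t => ?_) (fun a b h r => ?_) (M := max M 1)
    (by positivity) (fun t ht => ?_) fun δ hδ T => ?_
  · simp only [e, exp_sub]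
    exact ((hγ t).sub_const q).div_const _
  · have : γ a = γ b := by rw [← e a, ← e b, h]
    simp only [hu a b this r]
  · simp only [e]
    exact (hM _ (mem_closedBall_zero_iff.2 (hb t ht))).trans (le_max_left _ _)
  · have h1 : Tendsto (fun n => ‖(γ (φ n) - q) / exp (ℓ q)‖) atTop (𝓝 0) := by
      simpa using ((hq.sub_const q).div_const (exp (ℓ q))).norm
    have h2 : Tendsto (fun n => (φ n : ℝ)) atTop atTop :=
      tendsto_natCast_atTop_atTop.comp hφ.tendsto_atTop
    obtain ⟨n, hn, hn'⟩ := ((h2.eventually_ge_atTop T).and (h1.eventually_lt_const hδ)).exists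
    exact ⟨_, hn, hn'⟩

end Crest.Agent.X212.Lad50.Sm
end
end

-- ▼ part X212/Lad50/SmaleB
section

/-!
# Row 212, PERF-SMALE (helper50), part B: flows of plane fields that are `1` far out

`Fl ℓ ρ ψ`: `ψ` is the flow of `exp ∘ ℓ`, `ℓ = 0` off the ball `ρ`.  Every orbit crosses from
the left to the right.  `shear_iso`, `fix_right`: the correction on the right.
-/

set_option autoImplicit false
noncomputable section
open Set Filter Topology Function Complex
open scoped ContDiff Manifold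

namespace Crest.Agent.X212.Lad50.Sm
open Prf6

/-- the flow of `exp ∘ ℓ` -/
structure Fl (ℓ : ℂ → ℂ) (ρ : ℝ) (ψ : ℝ → ℂ → ℂ) : Prop where
  cont : Continuous ℓ
  pos : 0 < ρ
  out : ∀ z, ρ < ‖z‖ → ℓ z = 0
  der : ∀ z t, HasDerivAt (fun t => ψ t z) (exp (ℓ (ψ t z))) t
  zero : ∀ z, ψ 0 z = z
  add : ∀ s t z, ψ (s + t) z = ψ s (ψ t z)
  uniq : ∀ (γ : ℝ → ℂ) (T : ℝ),
    (∀ s ∈ uIcc 0 T, ∀ᶠ r in 𝓝 s, HasDerivAt γ (exp (ℓ (γ r))) r) → ψ T (γ 0) = γ T

theorem exists_flow {ℓ : ℂ → ℂ} (hℓ : ContDiff ℝ ∞ ℓ) {ρ : ℝ} (hρ : 0 < ρ)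
    (out : ∀ z, ρ < ‖z‖ → ℓ z = 0) : ∃ ψ : ℝ → ℝ → ℂ → ℂ,
    ContDiff ℝ ∞ (fun p : ℝ × ℝ × ℂ => ψ p.2.1 p.1 p.2.2) ∧
      ∀ σ : ℝ, Fl (fun z => σ * ℓ z) ρ (ψ σ) := by
  set V : ℝ × ℂ → ℝ × ℂ := fun p => (0, exp (p.1 * ℓ p.2)) with hV
  have hVs : ContDiff ℝ ∞ V := contDiff_const.prodMk
    (ContDiff.cexp ((ofRealCLM.contDiff.comp contDiff_fst).mul (hℓ.comp contDiff_snd)))
  have hv : Flo26.SmV 𝓘(ℝ, ℝ × ℂ) V := Flo26.smV_model.2 hVs
  set Φ : ℝ → ℝ × ℂ → ℝ × ℂ := Flo26.fl (I := 𝓘(ℝ, ℝ × ℂ)) V with hΦ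
  set Dm : Set (ℝ × ℝ × ℂ) := Flo26.dom (I := 𝓘(ℝ, ℝ × ℂ)) V with hDm
  have hz : ∀ p, Φ 0 p = p := Flo26.fl_zero hv
  have hu : ∀ t p, (t, p) ∈ Dm → ∀ s ∈ uIcc 0 t, (s, p) ∈ Dm := fun t p h s hs =>
    Flo26.mem_dom_of_uIcc h hs
  have hd : ∀ t p, (t, p) ∈ Dm → HasDerivAt (fun s => Φ s p) (V (Φ t p)) t := fun t p h =>
    hasMFDerivAt_iff_hasFDerivAt.1 (Flo26.hasMFDerivAt_fl hv h)
  have hd1 : ∀ t p, (t, p) ∈ Dm → HasDerivAt (fun s => (Φ s p).1) 0 t := fun t p h =>
    (ContinuousLinearMap.fst ℝ ℝ ℂ).hasFDerivAt.comp_hasDerivAt t (hd t p h)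
  have h1 : ∀ t p, (t, p) ∈ Dm → (Φ t p).1 = p.1 := fun t p h => by
    have := (convex_uIcc 0 t).norm_image_sub_le_of_norm_hasDerivWithin_le (C := 0)
      (f := fun s => (Φ s p).1) (f' := fun _ => 0)
      (fun s hs => (hd1 s p (hu t p h s hs)).hasDerivWithinAt)
      (fun _ _ => by simp) left_mem_uIcc right_mem_uIcc
    simpa [hz, sub_eq_zero] using this
  have hd2 : ∀ t p, (t, p) ∈ Dm → HasDerivAt (fun s => (Φ s p).2) (exp (p.1 * ℓ (Φ t p).2)) t :=
    fun t p h => by
      rw [← h1 t p h]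
      exact (ContinuousLinearMap.snd ℝ ℝ ℂ).hasFDerivAt.comp_hasDerivAt t (hd t p h)
  have hc : Flo26.Cpl (I := 𝓘(ℝ, ℝ × ℂ)) V := by
    rintro ⟨T, σ, z⟩
    obtain ⟨M, hM⟩ := (isCompact_closedBall (0 : ℂ) ρ).exists_bound_of_continuousOn
      (f := fun w => exp (σ * ℓ w)) (by have := hℓ.continuous; fun_prop)
    have hM' : ∀ w, ‖exp (σ * ℓ w)‖ ≤ max M 1 := fun w => by
      rcases le_or_gt ‖w‖ ρ with h | h
      · exact (hM w (mem_closedBall_zero_iff.2 h)).trans (le_max_left _ _)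
      · simp [out w h]
    refine Flo26.mem_dom_of_compact hv ((isCompact_singleton (x := σ)).prod
      (isCompact_closedBall z (max M 1 * |T|))) fun s hs h => ⟨h1 s _ h, ?_⟩
    have := (convex_uIcc 0 s).norm_image_sub_le_of_norm_hasDerivWithin_le (C := max M 1)
      (f := fun r => (Φ r (σ, z)).2) (fun r hr => (hd2 r _ (hu _ _ h r hr)).hasDerivWithinAt)
      (fun r _ => hM' _) left_mem_uIcc right_mem_uIcc
    rw [hz, sub_zero] at this
    rw [mem_closedBall_iff_norm]
    refine this.trans (mul_le_mul_of_nonneg_left ?_ (by positivity))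
    simpa using abs_sub_left_of_mem_uIcc hs
  have ha : ∀ s t p, Φ (s + t) p = Φ s (Φ t p) := hc.add hv
  have e : ∀ t σ z, Φ t (σ, z) = (σ, (Φ t (σ, z)).2) := fun t σ z => Prod.ext (h1 _ _ (hc _)) rfl
  refine ⟨fun σ t z => (Φ t (σ, z)).2, ?_, fun σ =>
    ⟨by have := hℓ.continuous; fun_prop, hρ, fun z hz => by simp [out z hz],
      fun z t => hd2 t (σ, z) (hc _), fun z => by simp only [hz],
      fun s t z => by simp only [ha, ← e], fun γ T h => ?_⟩⟩
  · have := hc.contMDiff hv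
    rw [← modelWithCornersSelf_prod, chartedSpaceSelf_prod] at this
    exact contDiff_snd.comp (contMDiff_iff_contDiff.1 this)
  · have := (Flo26.fl_of_curve hv (γ := fun s => (σ, γ s)) (T := T) fun s hs =>
      (h s hs).mono fun r hr => hasMFDerivAt_iff_hasFDerivAt.2
        ((hasDerivAt_const r σ).prodMk hr).hasFDerivAt).2
    exact congrArg Prod.snd this

namespace Fl
variable {ℓ : ℂ → ℂ} {ρ : ℝ} {ψ : ℝ → ℂ → ℂ} (h : Fl ℓ ρ ψ)
include h

theorem line {z : ℂ} {T : ℝ} (hz : ∀ s ∈ uIcc 0 T, ρ < ‖z + s‖) : ψ T z = z + T := by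
  have := h.uniq (fun s => z + s) T fun s hs => by
    have h1 : ∀ᶠ r : ℝ in 𝓝 s, ρ < ‖z + r‖ :=
      ContinuousAt.eventually_lt continuousAt_const (by fun_prop) (hz s hs)
    filter_upwards [h1] with r hr
    rw [h.out _ hr, exp_zero]
    exact (hasDerivAt_id r).ofReal_comp.const_add z
  simpa using this

theorem hor {z : ℂ} (hz : ρ < |z.im|) (T : ℝ) : ψ T z = z + T :=
  h.line fun s _ => hz.trans_le (by simpa using abs_im_le_norm (z + s))

theorem left {z : ℂ} {T : ℝ} (hz : z.re < -ρ) (hT : z.re + T < -ρ) : ψ T z = z + T :=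
  h.line fun s hs => by
    have h1 := neg_le_of_abs_le (abs_re_le_norm (z + s))
    simp only [add_re, ofReal_re] at h1
    rcases mem_uIcc.1 hs with h2 | h2 <;> linarith [h2.1, h2.2]

theorem right {z : ℂ} {T : ℝ} (hz : ρ < z.re) (hT : ρ < z.re + T) : ψ T z = z + T :=
  h.line fun s hs => by
    have h1 := le_of_abs_le (abs_re_le_norm (z + s))
    simp only [add_re, ofReal_re] at h1
    rcases mem_uIcc.1 hs with h2 | h2 <;> linarith [h2.1, h2.2]

theorem inv (t : ℝ) (z : ℂ) : ψ (-t) (ψ t z) = z := by rw [← h.add, neg_add_cancel, h.zero]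

theorem bar {c a b : ℝ} {z : ℂ} (hc : ρ < |c|) (ha : c ≤ (ψ a z).re) (hab : a ≤ b) :
    c ≤ (ψ b z).re := by
  have hre : ∀ t, HasDerivAt (fun t => (ψ t z).re) (exp (ℓ (ψ t z))).re t := fun t =>
    reCLM.hasFDerivAt.comp_hasDerivAt t (h.der z t)
  have := image_le_of_deriv_right_lt_deriv_boundary (f := fun t => -(ψ t z).re)
    (fun t _ => (hre t).neg.continuousAt.continuousWithinAt)
    (fun t _ => (hre t).neg.hasDerivWithinAt) (B := fun _ => -c) (B' := fun _ => 0)
    (neg_le_neg ha) (fun x => hasDerivAt_const x _) (fun x _ hx => by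
      have h1 : (ψ x z).re = c := neg_inj.1 hx
      rw [h.out _ (hc.trans_le (h1 ▸ abs_re_le_norm _))]
      simp) (right_mem_Icc.2 hab)
  exact neg_le_neg_iff.1 this

omit h in
theorem far (z w : ℂ) (hw : max (2 * ρ) ‖z‖ < ‖w‖) : ρ < |w.im| ∨ w.re < -ρ ∨ ρ < w.re := by
  by_contra hn
  push Not at hn
  have h1 := norm_le_abs_re_add_abs_im w
  have h2 : |w.re| ≤ ρ := abs_le.2 hn.2
  linarith [hn.1, le_max_left (2 * ρ) ‖z‖]

theorem fwd (z : ℂ) (c : ℝ) : ∃ T, c < (ψ T z).re := by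
  suffices ∃ T, ρ < (ψ T z).re by
    obtain ⟨T, hT⟩ := this
    refine ⟨|c| + T, ?_⟩
    rw [h.add, h.right hT (by linarith [abs_nonneg c])]
    simp only [add_re, ofReal_re]
    linarith [le_abs_self c, h.pos]
  obtain ⟨t, ht, hw⟩ := unbounded h.cont (h.der z) (fun a b e r => by
    rw [add_comm a, add_comm b, h.add, h.add, e]) (max (2 * ρ) ‖z‖)
  rcases far (ρ := ρ) z _ hw with h1 | h1 | h1
  · refine ⟨(ρ + 1 - (ψ t z).re) + t, ?_⟩
    rw [h.add, h.hor h1]
    simp
  · exfalso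
    have h2 := h.left h1 (T := -t) (by linarith)
    rw [h.inv] at h2
    have h3 : ‖ψ t z‖ ≤ ‖z‖ := by
      conv_rhs => rw [h2]
      rw [← sq_le_sq₀ (norm_nonneg _) (norm_nonneg _), Complex.sq_norm, Complex.sq_norm,
        normSq_apply, normSq_apply]
      simp only [add_re, ofReal_re, add_im, ofReal_im, add_zero]
      nlinarith [h.pos]
    linarith [le_max_right (2 * ρ) ‖z‖]
  · exact ⟨t, h1⟩

theorem bwd {R : ℝ} (hR : ρ < R) (z : ℂ) : ∃ T y : ℝ, ψ T (-R + y * I) = z := by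
  obtain ⟨t, ht, hw⟩ := unbounded (ℓ := fun w => ℓ w + Real.pi * I) (γ := fun t => ψ (-t) z)
    (by have := h.cont; fun_prop) (fun t => by
      have := (h.der z (-t)).scomp t (hasDerivAt_neg t)
      rw [exp_add, exp_pi_mul_I]
      rw [neg_one_smul] at this
      rw [mul_neg_one]
      exact this) (fun a b e r => by
    rw [neg_add, neg_add, add_comm (-a), add_comm (-b), h.add, h.add, e]) (max (2 * ρ) ‖z‖)
  set w := ψ (-t) z with hw'
  have e : ψ t w = z := by simpa using h.inv (-t) z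
  have e2 : -(R : ℂ) + w.im * I + (w.re + R : ℝ) = w := by apply Complex.ext <;> simp
  rcases far (ρ := ρ) z _ hw with h1 | h1 | h1
  · exact ⟨t + (w.re + R), w.im, by rw [h.add, h.hor (z := -R + w.im * I) (by simpa using h1), e2, e]⟩
  · exact ⟨t + (w.re + R), w.im, by
      rw [h.add, h.left (z := -R + w.im * I) (by simpa using hR) (by simpa using h1), e2, e]⟩
  · exfalso
    rw [h.right h1 (by linarith)] at e
    have h3 : ‖w‖ ≤ ‖z‖ := by
      rw [← e, ← sq_le_sq₀ (norm_nonneg _) (norm_nonneg _), Complex.sq_norm, Complex.sq_norm,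
        normSq_apply, normSq_apply]
      simp only [add_re, ofReal_re, add_im, ofReal_im, add_zero]
      nlinarith [h.pos]
    linarith [le_max_right (2 * ρ) ‖z‖]

theorem leave {R T : ℝ} (hR : ρ < R) {p : ℂ} (hp : p.re = -R) (hT : 0 < T) : -R < (ψ T p).re := by
  set δ := min T ((R - ρ) / 2) with hδ
  have h1 : 0 < δ := lt_min hT (by linarith)
  have h2 : δ ≤ (R - ρ) / 2 := min_le_right _ _
  have h3 := h.bar (c := -R + δ) (a := δ) (b := T) (z := p)
    (by rw [lt_abs]; right; linarith)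
    (by rw [h.left (by linarith) (by linarith)]; simp [hp]) (min_le_left _ _)
  linarith

theorem inj {R : ℝ} (hR : ρ < R) : Injective fun z : ℂ => ψ (z.re + R) (-R + z.im * I) := by
  have key : ∀ z w : ℂ, z.re ≤ w.re →
      ψ (z.re + R) (-R + z.im * I) = ψ (w.re + R) (-R + w.im * I) → z = w := by
    intro z w hle e
    have h1 := congrArg (ψ (-(z.re + R))) e
    rw [h.inv, ← h.add] at h1
    rcases hle.eq_or_lt with h2 | h2
    · rw [h2, neg_add_cancel, h.zero] at h1
      exact Complex.ext h2 (by simpa using congrArg Complex.im h1)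
    · have h3 := h.leave hR (p := -R + w.im * I) (T := -(z.re + R) + (w.re + R)) (by simp)
        (by linarith)
      rw [← h1] at h3
      simp at h3
  intro z w e
  rcases le_total z.re w.re with h1 | h1
  · exact key z w h1 e
  · exact (key w z h1 e.symm).symm

theorem bij {R : ℝ} (hR : ρ < R) : Bijective fun z : ℂ => ψ (z.re + R) (-R + z.im * I) :=
  ⟨h.inj hR, fun z => by
    obtain ⟨T, y, e⟩ := h.bwd hR z
    exact ⟨(T - R : ℝ) + y * I, by simpa using e⟩⟩

theorem ld {R : ℝ} (hR : ρ < R) (hs : ∀ t, ContDiff ℝ ∞ (ψ t)) (z₀ : ℂ) :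
    IsLocalDiffeomorphAt IC IC ∞ (fun z : ℂ => ψ (z.re + R) (-R + z.im * I)) z₀ := by
  have h1 := (Glue52.diffeoOf (I := IC) (J := IC) (ψ (z₀.re + R)) (ψ (-(z₀.re + R)))
    (hs _).contMDiff (hs _).contMDiff (h.inv _) (fun y => by
      simpa using h.inv (-(z₀.re + R)) y)).isLocalDiffeomorph
  have h2 := Cyl58.ld_comp (h1 _) (pm_affine one_ne_zero (-(z₀.re + R : ℝ)) z₀).1
  refine Cyl58.ld_congr h2 ?_
  have h3 : ∀ᶠ z : ℂ in 𝓝 z₀, -R + (z.re - z₀.re) < -ρ :=
    ContinuousAt.eventually_lt (by fun_prop) continuousAt_const (by linarith)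
  filter_upwards [h3] with z hz
  rw [show z.re + R = (z₀.re + R) + (z.re - z₀.re) by ring, h.add,
    h.left (z := -R + z.im * I) (by simpa using hR) (by simpa using hz)]
  show _ = ψ (z₀.re + R) _
  congr 1
  apply Complex.ext <;> simp
  ring

end Fl

theorem fd_eq {F : Type*} [NormedAddCommGroup F] [NormedSpace ℝ F] {f : ℂ → F} {z e : ℂ} {d : F}
    (hf : DifferentiableAt ℝ f z) (h : HasDerivAt (fun t : ℝ => f (z + t * e)) d 0) :
    fderiv ℝ f z e = d := by
  have h1 : HasDerivAt (fun t : ℝ => z + t * e) e 0 := by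
    simpa using ((hasDerivAt_id (0 : ℝ)).ofReal_comp.mul_const e).const_add z
  exact (hf.hasFDerivAt.comp_hasDerivAt_of_eq 0 h1 (by simp)).unique h

/-- shears in the direction `e` -/
theorem shear_iso (e : ℂ) {b : ℝ → ℂ → ℝ} (hb : ContDiff ℝ ∞ fun p : ℝ × ℂ => b p.1 p.2)
    (hd : ∀ s z, 0 < 1 + fderiv ℝ (b s) z e) {M : ℝ} (hM : ∀ s z, |b s z| ≤ M)
    (h0 : ∀ z, b 0 z = 0) : ∃ A, Iso oC A ∧ ∀ s z, A s z = z + b s z * e := by
  have hs : ∀ s, ContDiff ℝ ∞ (b s) := fun s => hb.comp (contDiff_const.prodMk contDiff_id)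
  have hdd : ∀ s z, HasFDerivAt (b s) (fderiv ℝ (b s) z) z := fun s z =>
    ((hs s).differentiable (by simp) z).hasFDerivAt
  have hder : ∀ s z (t : ℝ), HasDerivAt (fun t : ℝ => t + b s (z + t * e))
      (1 + fderiv ℝ (b s) (z + t * e) e) t := fun s z t => by
    have h1 : HasDerivAt (fun t : ℝ => z + t * e) e t := by
      simpa using ((hasDerivAt_id t).ofReal_comp.mul_const e).const_add z
    exact (hasDerivAt_id t).add ((hdd s _).comp_hasDerivAt t h1)
  have hbij : ∀ s, Bijective fun z => z + b s z * e := fun s => ⟨fun z w h => by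
    simp only at h
    have h1 : w = z + (b s z - b s w : ℝ) * e := by push_cast; linear_combination -h
    have h2 := (strictMono_of_hasDerivAt_pos (hder s z) fun t => hd s _).injective
      (a₁ := b s z - b s w) (a₂ := 0) (by rw [← h1]; simp)
    rw [h1, h2]; simp, fun w => by
    obtain ⟨t, -, ht⟩ := intermediate_value_Icc (f := fun t : ℝ => t + b s (w + t * e))
      (a := -M) (b := M) (by linarith [abs_nonneg (b s w), hM s w])
      (fun t _ => (hder s w t).continuousAt.continuousWithinAt)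
      (show (0 : ℝ) ∈ _ from ⟨by linarith [(abs_le.1 (hM s (w + (-M : ℝ) * e))).2],
        by linarith [(abs_le.1 (hM s (w + M * e))).1]⟩)
    refine ⟨w + t * e, ?_⟩
    have : b s (w + t * e) = -t := by linarith
    simp [this]⟩
  have hsm : ContDiff ℝ ∞ fun p : ℝ × ℂ => p.2 + b p.1 p.2 * e :=
    contDiff_snd.add ((ofRealCLM.contDiff.comp hb).mul contDiff_const)
  refine ⟨fun s => Equiv.ofBijective _ (hbij s), ⟨cm_of_cd hsm, fun s z => ?_,
    Equiv.ext fun z => by simp [h0]⟩, fun _ _ => rfl⟩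
  refine pm_C isOpen_univ (mem_univ z)
    (hsm.comp (contDiff_const.prodMk contDiff_id)).contDiffOn ?_
  have h1 : HasFDerivAt (fun z => z + b s z * e) _ z :=
    (hasFDerivAt_id z).add ((ofRealCLM.hasFDerivAt.comp z (hdd s z)).mul_const e)
  have h2 : fderiv ℝ (b s) z e = e.re * fderiv ℝ (b s) z 1 + e.im * fderiv ℝ (b s) z I := by
    rw [← smul_eq_mul, ← smul_eq_mul, ← map_smul, ← map_smul, ← map_add]
    congr 1
    simp
  have h3 := hd s z
  rw [show ⇑(Equiv.ofBijective _ (hbij s)) = fun z => z + b s z * e from rfl, h1.fderiv, det_C]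
  simp
  nlinarith

theorem exists_slope : ∃ B > 0, ∀ x, |deriv Real.smoothTransition x| ≤ B := by
  have h1 : HasCompactSupport (deriv Real.smoothTransition) := by
    refine HasCompactSupport.intro (isCompact_Icc (a := (0 : ℝ)) (b := 1)) fun t ht => ?_
    rcases not_and_or.1 ht with h | h
    · have : Real.smoothTransition =ᶠ[𝓝 t] fun _ => 0 := by
        filter_upwards [Iio_mem_nhds (not_le.1 h)] with z hz
        exact Real.smoothTransition.zero_of_nonpos (le_of_lt hz)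
      rw [this.deriv_eq, deriv_const]
    · have : Real.smoothTransition =ᶠ[𝓝 t] fun _ => 1 := by
        filter_upwards [Ioi_mem_nhds (not_le.1 h)] with z hz
        exact Real.smoothTransition.one_of_one_le (le_of_lt hz)
      rw [this.deriv_eq, deriv_const]
  obtain ⟨B, hB⟩ := h1.exists_bound_of_continuous
    ((Real.smoothTransition.contDiff (n := 1)).continuous_deriv le_rfl)
  exact ⟨max B 1, by positivity, fun x => (hB x).trans (le_max_left _ _)⟩

/-- correction on the right -/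
theorem fix_right {F : ℝ → Equiv.Perm ℂ} (hF : Iso oC F) {R M : ℝ} (hR : 0 < R)
    (hl : ∀ s z, z.re ≤ -R ∨ R ≤ |z.im| → F s z = z)
    (hr : ∀ s (z : ℂ), R ≤ z.re → F s z = F s (R + z.im * I) + (z.re - R : ℝ))
    (hM : ∀ s (y : ℝ), ‖F s (R + y * I) - (R + y * I)‖ ≤ M)
    (h1 : ∀ y : ℝ, F 1 (R + y * I) = R + y * I) :
    ∃ φ, Iso oC φ ∧ φ 1 = F 1 ∧ ∃ ρ : ℝ, ∀ t z, ρ ≤ ‖z‖ → φ t z = z := by
  obtain ⟨B, hB0, hB⟩ := exists_slope
  have hM0 : 0 ≤ M := (norm_nonneg _).trans (hM 0 0)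
  set D : ℝ → ℝ → ℂ := fun s y => F s (R + y * I) - (R + y * I) with hD
  have hFs : ContDiff ℝ ∞ fun p : ℝ × ℂ => F p.1 p.2 := cd_of_cm hF.sm
  have hv : ContDiff ℝ ∞ fun p : ℝ × ℂ => (R : ℂ) + p.2.im * I := contDiff_const.add
    ((ofRealCLM.contDiff.comp (imCLM.contDiff.comp contDiff_snd)).mul contDiff_const)
  have hDs : ContDiff ℝ ∞ fun p : ℝ × ℂ => D p.1 p.2.im :=
    (hFs.comp (contDiff_fst.prodMk hv)).sub hv
  have hD0 : ∀ y, D 0 y = 0 := fun y => by simp [hD, hF.zero]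
  have hD1 : ∀ y, D 1 y = 0 := fun y => by simp [hD, h1]
  have hD2 : ∀ s y, R ≤ |y| → D s y = 0 := fun s y hy => by
    simp only [hD]; rw [hl s _ (.inr (by simpa using hy)), sub_self]
  set L := B * M + 1 with hL
  have hL0 : 0 < L := by positivity
  set χ : ℝ → ℝ := fun x => Real.smoothTransition ((x + R) / L) with hχ
  have hχs : ContDiff ℝ ∞ χ := Real.smoothTransition.contDiff.comp (by fun_prop)
  have hχp : ContDiff ℝ ∞ fun p : ℝ × ℂ => χ p.2.re := hχs.comp (reCLM.contDiff.comp contDiff_snd)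
  have hχ0 : ∀ x, 0 ≤ χ x := fun x => Real.smoothTransition.nonneg _
  have hχ1 : ∀ x, χ x ≤ 1 := fun x => Real.smoothTransition.le_one _
  have hχl : ∀ x, x ≤ -R → χ x = 0 := fun x hx =>
    Real.smoothTransition.zero_of_nonpos (div_nonpos_of_nonpos_of_nonneg (by linarith) hL0.le)
  have hχr : ∀ x, L ≤ x → χ x = 1 := fun x hx =>
    Real.smoothTransition.one_of_one_le ((one_le_div hL0).2 (by linarith))
  have bd : ∀ (x a : ℝ), |a| ≤ M → |χ x * a| ≤ M := fun x a ha => by
    rw [abs_mul, abs_of_nonneg (hχ0 x)]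
    nlinarith [hχ0 x, hχ1 x, abs_nonneg a]
  have sl : ∀ {b : ℝ → ℂ → ℝ}, ContDiff ℝ ∞ (fun p : ℝ × ℂ => b p.1 p.2) → ∀ s z,
      DifferentiableAt ℝ (b s) z := fun hb s z =>
    (hb.comp (contDiff_const.prodMk contDiff_id)).differentiable (by simp) z
  have hA : ContDiff ℝ ∞ fun p : ℝ × ℂ => χ p.2.re * (D p.1 p.2.im).re :=
    hχp.mul (reCLM.contDiff.comp hDs)
  obtain ⟨A, iA, eA⟩ := shear_iso 1 (b := fun s z => χ z.re * (D s z.im).re) hA (fun s z => by
    have h2 : HasDerivAt (fun t : ℝ => (z.re + t + R) / L) (1 / L) 0 :=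
      (((hasDerivAt_id (0 : ℝ)).const_add z.re).add_const R).div_const L
    have h3 := (((Real.smoothTransition.contDiff (n := 1)).differentiable (by simp)
      _).hasDerivAt.comp (0 : ℝ) h2).mul_const (D s z.im).re
    rw [fd_eq (sl (b := fun s z => χ z.re * (D s z.im).re) hA s z) (by simpa [hχ] using h3)]
    have h4 := hB ((z.re + R) / L)
    have h5 := (abs_re_le_norm _).trans (hM s z.im)
    have h6 : |deriv Real.smoothTransition ((z.re + R) / L) * (D s z.im).re| ≤ B * M := by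
      rw [abs_mul]; exact mul_le_mul h4 h5 (abs_nonneg _) hB0.le
    have h7 := (abs_le.1 h6).1
    have : 1 + deriv Real.smoothTransition ((z.re + R) / L) * L⁻¹ * (D s z.im).re =
        (L + deriv Real.smoothTransition ((z.re + R) / L) * (D s z.im).re) / L := by field_simp
    rw [this]
    exact div_pos (by linarith) hL0)
    (fun s z => bd _ _ ((abs_re_le_norm _).trans (hM s z.im))) (fun z => by simp [hD0])
  have hG : ContDiff ℝ ∞ fun p : ℝ × ℂ => χ p.2.re * (D p.1 p.2.im).im :=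
    hχp.mul (imCLM.contDiff.comp hDs)
  obtain ⟨G', iG, eG⟩ := shear_iso I (b := fun s z => χ z.re * (D s z.im).im) hG (fun s z => by
    set w : ℂ := (R + 1 : ℝ) + z.im * I with hw
    have hp := hF.mem s w
    have hdf := hp.contDiffAt.differentiableAt (by simp)
    have h2 : fderiv ℝ (F s) w 1 = 1 := fd_eq hdf (by
      have h3 : HasDerivAt (fun t : ℝ => F s (R + z.im * I) + (1 + t : ℝ)) 1 0 := by
        simpa using ((hasDerivAt_id (0 : ℝ)).const_add 1).ofReal_comp.const_add (F s (R + z.im * I))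
      refine h3.congr_of_eventuallyEq ?_
      filter_upwards [Ioi_mem_nhds (show (-1 : ℝ) < 0 by norm_num)] with t ht
      have ht' : -1 < t := ht
      rw [hr s _ (by simp [hw]; linarith)]
      simp [hw]
      ring)
    have h3 := hp.det_pos
    rw [det_C, h2] at h3
    have h4 : HasDerivAt (fun t : ℝ => w + t * I) I 0 := by
      simpa using ((hasDerivAt_id (0 : ℝ)).ofReal_comp.mul_const I).const_add w
    have h5 := imCLM.hasFDerivAt.comp_hasDerivAt 0
      (hdf.hasFDerivAt.comp_hasDerivAt_of_eq 0 h4 (by simp))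
    have h6 := (h5.sub ((hasDerivAt_id (0 : ℝ)).const_add z.im)).const_mul (χ z.re)
    rw [fd_eq (sl (b := fun s z => χ z.re * (D s z.im).im) hG s z) (d := χ z.re * ((fderiv ℝ (F s) w I).im - 1)) (by
      refine h6.congr_of_eventuallyEq (Eventually.of_forall fun t => ?_)
      simp only [comp_apply, imCLM_apply, Pi.sub_apply, id]
      rw [hr s (w + t * I) (by simp [hw])]
      simp [hw, hD])]
    simp only [one_re, one_mul, one_im, mul_zero, sub_zero] at h3
    rcases (hχ0 z.re).eq_or_lt with h7 | h7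
    · rw [← h7]; norm_num
    · nlinarith [mul_pos h7 h3, hχ1 z.re])
    (fun s z => bd _ _ ((abs_im_le_norm _).trans (hM s z.im))) (fun z => by simp [hD0])
  refine ⟨fun s => (G' s * A s)⁻¹ * F s, (iG.mul iA).inv.mul hF, ?_,
    (R + L + M) + (R + L + M), fun s z hz => ?_⟩
  · have : G' 1 * A 1 = 1 := Equiv.ext fun z => by simp [eA, eG, hD1]
    simp only [this, inv_one, one_mul]
  rw [Equiv.Perm.mul_apply, Equiv.Perm.inv_eq_iff_eq, Equiv.Perm.mul_apply, eG, eA]
  rcases le_or_gt R |z.im| with h2 | h2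
  · simp [hl s z (.inr h2), hD2 s _ h2]
  have h3 := norm_le_abs_re_add_abs_im z
  rcases le_abs.1 (show R + L + M ≤ |z.re| by linarith) with h4 | h4
  · have h5 := (abs_le.1 ((abs_re_le_norm _).trans (hM s z.im))).1
    rw [hr s z (by linarith), hχr z.re (by linarith), hχr _ (by
      simp only [add_re, one_mul, mul_one, ofReal_re, hD]; linarith)]
    apply Complex.ext <;> simp [hD]
    ring
  · simp [hl s z (.inl (by linarith)), hχl z.re (by linarith)]

end Crest.Agent.X212.Lad50.Sm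
end
end

-- ▼ part X212/Lad50/Smale

/-!
# Row 212, PERF-SMALE (helper50): compactly supported diffeomorphisms of the plane are isotopic
to the identity with compact support
-/

set_option autoImplicit false
noncomputable section
open Set Filter Topology Function Complex
open scoped ContDiff Manifold

namespace Crest.Agent.X212.Lad50.Sm
open Prf6

theorem pre_out (ρ : ℝ) : IsPreconnected {z : ℂ | ρ < ‖z‖} := by
  have h := ((isPreconnected_Ioi (a := ρ)).prod (isPreconnected_univ (α := ℝ))).image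
    (fun p : ℝ × ℝ => (p.1 : ℂ) * exp (p.2 * I)) (by fun_prop)
  convert h using 1
  ext z
  constructor
  · exact fun hz => ⟨(‖z‖, arg z), ⟨hz, trivial⟩, norm_mul_exp_arg_mul_I z⟩
  · rintro ⟨p, ⟨hp, -⟩, rfl⟩
    have : ρ < p.1 := hp
    simp only [mem_ofPred_eq, norm_mul, norm_exp_ofReal_mul_I, mul_one, norm_real, Real.norm_eq_abs]
    exact this.trans_le (le_abs_self _)

theorem contDiff_log {X ℓ : ℂ → ℂ} (hX : ContDiff ℝ ∞ X) (hℓ : Continuous ℓ)
    (e : ∀ z, exp (ℓ z) = X z) : ContDiff ℝ ∞ ℓ := by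
  refine contDiff_iff_contDiffAt.2 fun z₀ => ?_
  have h1 : ContDiffAt ℝ ∞ (fun z => ℓ z₀ + log (X z / X z₀)) z₀ := by
    refine contDiffAt_const.add (ContDiffAt.comp z₀ (g := log) ?_ (hX.contDiffAt.div_const _))
    rw [div_self (e z₀ ▸ exp_ne_zero _)]
    exact (contDiffAt_log one_mem_slitPlane).restrict_scalars ℝ
  refine h1.congr_of_eventuallyEq ?_
  have h2 : ∀ᶠ z in 𝓝 z₀, |(ℓ z - ℓ z₀).im| < Real.pi :=
    ContinuousAt.eventually_lt (by fun_prop) continuousAt_const (by simp [Real.pi_pos])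
  filter_upwards [h2] with z hz
  rw [← e, ← e, ← exp_sub, log_exp (abs_lt.1 hz).1 (abs_lt.1 hz).2.le]
  ring

theorem smale : Smale := by
  rintro h hh ⟨ρ₀, hρ₀⟩
  set ρ := max ρ₀ 1 with hρ
  have hρ0 : 0 < ρ := by positivity
  have hid : ∀ z, ρ ≤ ‖z‖ → h z = z := fun z hz => hρ₀ z ((le_max_left _ _).trans hz)
  have hs : ContDiff ℝ ∞ h := contMDiff_iff_contDiff.1 (G_sm hh)
  have hs' : ContDiff ℝ ∞ (h⁻¹ : Equiv.Perm ℂ) := contMDiff_iff_contDiff.1 (G_sm (inv_mem hh))
  set X : ℂ → ℂ := fun z => fderiv ℝ h (h⁻¹ z) 1 with hX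
  have hXs : ContDiff ℝ ∞ X :=
    ((hs.fderiv_right (m := ∞) (by simp)).comp hs').clm_apply contDiff_const
  have hX0 : ∀ z, X z ≠ 0 := fun z e => by
    have h1 := (hh (h⁻¹ z)).det_pos
    rw [det_C, show fderiv ℝ h (h⁻¹ z) 1 = 0 from e] at h1
    simp at h1
  have hX1 : ∀ z, ρ < ‖z‖ → X z = 1 := fun z hz => by
    have h1 : h⁻¹ z = z := by rw [Equiv.Perm.inv_eq_iff_eq, hid z hz.le]
    have h2 : h =ᶠ[𝓝 z] id := by
      filter_upwards [(isOpen_lt continuous_const continuous_norm).mem_nhds hz] with w hw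
      exact hid w (le_of_lt hw)
    simp only [hX, h1, h2.fderiv_eq, fderiv_id, ContinuousLinearMap.id_apply]
  have hb : ρ < ‖((ρ + 1 : ℝ) : ℂ)‖ := by
    rw [norm_real, Real.norm_eq_abs, abs_of_pos (by linarith)]; linarith
  obtain ⟨ℓ, hℓc, hℓ0, hℓ⟩ := exists_log hXs.continuous hX0 ((ρ + 1 : ℝ) : ℂ) (e := 0)
    (by rw [hX1 _ hb, exp_zero])
  have hout : ∀ z, ρ < ‖z‖ → ℓ z = 0 := fun z hz =>
    (log_constOn (pre_out ρ) hℓc.continuousOn (fun w hw => (hℓ w).trans (hX1 w hw)) hz hb).trans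
      hℓ0
  obtain ⟨ψ, hψ, hF⟩ := exists_flow (contDiff_log hXs hℓc hℓ) hρ0 hout
  set R := ρ + 1 with hR
  have hρR : ρ < R := by linarith
  set F : ℝ → Equiv.Perm ℂ := fun σ => Equiv.ofBijective _ ((hF σ).bij hρR) with hFd
  have eF : ∀ σ z, F σ z = ψ σ (z.re + R) (-R + z.im * I) := fun _ _ => rfl
  have ez : ∀ z : ℂ, -(R : ℂ) + z.im * I + (z.re + R : ℝ) = z := fun z => by
    apply Complex.ext <;> simp
  have hsm : ContDiff ℝ ∞ fun p : ℝ × ℂ => F p.1 p.2 :=
    hψ.comp (f := fun p : ℝ × ℂ => (p.2.re + R, p.1, -(R : ℂ) + p.2.im * I))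
      (((reCLM.contDiff.comp contDiff_snd).add contDiff_const).prodMk (contDiff_fst.prodMk
        (contDiff_const.add ((ofRealCLM.contDiff.comp (imCLM.contDiff.comp contDiff_snd)).mul
          contDiff_const))))
  have hF0 : F 0 = 1 := Equiv.ext fun z => by
    have := (hF 0).uniq (fun r => -R + z.im * I + r) (z.re + R) fun s _ =>
      Eventually.of_forall fun r => by
        simpa using (hasDerivAt_id r).ofReal_comp.const_add (-(R : ℂ) + z.im * I)
    rw [eF, ez] at *
    simpa using this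
  have hF1 : F 1 = h := Equiv.ext fun z => by
    have := (hF 1).uniq (fun r => h (-R + z.im * I + r)) (z.re + R) fun s _ =>
      Eventually.of_forall fun r => by
        have h1 := (hs.differentiable (by simp) _).hasFDerivAt.comp_hasDerivAt r
          ((hasDerivAt_id r).ofReal_comp.const_add (-(R : ℂ) + z.im * I))
        simp only [ofReal_one, one_mul, hℓ, hX, Equiv.Perm.coe_inv, Equiv.symm_apply_apply]
        exact h1
    rw [ez, ofReal_zero, add_zero, hid] at this
    · exact this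
    · have := neg_le_of_abs_le (abs_re_le_norm (-(R : ℂ) + z.im * I))
      simp at this
      linarith
  have hI : Iso oC F := iso_of_ld (cm_of_cd hsm) (fun σ z => (hF σ).ld hρR (fun t =>
    hψ.comp (f := fun z : ℂ => (t, σ, z)) (by fun_prop)) z) hF0
  -- a uniform exit time
  have hK : IsCompact (Icc (0 : ℝ) 1 ×ˢ Icc (-R) R) := isCompact_Icc.prod isCompact_Icc
  obtain ⟨T, hT⟩ : ∃ T : ℝ, ∀ q ∈ Icc (0 : ℝ) 1 ×ˢ Icc (-R) R, ∀ t ≥ T,
      R ≤ (ψ q.1 t (-R + q.2 * I)).re := by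
    refine hK.induction_on (p := fun S : Set (ℝ × ℝ) => ∃ T : ℝ, ∀ q ∈ S, ∀ t ≥ T,
      R ≤ (ψ q.1 t (-R + q.2 * I)).re) ⟨0, fun q hq => hq.elim⟩
      (fun S S' hS ⟨T, hT⟩ => ⟨T, fun q hq => hT q (hS hq)⟩)
      (fun S S' ⟨T, hT⟩ ⟨T', hT'⟩ => ⟨max T T', fun q hq t ht => hq.elim
        (fun hq => hT q hq t ((le_max_left _ _).trans ht))
        fun hq => hT' q hq t ((le_max_right _ _).trans ht)⟩) fun q _ => ?_
    obtain ⟨T, hT⟩ := (hF q.1).fwd (-R + q.2 * I) R
    have h1 : Continuous fun q : ℝ × ℝ => (ψ q.1 T (-R + q.2 * I)).re :=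
      continuous_re.comp (hψ.continuous.comp
        (f := fun q : ℝ × ℝ => (T, q.1, -(R : ℂ) + q.2 * I)) (by fun_prop))
    exact ⟨_, mem_nhdsWithin_of_mem_nhds ((isOpen_lt continuous_const h1).mem_nhds hT), T,
      fun q' hq' t ht => (hF q'.1).bar (hρR.trans_le (le_abs_self R)) (le_of_lt hq') ht⟩
  set R' := max T 0 + R with hR'
  have hRR : R ≤ R' := by linarith [le_max_right T 0]
  have hl : ∀ σ (z : ℂ), z.re ≤ -R ∨ R ≤ |z.im| → F σ z = z := fun σ z hz => by
    rw [eF]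
    rcases hz with hz | hz
    · rw [(hF σ).left (by simpa using hρR) (by simp; linarith), ez]
    · rw [(hF σ).hor (by simpa using hρR.trans_le hz), ez]
  obtain ⟨M, hM⟩ := hK.exists_bound_of_continuousOn
    (f := fun q : ℝ × ℝ => F q.1 (R' + q.2 * I) - (R' + q.2 * I))
    ((hsm.continuous.comp (f := fun q : ℝ × ℝ => (q.1, (R' : ℂ) + q.2 * I))
      (by fun_prop)).sub (by fun_prop)).continuousOn
  have hσ : ∀ s, Real.smoothTransition s ∈ Icc (0 : ℝ) 1 := fun s =>
    ⟨Real.smoothTransition.nonneg s, Real.smoothTransition.le_one s⟩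
  obtain ⟨φ, h1, h2, h3⟩ := fix_right hI.clamp (R := R') (M := max M 0) (by linarith)
    (fun s z hz => hl _ z (hz.imp (fun hz => by linarith) fun hz => by linarith))
    (fun s z hz => by
      have h4 : R ≤ (F (Real.smoothTransition s) (R' + z.im * I)).re := by
        rcases le_total R |z.im| with h4 | h4
        · rw [hl _ _ (.inr (by simpa using h4))]
          simpa using hRR
        · have := hT (Real.smoothTransition s, z.im) ⟨hσ s, abs_le.1 h4⟩ (R' + R)
            (by linarith [le_max_left T 0])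
          rw [eF]
          simpa using this
      rw [← (hF (Real.smoothTransition s)).right (by linarith) (by linarith), eF, eF,
        ← (hF _).add]
      congr 1
      · simp only [add_re, ofReal_re, mul_re, I_re, ofReal_im, I_im]
        ring
      · simp)
    (fun s y => by
      rcases le_total R |y| with h4 | h4
      · rw [hl _ _ (.inr (by simpa using h4))]
        simp
      · exact (hM (Real.smoothTransition s, y) ⟨hσ s, abs_le.1 h4⟩).trans (le_max_left _ _))
    (fun y => by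
      rw [Real.smoothTransition.one, hF1, hid]
      have := le_of_abs_le (abs_re_le_norm ((R' : ℂ) + y * I))
      simp at this
      linarith)
  exact ⟨φ, h1, by rw [h2, Real.smoothTransition.one, hF1], h3⟩

end Crest.Agent.X212.Lad50.Sm
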