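import Crest.Agent.X212.Dec35.Lv
import Crest.Agent.X212.Hm83.Poi
import Crest.Agent.X212.Cht98.Cov

-- ▼ part X212/Lad50/Wgt
section

/-!
# Row 212, leaf DEC-WGT: the peaked weights
-/

set_option autoImplicit false
set_option linter.unusedSectionVars false
noncomputable section
open scoped Manifold ContDiff Topology InnerProductSpace
open MeasureTheory Set Function Filter Real

namespace Crest.Agent.X212.Lad50.Wg
open An Sob92 Nd18 Cyf70 Dec35
open Neck67 (up dn Bd cS)

/-- the primitive of a step -/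
def Up (a l t : ℝ) : ℝ := ∫ s in a..t, up a l s

section
variable {a l t : ℝ}

theorem up_cont (hl : 1 ≤ l) : Continuous (up a l) := (Neck67.sm_up hl a).cd.continuous

theorem hasDerivAt_Up (hl : 1 ≤ l) (t : ℝ) : HasDerivAt (Up a l) (up a l t) t :=
  ((up_cont hl).integral_hasStrictDerivAt a t).hasDerivAt

theorem Up_bd (hl : 1 ≤ l) (t : ℝ) : max 0 (t - a) - l ≤ Up a l t ∧ Up a l t ≤ max 0 (t - a) := by
  have hc := up_cont (a := a) hl
  have h0 : 0 < l := by linarith
  rcases le_total t a with h | h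
  · have : Up a l t = 0 := by
      rw [Up, intervalIntegral.integral_congr (g := fun _ => 0) fun s hs =>
        Neck67.up_zero h0 (by rw [uIcc_of_ge h] at hs; exact hs.2)]
      simp
    rw [this, max_eq_left (by linarith)]
    constructor <;> linarith
  · rw [max_eq_right (by linarith)]
    have nn : ∀ x, a ≤ x → 0 ≤ Up a l x := fun x hx =>
      intervalIntegral.integral_nonneg hx fun s _ => (Neck67.up_mem a l s).1
    refine ⟨?_, ?_⟩
    · rcases le_total t (a + l) with h' | h'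
      · linarith [nn t h]
      · have e : Up a l t = Up a l (a + l) + ∫ s in (a + l)..t, up a l s :=
          (intervalIntegral.integral_add_adjacent_intervals (hc.intervalIntegrable _ _)
            (hc.intervalIntegrable _ _)).symm
        rw [e, intervalIntegral.integral_congr (g := fun _ => 1) fun s hs =>
          Neck67.up_one h0 (by rw [uIcc_of_le h'] at hs; exact hs.1)]
        have := nn (a + l) (by linarith)
        simp only [intervalIntegral.integral_const, smul_eq_mul, mul_one]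
        linarith
    · have := intervalIntegral.integral_mono_on (μ := volume) h (hc.intervalIntegrable _ _)
        (continuous_const (y := (1 : ℝ)).intervalIntegrable _ _) fun s _ => (Neck67.up_mem a l s).2
      simpa [Up] using this

end

theorem tent_eq {L p q : ℝ} (hL : 0 ≤ L) (h : p ≤ q) (t : ℝ) : tent L p q t =
    max 0 (t - (p - L)) - 2 * max 0 (t - (p + q) / 2) + max 0 (t - (q + L)) := by
  simp only [tent, max_def, min_def]
  split_ifs <;> linarith

theorem tent_mem {L p q : ℝ} (hL : 0 ≤ L) (h : p ≤ q) (t : ℝ) :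
    0 ≤ tent L p q t ∧ tent L p q t ≤ L + (q - p) := by
  simp only [tent, max_def, min_def]
  split_ifs <;> constructor <;> linarith

theorem max_sh {a b : ℝ} (h : a ≤ b) (t : ℝ) :
    max 0 (t - b) ≤ max 0 (t - a) ∧ max 0 (t - a) ≤ max 0 (t - b) + (b - a) := by
  simp only [max_def]
  split_ifs <;> constructor <;> linarith

/-- the weights on the line -/
theorem line {ε : ℝ} (hε : 0 < ε) : ∃ Λ ≥ 1, ∀ δ, 0 < δ → δ ≤ 1 → ∀ L p q, Λ ≤ L → p ≤ q →
    ∃ ψ ς k, Pf δ ε ψ ς k ∧ (∀ j, Bd j (deriv ψ) (4 * cS j)) ∧ (∀ t, δ * tent L p q t ≤ ψ t) ∧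
      (∀ t, ψ t ≤ δ * tent L p q t + Λ) ∧
      ∀ t, k t ≠ 0 → t ≤ p - L ∨ |t - (p + q) / 2| ≤ Λ ∨ q + L ≤ t := by
  obtain ⟨l, hl, hl'⟩ : ∃ l : ℝ, 1 ≤ l ∧ 4 * cS 0 / ε ≤ l := ⟨_, le_max_left _ _, le_max_right _ _⟩
  have h0 : 0 < l := by linarith
  refine ⟨5 * l + 2, by linarith, fun δ hδ hδ1 L p q hL hpq => ?_⟩
  obtain ⟨a, ha⟩ : ∃ a, a = p - L - l - 1 := ⟨_, rfl⟩
  obtain ⟨b, hb⟩ : ∃ b, b = (p + q) / 2 := ⟨_, rfl⟩
  obtain ⟨c, hc⟩ : ∃ c, c = q + L + 1 := ⟨_, rfl⟩
  have ab : a + l ≤ b := by linarith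
  have bc : b + l ≤ c := by linarith
  let ς : ℝ → ℝ := (2 : ℝ) • up b l - (up a l + up c l)
  let ψ : ℝ → ℝ := fun t => δ * (2 * l + 1 + (Up a l t - 2 * Up b l t + Up c l t))
  let k : ℝ → ℝ := 1 - (up (a + l) 1 * dn b 1 + up (b + l) 1 * dn c 1)
  have eς : ∀ t, ς t = 2 * up b l t - (up a l t + up c l t) := fun t => rfl
  have ek : ∀ t, k t = 1 - (up (a + l) 1 t * dn b 1 t + up (b + l) 1 t * dn c 1 t) := fun t => rfl
  have sa := Neck67.sm_up hl a
  have sb := Neck67.sm_up hl b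
  have sc := Neck67.sm_up hl c
  have sς : Neck67.Sm ς := (sb.smul 2).sub (sa.add sc)
  have dψ : ∀ t, HasDerivAt ψ ((-δ • ς) t) t := fun t => by
    refine (((((hasDerivAt_Up (a := a) hl t).sub ((hasDerivAt_Up (a := b) hl t).const_mul 2)).add
      (hasDerivAt_Up (a := c) hl t)).const_add (2 * l + 1)).const_mul δ).congr_deriv ?_
    rw [Pi.smul_apply, eς, smul_eq_mul]
    ring
  have eψ : deriv ψ = -δ • ς := funext fun t => (dψ t).deriv
  have bς : ∀ j, Bd j ς (4 * cS j) := fun j =>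
    (Bd.sub (sb.smul 2).cd (sa.add sc).cd ((Neck67.bd_up j hl b).of_succ.smul 2)
      (Bd.add sa.cd sc.cd (Neck67.bd_up j hl a).of_succ (Neck67.bd_up j hl c).of_succ)).mono
      (by rw [abs_two]; linarith)
  have bψ : ∀ j, Bd j (deriv ψ) (4 * cS j) := fun j => by
    rw [eψ]
    refine ((bς j).smul _).mono (mul_le_of_le_one_left (bς j).nonneg ?_)
    rwa [abs_neg, abs_of_pos hδ]
  have hT : ∀ t, δ * tent L p q t ≤ ψ t ∧ ψ t ≤ δ * tent L p q t + (5 * l + 2) := fun t => by
    have e := tent_eq (L := L) (by linarith) hpq t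
    obtain ⟨a1, a2⟩ := Up_bd (a := a) hl t
    obtain ⟨b1, b2⟩ := Up_bd (a := b) hl t
    obtain ⟨c1, c2⟩ := Up_bd (a := c) hl t
    obtain ⟨d1, d2⟩ := max_sh (show a ≤ p - L by linarith) t
    obtain ⟨f1, f2⟩ := max_sh (show q + L ≤ c by linarith) t
    rw [← hb] at e
    refine ⟨mul_le_mul_of_nonneg_left (by linarith) hδ.le, ?_⟩
    have : ψ t ≤ δ * (tent L p q t + (5 * l + 2)) := mul_le_mul_of_nonneg_left (by linarith) hδ.le
    nlinarith
  have v1 : ∀ t ∈ Ioo (a + l) b, ς t = -1 := fun t ht => by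
    rw [eς, Neck67.up_one h0 ht.1.le, Neck67.up_zero h0 ht.2.le,
      Neck67.up_zero h0 (show t ≤ c by linarith [ht.2])]
    ring
  have v2 : ∀ t ∈ Ioo (b + l) c, ς t = 1 := fun t ht => by
    rw [eς, Neck67.up_one h0 ht.1.le, Neck67.up_zero h0 ht.2.le,
      Neck67.up_one h0 (show a + l ≤ t by linarith [ht.1])]
    ring
  have hcd : ContDiff ℝ ∞ ψ :=
    contDiff_infty_iff_deriv.2 ⟨fun t => (dψ t).differentiableAt, eψ ▸ (sς.smul _).cd⟩
  have hA : ∀ t, |ψ t| ≤ L + (q - p) + (5 * l + 2) := fun t => by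
    obtain ⟨t1, t2⟩ := tent_mem (L := L) (by linarith) hpq t
    obtain ⟨u1, u2⟩ := hT t
    rw [abs_of_nonneg ((mul_nonneg hδ.le t1).trans u1)]
    nlinarith
  refine ⟨ψ, ς, k, ⟨⟨hcd, fun j => ?_⟩, sς, Neck67.Sm.one.sub
    (((Neck67.sm_up le_rfl _).mul (Neck67.sm_dn le_rfl _)).add
      ((Neck67.sm_up le_rfl _).mul (Neck67.sm_dn le_rfl _))), eψ, fun t => ?_, fun t => ?_,
    fun t => ?_, fun t ht => ?_⟩, bψ, fun t => (hT t).1, fun t => (hT t).2, fun t ht => ?_⟩
  · cases j with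
    | zero => exact ⟨_, hA⟩
    | succ j => exact ⟨max _ _, fun t => (hA t).trans (le_max_left _ _),
        (bψ j).mono (le_max_right _ _)⟩
  · obtain ⟨a1, a2⟩ := Neck67.up_mem a l t
    obtain ⟨b1, b2⟩ := Neck67.up_mem b l t
    obtain ⟨c1, c2⟩ := Neck67.up_mem c l t
    rw [eς, abs_le]
    rcases le_total t b with h | h
    · rw [Neck67.up_zero h0 h, Neck67.up_zero h0 (show t ≤ c by linarith)]
      constructor <;> linarith
    · rw [Neck67.up_one h0 (show a + l ≤ t by linarith)]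
      rcases le_total t c with h' | h'
      · rw [Neck67.up_zero h0 h']
        constructor <;> linarith
      · rw [Neck67.up_one h0 (show b + l ≤ t by linarith)]
        constructor <;> linarith
  · have e : deriv ς t = 2 * deriv (up b l) t - (deriv (up a l) t + deriv (up c l) t) :=
      (((sb.diff t).hasDerivAt.const_mul 2).sub
        ((sa.diff t).hasDerivAt.add (sc.diff t).hasDerivAt)).deriv
    have a1 := abs_le.1 ((Neck67.bd_deriv_up 0 hl a).abs_le t)
    have b1 := abs_le.1 ((Neck67.bd_deriv_up 0 hl b).abs_le t)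
    have c1 := abs_le.1 ((Neck67.bd_deriv_up 0 hl c).abs_le t)
    have h4 : 4 * (l⁻¹ * cS 0) ≤ ε := by
      rw [div_le_iff₀ hε] at hl'
      rw [mul_left_comm, inv_mul_le_iff₀ h0]
      exact hl'
    rw [e, abs_le]
    constructor <;> linarith [a1.1, a1.2, b1.1, b1.2, c1.1, c1.2]
  · obtain ⟨a1, a2⟩ := Neck67.up_mem (a + l) 1 t
    obtain ⟨b1, b2⟩ := Neck67.dn_mem b 1 t
    obtain ⟨c1, c2⟩ := Neck67.up_mem (b + l) 1 t
    obtain ⟨d1, d2⟩ := Neck67.dn_mem c 1 t
    have e1 := mul_nonneg a1 b1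
    have e2 := mul_le_one₀ a2 b1 b2
    have e3 := mul_nonneg c1 d1
    have e4 := mul_le_one₀ c2 d1 d2
    rw [ek, abs_le]
    constructor <;> linarith
  · have z : ∀ {x y : ℝ}, t ∉ Ioo x y → up x 1 t * dn y 1 t = 0 := fun {x y} h => by
      rw [mem_Ioo, not_and_or, not_lt, not_lt] at h
      rcases h with h | h
      · rw [Neck67.up_zero one_pos h, zero_mul]
      · rw [Neck67.dn_zero one_pos h, mul_zero]
    by_cases h1 : t ∈ Ioo (a + l) b
    · exact ⟨by rw [v1 t h1]; norm_num, Neck67.deriv_zero_off isOpen_Ioo.isClosed_compl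
        (fun s hs => v1 s (not_not.1 hs)) t (not_not.2 h1)⟩
    · by_cases h2 : t ∈ Ioo (b + l) c
      · exact ⟨by rw [v2 t h2]; norm_num, Neck67.deriv_zero_off isOpen_Ioo.isClosed_compl
          (fun s hs => v2 s (not_not.1 hs)) t (not_not.2 h2)⟩
      · exact (ht (by rw [ek, z h1, z h2]; ring)).elim
  · by_contra hn
    simp only [not_or, not_le, ← hb] at hn
    obtain ⟨n1, n2, n3⟩ := hn
    refine ht ?_
    rcases lt_abs.1 n2 with h | h
    · rw [ek, Neck67.dn_zero one_pos (show b ≤ t by linarith),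
        Neck67.up_one one_pos (show b + l + 1 ≤ t by linarith),
        Neck67.dn_one one_pos (show t ≤ c - 1 by linarith)]
      ring
    · rw [ek, Neck67.up_one one_pos (show a + l + 1 ≤ t by linarith),
        Neck67.dn_one one_pos (show t ≤ b - 1 by linarith),
        Neck67.up_zero one_pos (show t ≤ b + l by linarith)]
      ring

variable {E3 : Type} [NormedAddCommGroup E3] [NormedSpace ℝ E3] [FiniteDimensional ℝ E3]
  [MeasurableSpace E3] [BorelSpace E3]
  {H3 : Type} [TopologicalSpace H3] {I3 : ModelWithCorners ℝ E3 H3} [I3.Boundaryless]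
  {Y : Type} [TopologicalSpace Y] [ChartedSpace H3 Y] [IsManifold I3 ∞ Y] [T2Space Y]
  [MeasurableSpace Y] [BorelSpace Y] [SecondCountableTopology Y] [CompactSpace Y]
  {κ : Type} [Fintype κ] {lam : Type} [Fintype lam]

/-- functions of the time -/
theorem cb_snd (F : Pre I3 Y κ) (j : ℕ) : ∀ {f : ℝ → ℝ} {M : ℝ}, ContDiff ℝ ∞ f → Bd j f M →
    (cylP F).CB j (fun x => f x.2) M := by
  induction j with
  | zero => exact fun _ h => CB_zero.2 fun x => h x.2
  | succ j ih =>
    intro f M hf h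
    refine CB_succ.2 ⟨fun x => h.1 x.2, fun a => ?_⟩
    cases a with
    | none =>
      rw [D_none_snd F hf]
      exact ih (Neck67.cd_deriv hf) h.2
    | some a =>
      rw [D_some_snd F hf]
      exact ih (f := fun _ => 0) contDiff_const (Bd.const (by simpa using h.nonneg))

/-- **DEC-WGT** -/
theorem wgt : WgtStmt I3 Y κ lam := fun D ε hε => by
  obtain ⟨Λ, h1, h⟩ := line hε
  refine ⟨Λ, h1, fun j => 4 * cS j, fun δ hδ hδ1 L p q hL hpq => ?_⟩
  obtain ⟨ψ, ς, k, pf, bψ, lo, hi, sup⟩ := h δ hδ hδ1 L p q hL hpq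
  have hc := pf.sψ.cd
  obtain ⟨A, hA⟩ := pf.sψ.bd 0
  refine ⟨ψ, ς, k, pf, ⟨sm_snd hc, fun x => (mul_nonneg hδ.le (le_max_left _ _)).trans (lo x.2),
    ⟨A, fun x => (le_abs_self _).trans (hA x.2)⟩, fun a x => ?_, fun a => ?_⟩, lo, hi, sup⟩
  · rw [cyl_toPre]
    cases a with
    | none =>
      rw [D_none_snd _ hc, pf.e]
      show |-δ * ς x.2| ≤ δ
      rw [abs_mul, abs_neg, abs_of_pos hδ]
      exact mul_le_of_le_one_right hδ.le (pf.s1 _)
    | some a =>
      rw [D_some_snd _ hc]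
      simpa using hδ.le
  · refine ⟨Pre.sm_D _ (sm_snd hc) a, fun j => ?_⟩
    rw [cyl_toPre]
    cases a with
    | none =>
      rw [D_none_snd _ hc]
      exact cb_snd _ j (Neck67.cd_deriv hc) (bψ j)
    | some a =>
      rw [D_some_snd _ hc]
      exact cb_snd _ j (f := fun _ => 0) contDiff_const (Bd.const (by simpa using (bψ j).nonneg))

end Crest.Agent.X212.Lad50.Wg
end
end

-- ▼ part X212/Lad50/Row

/-!
# Row 212, leaf DEC-ROW: the row is controlled by its value at the peak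
-/

set_option autoImplicit false
set_option linter.unusedSectionVars false
noncomputable section
open scoped Manifold ContDiff Topology InnerProductSpace
open MeasureTheory Set Function Filter Real

namespace Crest.Agent.X212.Lad50.Rw
open An Sob92 Nd18 Cyf70 Dec35

/-- Cauchy-Schwarz on a finite measure space -/
theorem cs {α : Type} [MeasurableSpace α] (ν : Measure α) [IsFiniteMeasure ν] {f : α → ℝ}
    (hf : MemLp f 2 ν) : ∫ x, f x ∂ν ≤ √(ν.real univ) * √(∫ x, f x ^ 2 ∂ν) := by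
  have h1 : Integrable f ν := hf.integrable one_le_two
  have h2 : Integrable (fun x => f x ^ 2) ν := hf.integrable_sq
  have h := discrim_le_zero (a := ν.real univ) (b := 2 * ∫ x, f x ∂ν) (c := ∫ x, f x ^ 2 ∂ν)
    fun c => by
      have e : ∫ x, (c * c + 2 * c * f x + f x ^ 2) ∂ν =
          ν.real univ * (c * c) + 2 * (∫ x, f x ∂ν) * c + ∫ x, f x ^ 2 ∂ν := by
        have h3 : Integrable (fun x => c * c + 2 * c * f x) ν :=
          (integrable_const _).add (h1.const_mul _)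
        rw [integral_add h3 h2,
          integral_add (integrable_const _) (h1.const_mul _), integral_const, integral_const_mul,
          smul_eq_mul]
        ring
      rw [← e]
      exact integral_nonneg fun x => by
        show 0 ≤ c * c + 2 * c * f x + f x ^ 2
        nlinarith [sq_nonneg (c + f x)]
  rw [← sqrt_mul measureReal_nonneg]
  refine le_sqrt_of_sq_le ?_
  rw [discrim] at h
  nlinarith

variable {E3 : Type} [NormedAddCommGroup E3] [NormedSpace ℝ E3] [FiniteDimensional ℝ E3]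
  [MeasurableSpace E3] [BorelSpace E3]
  {H3 : Type} [TopologicalSpace H3] {I3 : ModelWithCorners ℝ E3 H3} [I3.Boundaryless]
  {Y : Type} [TopologicalSpace Y] [ChartedSpace H3 Y] [IsManifold I3 ∞ Y] [T2Space Y]
  [MeasurableSpace Y] [BorelSpace Y] [SecondCountableTopology Y] [CompactSpace Y]
  {κ : Type} [Fintype κ] {lam : Type} [Fintype lam]
  {V : Type} [NormedAddCommGroup V] [InnerProductSpace ℝ V] [FiniteDimensional ℝ V]
  (D : YD I3 Y κ lam)

theorem tame (h : D.OK) (y : Y) : ∃ C, D.Z.Tame C := by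
  have := Hm83.dim_le h.B h.G (y, 0)
  rw [Module.finrank_prod, Module.finrank_self] at this
  exact Cht98.tame_cyl D.F (by omega)

theorem row_smul (n : Y → V) (u : Y × ℝ → V) (f : ℝ → ℝ) (t : ℝ) :
    row D n (fun x => f x.2 • u x) t = f t * row D n u t := by
  simp only [row, real_inner_smul_right, integral_const_mul]

theorem sl_sq (u : Y × ℝ → V) (t : ℝ) : sl D u t ^ 2 = ∫ y, ‖u (y, t)‖ ^ 2 ∂D.F.μ :=
  sq_sqrt (integral_nonneg fun _ => sq_nonneg _)

/-- the variation of a row on a bounded interval -/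
theorem row_var {n : Y → V} (hn : Continuous n) {N : ℝ} (hN : ∀ y, ‖n y‖ ≤ N) (h0 : 0 ≤ N)
    {W : Y × ℝ → V} (hW : Fl D.Z.toPre W) {Λ s t : ℝ} (ht : |t - s| ≤ Λ) :
    |row D n W t - row D n W s| ≤
      N * (√(D.F.μ.real univ * (2 * Λ)) * D.Z.nrm 0 (D.Z.D none W)) := by
  have := FiniteDimensional.complete ℝ V
  have hΛ : 0 ≤ Λ := (abs_nonneg _).trans ht
  have hW' := hW.D none
  have hi : ∀ t, Integrable (fun y => ⟪n y, W (y, t)⟫_ℝ) D.F.μ := fun t =>
    (hn.inner (sm_slice_fst hW.sm t).continuous).integrable_of_hasCompactSupport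
      (HasCompactSupport.of_compactSpace _)
  have e : D.F.μ.prod (volume.restrict (Icc (s - Λ) (s + Λ))) =
      (D.F.μ.prod volume).restrict (univ ×ˢ Icc (s - Λ) (s + Λ)) := by
    rw [← Measure.prod_restrict, Measure.restrict_univ]
  have m0 : MemLp (D.Z.D none W) 2 (D.F.μ.prod volume) := hW'.fl 0
  have m1 : MemLp (fun x => ‖D.Z.D none W x‖) 2
      (D.F.μ.prod (volume.restrict (Icc (s - Λ) (s + Λ)))) := e ▸ m0.norm.restrict _
  have m2 := m1.integrable one_le_two
  rw [row, row, ← integral_sub (hi t) (hi s), ← Real.norm_eq_abs]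
  refine (norm_integral_le_of_norm_le (m2.integral_prod_left.const_mul N)
    (Eventually.of_forall fun y => ?_)).trans ?_
  · have hc := (sm_slice_snd hW'.sm y).continuous
    rw [← inner_sub_right, ← intervalIntegral.integral_eq_sub_of_hasDerivAt
      (fun τ _ => hasDerivAt_slice D.F.toPre hW.sm y τ) (hc.intervalIntegrable s t)]
    refine (norm_inner_le_norm _ _).trans (mul_le_mul (hN y)
      (intervalIntegral.norm_integral_le_integral_norm_uIoc.trans ?_) (norm_nonneg _) h0)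
    refine setIntegral_mono_set (hc.norm.continuousOn.integrableOn_compact isCompact_Icc)
      (Eventually.of_forall fun _ => norm_nonneg _) (LE.le.eventuallyLE ?_)
    obtain ⟨h1, h2⟩ := abs_le.1 ht
    exact uIoc_subset_uIcc.trans (uIcc_subset_Icc ⟨by linarith, by linarith⟩
      ⟨by linarith, by linarith⟩)
  · rw [integral_const_mul, ← integral_prod _ m2]
    refine mul_le_mul_of_nonneg_left ((cs _ m1).trans (mul_le_mul (le_of_eq ?_) ?_
      (sqrt_nonneg _) (sqrt_nonneg _))) h0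
    · rw [← univ_prod_univ, measureReal_prod_prod, measureReal_restrict_apply_univ,
        Real.volume_real_Icc, max_eq_left (by linarith)]
      congr 2
      ring
    · rw [nrm_eq, e]
      exact sqrt_le_sqrt (setIntegral_le_integral m0.norm.integrable_sq
        (Eventually.of_forall fun _ => sq_nonneg _))

/-- **DEC-ROW** -/
theorem rowS : RowStmt I3 Y κ lam := fun D β n hD hn Λ hΛ => by
  rcases isEmpty_or_nonempty Y with hY | ⟨⟨y₀⟩⟩
  · refine ⟨0, le_rfl, fun _ => ⟨0, le_rfl, fun ψ k d s K₀ u V _ _ _ _ _ _ _ => ?_⟩⟩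
    simp [row, integral_of_isEmpty]
  obtain ⟨C, hC⟩ := tame D hD y₀
  obtain ⟨N, hN⟩ := hn.continuous.bounded_above_of_compact_support
    (HasCompactSupport.of_compactSpace _)
  have h0 : 0 ≤ N := (norm_nonneg _).trans (hN y₀)
  obtain ⟨m, hm⟩ : ∃ m, m = D.F.μ.real univ := ⟨_, rfl⟩
  have m0 : 0 ≤ m := hm ▸ measureReal_nonneg
  refine ⟨2 * Λ * (N * √(m * (2 * Λ))), by positivity, fun Dd => ?_⟩
  obtain ⟨K, K0, hK⟩ := Dw_le (V := Cv (cy β)) hC Dd 0
  refine ⟨2 * Λ + (1 + m) * K, by positivity, fun ψ k d s K₀ u V hψ _ hk hu hV hK₀ h => ?_⟩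
  obtain ⟨A, hA⟩ : ∃ A, A = D.Z.nrm 0 (D.Z.D none fun x => exp (ψ x.2) • V x) := ⟨_, rfl⟩
  obtain ⟨w, hw⟩ : ∃ w, w = nw D.Z.toPre 4 (fun x => ψ x.2) u := ⟨_, rfl⟩
  obtain ⟨a, ha⟩ : ∃ a, a = exp (ψ s) * |row D n V s| := ⟨_, rfl⟩
  obtain ⟨B, hB⟩ : ∃ B, B = N * (√(m * (2 * Λ)) * A) := ⟨_, rfl⟩
  have A0 : 0 ≤ A := hA ▸ nrm_nonneg _ _
  have w0 : 0 ≤ w := hw ▸ nw_nonneg _ _
  have a0 : 0 ≤ a := by rw [ha]; positivity
  have B0 : 0 ≤ B := by rw [hB]; positivity
  have iu : Integrable (fun x : Y × ℝ => ‖exp (ψ x.2) • u x‖ ^ 2) (D.F.μ.prod volume) :=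
    MemLp.integrable_sq (MemLp.norm ((hψ.fl hu).fl 0))
  have s1 : ∀ t, sl D u t ^ 2 ≤ m * (K * w) ^ 2 := fun t => by
    rw [sl_sq, hm, ← smul_eq_mul, ← integral_const]
    refine integral_mono_of_nonneg (Eventually.of_forall fun _ => sq_nonneg _) (integrable_const _)
      (Eventually.of_forall fun y => pow_le_pow_left₀ (norm_nonneg _) ?_ 2)
    refine (hK _ d hψ u hu [] le_rfl (y, t)).trans ?_
    rw [← hw]
    exact mul_le_mul_of_nonneg_right (mul_le_of_le_one_right K0
      (exp_le_one_iff.2 (neg_nonpos.2 (hψ.nn (y, t))))) w0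
  have s2 : ∀ t, exp (ψ t) ^ 2 * sl D u t ^ 2 = ∫ y, ‖exp (ψ t) • u (y, t)‖ ^ 2 ∂D.F.μ := fun t => by
    rw [sl_sq, ← integral_const_mul]
    simp only [norm_smul, mul_pow, Real.norm_eq_abs, sq_abs]
  have s3 : ∫ t, ∫ y, ‖exp (ψ t) • u (y, t)‖ ^ 2 ∂D.F.μ ≤ w ^ 2 := by
    rw [← integral_prod_symm _ iu]
    refine (nrm_sq (F := D.Z.toPre) 0 fun x => exp (ψ x.2) • u x).symm.le.trans ?_
    exact pow_le_pow_left₀ (nrm_nonneg _ _) (hw ▸ nw_mono (Nat.zero_le 4) u) 2
  have i1 : Integrable ((Icc (s - Λ) (s + Λ)).indicator fun _ : ℝ => (a + B) ^ 2) :=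
    (integrableOn_const (by simp)).integrable_indicator measurableSet_Icc
  have i2 := iu.integral_prod_right.const_mul (K₀ ^ 2 * (m * (K * w) ^ 2))
  have key : ∫ t, (k t * exp (ψ t) * row D n V t) ^ 2 ≤
      2 * Λ * (a + B) ^ 2 + K₀ ^ 2 * (m * (K * w) ^ 2) * w ^ 2 := by
    refine (integral_mono_of_nonneg (Eventually.of_forall fun _ => sq_nonneg _) (i1.add i2)
      (Eventually.of_forall fun t => ?_)).trans ?_
    · show _ ≤ (Icc (s - Λ) (s + Λ)).indicator (fun _ : ℝ => (a + B) ^ 2) t +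
        K₀ ^ 2 * (m * (K * w) ^ 2) * ∫ y, ‖exp (ψ t) • u (y, t)‖ ^ 2 ∂D.F.μ
      have p1 : 0 ≤ (Icc (s - Λ) (s + Λ)).indicator (fun _ : ℝ => (a + B) ^ 2) t :=
        indicator_nonneg (fun _ _ => sq_nonneg _) t
      rw [← s2]
      have p2 : 0 ≤ K₀ ^ 2 * (m * (K * w) ^ 2) * (exp (ψ t) ^ 2 * sl D u t ^ 2) := by positivity
      have q : (k t * exp (ψ t) * row D n V t) ^ 2 ≤ (exp (ψ t) * row D n V t) ^ 2 := by
        rw [mul_assoc, mul_pow (k t)]
        exact mul_le_of_le_one_left (sq_nonneg _) ((sq_le_one_iff_abs_le_one _).2 (hk t))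
      by_cases hk0 : k t = 0
      · rw [hk0, zero_mul, zero_mul, zero_pow two_ne_zero]
        exact add_nonneg p1 p2
      rcases h t hk0 with h1 | h1
      · have h2 := row_var D hn.continuous hN h0 (hψ.fl hV) h1
        rw [row_smul D n V fun t => exp (ψ t), row_smul D n V fun t => exp (ψ t), ← hA, ← hm,
          ← hB] at h2
        have h3 : |exp (ψ t) * row D n V t| ≤ a + B := by
          have := abs_sub_abs_le_abs_sub (exp (ψ t) * row D n V t) (exp (ψ s) * row D n V s)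
          rw [abs_mul (exp (ψ s)), abs_of_pos (exp_pos _), ← ha] at this
          linarith
        obtain ⟨h4, h5⟩ := abs_le.1 h1
        rw [indicator_of_mem (show t ∈ Icc (s - Λ) (s + Λ) from ⟨by linarith, by linarith⟩)]
        have := sq_le_sq' (abs_le.1 h3).1 (abs_le.1 h3).2
        linarith
      · have h2 : row D n V t ^ 2 ≤ (K₀ * sl D u t ^ 2) ^ 2 :=
          sq_le_sq' (abs_le.1 h1).1 (abs_le.1 h1).2
        have h3 : (K₀ * sl D u t ^ 2) ^ 2 ≤ K₀ ^ 2 * (m * (K * w) ^ 2) * sl D u t ^ 2 := by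
          rw [mul_pow, sq (sl D u t ^ 2), ← mul_assoc]
          exact mul_le_mul_of_nonneg_right (mul_le_mul_of_nonneg_left (s1 t) (sq_nonneg _))
            (sq_nonneg _)
        have h4 := mul_le_mul_of_nonneg_left (h2.trans h3) (sq_nonneg (exp (ψ t)))
        rw [mul_pow (exp _)] at q
        linarith
    · simp only [Pi.add_apply]
      rw [integral_add i1 i2, integral_indicator measurableSet_Icc, setIntegral_const,
        integral_const_mul, Real.volume_real_Icc, max_eq_left (by linarith), smul_eq_mul]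
      exact add_le_add (le_of_eq (by ring)) (mul_le_mul_of_nonneg_left s3 (by positivity))
  rw [← hA, ← hw, ← ha]
  have f0 : 0 ≤ K₀ * w ^ 2 := by positivity
  have f1 : √(∫ t, (k t * exp (ψ t) * row D n V t) ^ 2) ≤
      2 * Λ * (a + B) + (1 + m) * K * (K₀ * w ^ 2) := by
    refine sqrt_le_iff.2 ⟨by positivity, key.trans ?_⟩
    have e1 : 2 * Λ * (a + B) ^ 2 ≤ (2 * Λ * (a + B)) ^ 2 := by
      rw [mul_pow (2 * Λ)]
      exact mul_le_mul_of_nonneg_right (by nlinarith) (sq_nonneg _)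
    have e2 : K₀ ^ 2 * (m * (K * w) ^ 2) * w ^ 2 ≤ ((1 + m) * K * (K₀ * w ^ 2)) ^ 2 := by
      rw [show K₀ ^ 2 * (m * (K * w) ^ 2) * w ^ 2 = m * (K * (K₀ * w ^ 2)) ^ 2 by ring,
        mul_assoc, mul_pow (1 + m)]
      exact mul_le_mul_of_nonneg_right (by nlinarith) (sq_nonneg _)
    have e3 : 0 ≤ 2 * Λ * (a + B) * ((1 + m) * K * (K₀ * w ^ 2)) := by positivity
    nlinarith
  refine f1.trans ?_
  have e4 : 0 ≤ 2 * Λ * (K₀ * w ^ 2) := by positivity
  have e5 : 0 ≤ (1 + m) * K * a := by positivity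
  rw [hB]
  nlinarith

end Crest.Agent.X212.Lad50.Rw
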