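import Crest.Agent.X212.Lad50.Rad
import Crest.Agent.X212.Lad50.PL
import Crest.Agent.X212.Prd34.Defs
import Crest.Agent.X212.Lad50.Pol
import Crest.Agent.X212.Prd34.Leaf

-- ▼ part X212/Lad50/Slow
section

/-!
# Row 212, layer T, LAD (2): slow coordinates.  A homeomorphism of `ι → ℝ` with bounded
displacement in the coordinates off `J`, and displacement in the `J`-coordinates bounded on every
slab, agrees on a given ball with a compactly supported homeomorphism.
-/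

open Set Filter Topology Metric

namespace Crest.Agent.X212.Lad50

/-- partial sums of the convex correction -/
noncomputable def cq (a : ℕ → ℝ) (R : ℝ) (N : ℕ) (x : ℝ) : ℝ :=
  ∑ n ∈ Finset.range N, a n * max (x - R - n) 0

/-- the convex correction -/
noncomputable def cp (a : ℕ → ℝ) (R : ℝ) (x : ℝ) : ℝ := cq a R ⌈x⌉₊ x

variable {a : ℕ → ℝ} {R : ℝ}

lemma cq_eq (hR : 0 ≤ R) {x : ℝ} {N N' : ℕ} (h : x ≤ N) (h' : N ≤ N') :
    cq a R N' x = cq a R N x := by
  unfold cq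
  symm
  refine Finset.sum_subset (Finset.range_subset_range.2 h') fun n _ hn => ?_
  have : (N : ℝ) ≤ n := by exact_mod_cast not_lt.1 (fun h => hn (Finset.mem_range.2 h))
  rw [max_eq_right (by linarith), mul_zero]

lemma cp_eq (hR : 0 ≤ R) {x : ℝ} {N : ℕ} (h : x ≤ N) : cp a R x = cq a R N x :=
  (cq_eq hR (Nat.le_ceil x) (Nat.ceil_le.2 h)).symm

lemma continuous_cp (hR : 0 ≤ R) : Continuous (cp a R) := by
  rw [continuous_iff_continuousAt]
  intro x
  obtain ⟨N, hN⟩ := exists_nat_gt x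
  have h1 : Continuous (cq a R N) := by unfold cq; fun_prop
  refine h1.continuousAt.congr ?_
  filter_upwards [Iio_mem_nhds hN] with y hy
  exact (cp_eq hR (le_of_lt hy)).symm

lemma cp_of_le {x : ℝ} (h : x ≤ R) : cp a R x = 0 := by
  unfold cp cq
  refine Finset.sum_eq_zero fun n _ => ?_
  have : (0 : ℝ) ≤ n := n.cast_nonneg
  rw [max_eq_right (by linarith), mul_zero]

lemma cp_mono (hR : 0 ≤ R) (ha : ∀ n, 0 ≤ a n) : Monotone (cp a R) := by
  intro x y h
  rw [cp_eq hR (h.trans (Nat.le_ceil y)), cp, cq, cq]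
  refine Finset.sum_le_sum fun n _ => mul_le_mul_of_nonneg_left ?_ (ha n)
  exact max_le_max (by linarith) le_rfl

lemma cp_nonneg (ha : ∀ n, 0 ≤ a n) (x : ℝ) : 0 ≤ cp a R x := by
  unfold cp cq
  exact Finset.sum_nonneg fun n _ => mul_nonneg (ha n) (le_max_right _ _)

lemma cp_add (hR : 0 ≤ R) (ha : ∀ n, 0 ≤ a n) {x y : ℝ} (hx : 0 ≤ x) (hy : 0 ≤ y) :
    cp a R x + cp a R y ≤ cp a R (x + y) := by
  have h := Nat.le_ceil (x + y)
  rw [cp_eq hR (x := x) (N := ⌈x + y⌉₊) (by linarith),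
    cp_eq hR (x := y) (N := ⌈x + y⌉₊) (by linarith), cp, cq, cq, cq, ← Finset.sum_add_distrib]
  refine Finset.sum_le_sum fun n _ => ?_
  rw [← mul_add]
  refine mul_le_mul_of_nonneg_left ?_ (ha n)
  have : (0 : ℝ) ≤ n := n.cast_nonneg
  rcases le_total (x - R - n) 0 with h1 | h1 <;> rcases le_total (y - R - n) 0 with h2 | h2
  · rw [max_eq_right h1, max_eq_right h2, add_zero]; exact le_max_right _ _
  · rw [max_eq_right h1, max_eq_left h2]; exact le_max_of_le_left (by linarith)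
  · rw [max_eq_left h1, max_eq_right h2]; exact le_max_of_le_left (by linarith)
  · rw [max_eq_left h1, max_eq_left h2]; exact le_max_of_le_left (by linarith)

lemma le_cp (hR : 0 ≤ R) (ha : ∀ n, 0 ≤ a n) {x : ℝ} (n : ℕ) (h : R + n + 1 ≤ x) :
    a n ≤ cp a R x := by
  have h1 : n ∈ Finset.range ⌈x⌉₊ := by
    rw [Finset.mem_range, Nat.lt_ceil]; linarith
  refine le_trans ?_ (Finset.single_le_sum (f := fun n : ℕ => a n * max (x - R - n) 0)
    (fun n _ => mul_nonneg (ha n) (le_max_right _ _)) h1)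
  exact le_mul_of_one_le_right (ha n) (le_max_of_le_left (by linarith))

/-- the fast homeomorphism of the line -/
noncomputable def fast (a : ℕ → ℝ) (R : ℝ) (x : ℝ) : ℝ := x + cp a R x - cp a R (-x)

lemma fast_of_le {x : ℝ} (h : |x| ≤ R) : fast a R x = x := by
  rw [abs_le] at h
  rw [fast, cp_of_le h.2, cp_of_le (by linarith)]; ring

lemma fast_sub (hR : 0 ≤ R) (ha : ∀ n, 0 ≤ a n) {x y : ℝ} (h : y ≤ x) :
    (x - y) + cp a R ((x - y) / 2) ≤ fast a R x - fast a R y := by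
  have hm := cp_mono hR ha
  unfold fast
  rcases le_total 0 y with hy | hy
  · have h1 := cp_add hR ha hy (sub_nonneg.2 h)
    rw [add_sub_cancel] at h1
    have h2 := hm (show (x - y) / 2 ≤ x - y by linarith)
    rw [cp_of_le (x := -x) (by linarith), cp_of_le (x := -y) (by linarith)]
    linarith
  · rcases le_total x 0 with hx | hx
    · have h1 := cp_add hR ha (neg_nonneg.2 hx) (sub_nonneg.2 h)
      rw [show -x + (x - y) = -y by ring] at h1
      have h2 := hm (show (x - y) / 2 ≤ x - y by linarith)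
      rw [cp_of_le (x := x) (by linarith), cp_of_le (x := y) (by linarith)]
      linarith
    · rw [cp_of_le (x := -x) (by linarith), cp_of_le (x := y) (by linarith)]
      have h1 := cp_nonneg (R := R) ha x
      have h2 := cp_nonneg (R := R) ha (-y)
      rcases le_total x (-y) with h3 | h3
      · have := hm (show (x - y) / 2 ≤ -y by linarith); linarith
      · have := hm (show (x - y) / 2 ≤ x by linarith); linarith

lemma fast_strictMono (hR : 0 ≤ R) (ha : ∀ n, 0 ≤ a n) : StrictMono (fast a R) := by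
  intro y x h
  have h1 := fast_sub hR ha h.le
  have h2 := cp_nonneg (R := R) ha ((x - y) / 2)
  linarith

lemma continuous_fast (hR : 0 ≤ R) : Continuous (fast a R) :=
  (continuous_id.add (continuous_cp hR)).sub ((continuous_cp hR).comp continuous_neg)

lemma fast_surjective (hR : 0 ≤ R) (ha : ∀ n, 0 ≤ a n) : Function.Surjective (fast a R) := by
  intro y
  have h0 : fast a R 0 = 0 := fast_of_le (by simpa using hR)
  have h1 := fast_sub hR ha (abs_nonneg y)
  have h2 := fast_sub hR ha (neg_nonpos.2 (abs_nonneg y))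
  have h3 := cp_nonneg (R := R) ha ((|y| - 0) / 2)
  have h4 := cp_nonneg (R := R) ha ((0 - -|y|) / 2)
  have h5 : y ∈ Icc (fast a R (-|y|)) (fast a R |y|) :=
    ⟨by linarith [neg_abs_le y], by linarith [le_abs_self y]⟩
  obtain ⟨x, -, hx⟩ := intermediate_value_Icc (by linarith [abs_nonneg y])
    (continuous_fast hR).continuousOn h5
  exact ⟨x, hx⟩

lemma abs_sub_le_of_fast (hR : 0 ≤ R) (ha : ∀ n, 0 ≤ a n) {x y : ℝ} (n : ℕ)
    (h : |fast a R x - fast a R y| ≤ a n) : |x - y| ≤ 2 * (R + n + 1) := by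
  wlog hxy : y ≤ x generalizing x y
  · rw [abs_sub_comm] at h ⊢; exact this h (le_of_not_ge hxy)
  rw [abs_of_nonneg (sub_nonneg.2 hxy)]
  by_contra hc
  push Not at hc
  have h1 := fast_sub hR ha hxy
  have h2 := le_cp hR ha n (x := (x - y) / 2) (by linarith)
  have h3 := le_abs_self (fast a R x - fast a R y)
  have : (0 : ℝ) ≤ n := n.cast_nonneg
  linarith

/-- the fast homeomorphism, bundled -/
noncomputable def fastH (hR : 0 ≤ R) (ha : ∀ n, 0 ≤ a n) : ℝ ≃ₜ ℝ :=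
  ((fast_strictMono hR ha).orderIsoOfSurjective _ (fast_surjective hR ha)).toHomeomorph

lemma fastH_apply (hR : 0 ≤ R) (ha : ∀ n, 0 ≤ a n) (x : ℝ) : fastH hR ha x = fast a R x := rfl

variable {ι : Type*} [Fintype ι]

/-- **Slow coordinates + radial compression.** -/
theorem slow (J : Set ι) (u : (ι → ℝ) ≃ₜ (ι → ℝ)) {C : ℝ}
    (hC : ∀ x, ∀ i ∉ J, |u x i - x i| ≤ C)
    (hM : ∀ n : ℕ, ∃ M : ℝ, ∀ x : ι → ℝ, (∀ i ∉ J, |x i| ≤ n) → ∀ j ∈ J, |u x j - x j| ≤ M)
    (R : ℝ) :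
    ∃ ψ : (ι → ℝ) ≃ₜ (ι → ℝ), (∀ x, ‖x‖ ≤ R → ψ x = u x) ∧ (∃ R', ∀ x, R' ≤ ‖x‖ → ψ x = x) ∧
      ∀ x, (∀ y, (∃ t : ℝ, 1 ≤ t ∧ ∀ i ∉ J, y i = t * x i) → u y = y) → ψ x = x := by
  classical
  choose M hM using hM
  obtain ⟨B, hB⟩ := ((isCompact_closedBall (0 : ι → ℝ) R).image u.continuous).isBounded.exists_norm_le
  set R₁ := max 1 (max R B) with hR₁
  have hR1 : 1 ≤ R₁ := le_max_left _ _
  have hR0 : 0 ≤ R₁ := by linarith
  have hRR : R ≤ R₁ := (le_max_left _ _).trans (le_max_right _ _)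
  have hBR : B ≤ R₁ := (le_max_right _ _).trans (le_max_right _ _)
  set a : ℕ → ℝ := fun n => |M (n ^ 2)| with ha
  have ha0 : ∀ n, 0 ≤ a n := fun n => abs_nonneg _
  let τ : (ι → ℝ) ≃ₜ (ι → ℝ) :=
    Homeomorph.piCongrRight fun i => if i ∈ J then fastH hR0 ha0 else Homeomorph.refl ℝ
  have hτJ : ∀ x, ∀ i ∈ J, τ x i = fast a R₁ (x i) := fun x i hi => by
    simp [τ, hi, fastH_apply]
  have hτn : ∀ x, ∀ i ∉ J, τ x i = x i := fun x i hi => by simp [τ, hi]
  have hτid : ∀ x, ‖x‖ ≤ R₁ → τ x = x := fun x hx => by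
    funext i
    by_cases hi : i ∈ J
    · rw [hτJ x i hi, fast_of_le ((norm_le_pi_norm x i).trans hx)]
    · exact hτn x i hi
  let v : (ι → ℝ) ≃ₜ (ι → ℝ) := (τ.trans u).trans τ.symm
  have hv : ∀ x, τ (v x) = u (τ x) := fun x => by simp [v]
  have hsub : Sublin v := by
    intro ε hε
    set s₀ := max 1 ((|C| + 2 * (R₁ + 3)) / ε) with hs₀
    have hs1 : 1 ≤ s₀ := le_max_left _ _
    have hs2 : |C| + 2 * (R₁ + 3) ≤ ε * s₀ := by
      have : (|C| + 2 * (R₁ + 3)) / ε ≤ s₀ := le_max_right _ _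
      rw [div_le_iff₀ hε] at this; linarith
    refine ⟨s₀ ^ 2, fun x hx => ?_⟩
    set s := √‖x‖ with hs
    have hss : s * s = ‖x‖ := Real.mul_self_sqrt (norm_nonneg x)
    have hs3 : s₀ ≤ s := Real.le_sqrt_of_sq_le hx
    have hC0 := abs_nonneg C
    have hb : (|C| + 2 * (R₁ + 3)) * s ≤ ε * ‖x‖ := by
      rw [← hss]
      calc (|C| + 2 * (R₁ + 3)) * s ≤ (ε * s₀) * s := by gcongr
        _ ≤ (ε * s) * s := by gcongr
        _ = ε * (s * s) := by ring
    refine (pi_norm_le_iff_of_nonneg (by positivity)).2 fun i => ?_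
    rw [Pi.sub_apply, Real.norm_eq_abs]
    by_cases hi : i ∈ J
    · set n := ⌈s⌉₊ with hn
      have hn1 : s ≤ n := Nat.le_ceil s
      have hn2 : (n : ℝ) < s + 1 := Nat.ceil_lt_add_one (by linarith)
      have h1 := hM (n ^ 2) (τ x) (fun k hk => by
        rw [hτn x k hk]
        have := norm_le_pi_norm x k
        rw [Real.norm_eq_abs] at this
        push_cast; nlinarith) i hi
      rw [← hv, hτJ _ i hi, hτJ _ i hi] at h1
      have h2 := abs_sub_le_of_fast hR0 ha0 n (h1.trans (le_abs_self _))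
      nlinarith
    · have h1 := hC (τ x) i hi
      rw [← hv, hτn _ i hi, hτn _ i hi] at h1
      have := le_abs_self C
      nlinarith
  obtain ⟨ψ, h1, h2, h3⟩ := rad v hsub (R := R₁) (by linarith)
  refine ⟨ψ, fun x hx => ?_, ⟨_, h2⟩, fun x hx => h3 x fun t ht => ?_⟩
  · have hux : ‖u x‖ ≤ R₁ := (hB _ ⟨x, by simpa using hx, rfl⟩).trans hBR
    have hvx : v x = u x := by
      apply τ.injective; rw [hv, hτid x (hx.trans hRR), hτid _ hux]
    rw [h1 x (hx.trans hRR) (by rw [hvx]; exact hux), hvx]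
  · apply τ.injective
    rw [hv]
    exact hx _ ⟨t, ht, fun i hi => by rw [hτn _ i hi]; simp⟩

end Crest.Agent.X212.Lad50
end

-- ▼ part X212/Lad50/Lift
section

/-!
# Row 212, layer T, LAD (3): ladders at the level of the universal cover, and their lifts.
-/

open Set Filter Topology Metric

namespace Crest.Agent.X212.Lad50

variable {ι : Type*} {Z : Type*}

/-- `B^k × ℝ^(n-k)`, `K` = the handle coordinates -/
def slab (K : Finset ι) : Set (ι → ℝ) := {x | ∀ i ∈ K, |x i| ≤ 1}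

/-- the core `B^k × 0` -/
def core (K : Finset ι) : Set (ι → ℝ) := {x | x ∈ slab K ∧ ∀ i ∉ K, x i = 0}

/-- the lattice `P ℤ^J` -/
def lat (J : Finset ι) (P : ℝ) : AddSubgroup (ι → ℝ) where
  carrier := {l | ∀ i, (i ∈ J → ∃ n : ℤ, l i = n * P) ∧ (i ∉ J → l i = 0)}
  zero_mem' := fun _ => ⟨fun _ => ⟨0, by simp⟩, fun _ => rfl⟩
  add_mem' := by
    intro a b ha hb i
    refine ⟨fun hi => ?_, fun hi => by simp [(ha i).2 hi, (hb i).2 hi]⟩
    obtain ⟨n, hn⟩ := (ha i).1 hi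
    obtain ⟨m, hm⟩ := (hb i).1 hi
    exact ⟨n + m, by simp [hn, hm, add_mul]⟩
  neg_mem' := by
    intro a ha i
    refine ⟨fun hi => ?_, fun hi => by simp [(ha i).2 hi]⟩
    obtain ⟨n, hn⟩ := (ha i).1 hi
    exact ⟨-n, by simp [hn]⟩

lemma mem_lat {J : Finset ι} {P : ℝ} {l : ι → ℝ} :
    l ∈ lat J P ↔ ∀ i, (i ∈ J → ∃ n : ℤ, l i = n * P) ∧ (i ∉ J → l i = 0) := Iff.rfl

/-- A ladder, seen in the universal cover: `H = h ∘ e ∘ p`, `G = g ∘ p`. -/
structure Ladder [TopologicalSpace Z] (K J : Finset ι) (P C c : ℝ) (G H : (ι → ℝ) → Z) :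
    Prop where
  contH : ContinuousOn H (slab K)
  contG : ContinuousOn G (slab K)
  fibH : ∀ x ∈ slab K, ∀ y ∈ slab K, H x = H y ↔ x - y ∈ lat J P
  fibG : ∀ x ∈ slab K, ∀ y ∈ slab K, G x = G y ↔ x - y ∈ lat J P
  openH : ∀ x ∈ slab K, 𝓝[H '' slab K] (H x) ≤ map H (𝓝[slab K] x)
  img : G '' slab K = H '' slab K
  vert : ∀ x ∈ slab K, ∀ y ∈ slab K, G x = H y → ∀ i ∉ J, |x i - y i| ≤ C
  bdry : ∀ x ∈ slab K, (∃ i ∈ K, c ≤ |x i|) → G x = H x

variable {K J : Finset ι} {P C c : ℝ}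

lemma convex_slab (K : Finset ι) : Convex ℝ (slab K) := by
  intro x hx y hy a b ha hb hab i hi
  have h1 := hx i hi
  have h2 := hy i hi
  simp only [Pi.add_apply, Pi.smul_apply, smul_eq_mul]
  calc |a * x i + b * y i| ≤ |a * x i| + |b * y i| := abs_add_le _ _
    _ = a * |x i| + b * |y i| := by rw [abs_mul, abs_mul, abs_of_nonneg ha, abs_of_nonneg hb]
    _ ≤ a * 1 + b * 1 := by gcongr
    _ = 1 := by linarith

lemma isClosed_slab (K : Finset ι) : IsClosed (slab K) := by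
  have : slab K = ⋂ i ∈ K, {x : ι → ℝ | |x i| ≤ 1} := by ext; simp [slab]
  rw [this]
  exact isClosed_biInter fun i _ => isClosed_le (by fun_prop) continuous_const

lemma zero_mem_slab (K : Finset ι) : (0 : ι → ℝ) ∈ slab K := fun _ _ => by simp

lemma add_mem_slab (hKJ : Disjoint K J) {x l : ι → ℝ} (hx : x ∈ slab K) (hl : l ∈ lat J P) :
    x + l ∈ slab K := fun i hi => by
  have := (hl i).2 (Finset.disjoint_left.1 hKJ hi)
  simpa [this] using hx i hi

lemma lat_eq_zero (hP : 0 < P) {l : ι → ℝ} (hl : l ∈ lat J P) (h : ∀ j ∈ J, |l j| < P) :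
    l = 0 := by
  funext i
  by_cases hi : i ∈ J
  · obtain ⟨n, hn⟩ := (hl i).1 hi
    have h1 := h i hi
    rw [hn, abs_mul, abs_of_pos hP] at h1
    have h2 : |(n : ℝ)| < 1 := by nlinarith [abs_nonneg (n : ℝ)]
    have h3 : n = 0 := by
      have : |n| < 1 := by exact_mod_cast h2
      exact Int.abs_lt_one_iff.1 this
    simp [hn, h3]
  · exact (hl i).2 hi

lemma exists_reduce (J : Finset ι) (hP : 0 < P) (x : ι → ℝ) :
    ∃ l ∈ lat J P, ∀ j ∈ J, |(x - l) j| ≤ P := by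
  classical
  refine ⟨fun i => if i ∈ J then (⌊x i / P⌋ : ℝ) * P else 0, fun i =>
    ⟨fun hi => ⟨⌊x i / P⌋, by simp [hi]⟩, fun hi => by simp [hi]⟩, fun j hj => ?_⟩
  have h1 := Int.floor_le (x j / P)
  have h2 := Int.lt_floor_add_one (x j / P)
  rw [le_div_iff₀ hP] at h1
  rw [div_lt_iff₀ hP] at h2
  simp only [Pi.sub_apply, hj, if_true, abs_le]
  constructor <;> nlinarith

lemma coe_eq_iff (a b : ℝ) :
    (a : AddCircle P) = (b : AddCircle P) ↔ ∃ n : ℤ, a - b = n * P := by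
  rw [← sub_eq_zero, ← AddCircle.coe_sub, AddCircle.coe_eq_zero_iff]
  simp only [zsmul_eq_mul]
  exact ⟨fun ⟨n, h⟩ => ⟨n, h.symm⟩, fun ⟨n, h⟩ => ⟨n, h.symm⟩⟩

/-- a continuous lattice valued map on a connected set is constant -/
lemma lat_const (hP : 0 < P) {X : Type*} [TopologicalSpace X] {s : Set X} (hs : IsPreconnected s)
    {f : X → ι → ℝ} (hf : ContinuousOn f s) (hl : ∀ x ∈ s, f x ∈ lat J P) {x y : X} (hx : x ∈ s)
    (hy : y ∈ s) : f x = f y := by
  have : Fact (0 < P) := ⟨hP⟩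
  funext i
  by_cases hi : i ∈ J
  · refine (AddCircle.isCoveringMap_coe P).constOn_of_comp (g := fun x => f x i) hs
      ((continuous_apply i).comp_continuousOn hf) (fun a ha b hb => ?_) hx hy
    obtain ⟨n, hn⟩ := (hl a ha i).1 hi
    obtain ⟨m, hm⟩ := (hl b hb i).1 hi
    exact (coe_eq_iff _ _).2 ⟨n - m, by simp [hn, hm, sub_mul]⟩
  · rw [(hl x hx i).2 hi, (hl y hy i).2 hi]

variable [Fintype ι] [TopologicalSpace Z] {G H : (ι → ℝ) → Z}

/-- one sided lifting -/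
lemma exists_lift (hP : 0 < P) (hKJ : Disjoint K J) (hG : ContinuousOn G (slab K))
    (fibH : ∀ x ∈ slab K, ∀ y ∈ slab K, H x = H y ↔ x - y ∈ lat J P)
    (openH : ∀ x ∈ slab K, 𝓝[H '' slab K] (H x) ≤ map H (𝓝[slab K] x))
    (img : G '' slab K ⊆ H '' slab K) {x₀ y₀ : ι → ℝ} (hx₀ : x₀ ∈ slab K) (hy₀ : y₀ ∈ slab K)
    (h₀ : G x₀ = H y₀) :
    ∃ u : (ι → ℝ) → (ι → ℝ), ContinuousOn u (slab K) ∧ MapsTo u (slab K) (slab K) ∧
      (∀ x ∈ slab K, H (u x) = G x) ∧ u x₀ = y₀ := by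
  classical
  have : Fact (0 < P) := ⟨hP⟩
  have hs : ∀ x, ∃ y, x ∈ slab K → y ∈ slab K ∧ H y = G x := fun x => by
    by_cases hx : x ∈ slab K
    · obtain ⟨y, hy, h⟩ := img ⟨x, hx, rfl⟩
      exact ⟨y, fun _ => ⟨hy, h⟩⟩
    · exact ⟨0, fun h => absurd h hx⟩
  choose s hs using hs
  have hφ : ∀ {Y : Type} [TopologicalSpace Y] (φ : (ι → ℝ) → Y), Continuous φ →
      (∀ a b, a - b ∈ lat J P → φ a = φ b) → ContinuousOn (φ ∘ s) (slab K) := by
    intro Y _ φ hc hinv x hx N hN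
    have h1 : φ ⁻¹' N ∩ slab K ∈ 𝓝[slab K] (s x) :=
      inter_mem (mem_nhdsWithin_of_mem_nhds (hc.continuousAt hN)) self_mem_nhdsWithin
    have h2 := openH _ (hs x hx).1 (image_mem_map h1)
    rw [(hs x hx).2] at h2
    have h3 : Tendsto G (𝓝[slab K] x) (𝓝[H '' slab K] (G x)) :=
      tendsto_nhdsWithin_iff.2 ⟨hG x hx, eventually_nhdsWithin_of_forall
        fun z hz => img ⟨z, hz, rfl⟩⟩
    rw [mem_map]
    filter_upwards [h3 h2, self_mem_nhdsWithin] with z hz hzs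
    obtain ⟨y, hy, hyz⟩ := hz
    have h4 := (fibH _ (hs z hzs).1 _ hy.2).1 (by rw [(hs z hzs).2, hyz])
    change φ (s z) ∈ N
    rw [hinv _ _ h4]; exact hy.1
  have h00 := (fibH _ hy₀ _ (hs x₀ hx₀).1).1 (by rw [(hs x₀ hx₀).2, h₀])
  have hf : ∀ i, ∃ f : (ι → ℝ) → ℝ, ContinuousOn f (slab K) ∧ f x₀ = y₀ i ∧ ∀ x ∈ slab K,
      (i ∈ J → ∃ n : ℤ, f x - s x i = n * P) ∧ (i ∉ J → f x - s x i = 0) := by
    intro i
    by_cases hi : i ∈ J
    · have := (convex_slab K).contractibleSpace ⟨_, hx₀⟩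
      have := (convex_slab K).locallyPathConnectedSpace
      have h1 := hφ (fun a => ((a i : ℝ) : AddCircle P))
        ((AddCircle.continuous_mk' P).comp (continuous_apply i))
        (fun a b hab => (coe_eq_iff _ _).2 ((hab i).1 hi))
      obtain ⟨F, ⟨hF0, hF⟩, -⟩ := (AddCircle.isCoveringMap_coe P).existsUnique_continuousMap_lifts
        ⟨_, continuousOn_iff_continuous_domRestrict.1 h1⟩ ⟨x₀, hx₀⟩ (y₀ i)
        ((coe_eq_iff _ _).2 ((h00 i).1 hi))
      refine ⟨fun x => if h : x ∈ slab K then F ⟨x, h⟩ else 0, ?_, by simp [hx₀, hF0],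
        fun x hx => ⟨fun _ => ?_, fun h => absurd hi h⟩⟩
      · rw [continuousOn_iff_continuous_domRestrict]
        convert F.continuous using 1
        funext x; simp
      · simp only [dif_pos hx]
        exact (coe_eq_iff _ _).1 (congrFun hF ⟨x, hx⟩)
    · refine ⟨fun x => s x i, hφ (fun a => a i) (continuous_apply i)
        (fun a b hab => sub_eq_zero.1 ((hab i).2 hi)), (sub_eq_zero.1 ((h00 i).2 hi)).symm,
        fun x _ => ⟨fun h => absurd h hi, fun _ => sub_self _⟩⟩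
  choose f hf1 hf2 hf3 using hf
  have hl : ∀ x ∈ slab K, (fun i => f i x) - s x ∈ lat J P := fun x hx i => hf3 i x hx
  have hm : ∀ x ∈ slab K, (fun i => f i x) ∈ slab K := fun x hx => by
    have := add_mem_slab hKJ (hs x hx).1 (hl x hx)
    rwa [add_sub_cancel] at this
  refine ⟨fun x i => f i x, continuousOn_pi.2 hf1, hm, fun x hx => ?_, funext hf2⟩
  rw [(fibH _ (hm x hx) _ (hs x hx).1).2 (hl x hx), (hs x hx).2]

omit [TopologicalSpace Z] in
lemma isCompact_box (J : Finset ι) (y : ι → ℝ) (r P : ℝ) :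
    IsCompact {x : ι → ℝ | ∀ i, (i ∈ J → |x i| ≤ P) ∧ (i ∉ J → |x i - y i| ≤ r)} := by
  refine Metric.isCompact_of_isClosed_isBounded ?_ ?_
  · simp only [ofPred_forall, ofPred_and]
    refine isClosed_iInter fun i => IsClosed.inter (isClosed_iInter fun _ => ?_)
      (isClosed_iInter fun _ => ?_) <;> exact isClosed_le (by fun_prop) continuous_const
  · refine (isBounded_iff_forall_norm_le).2 ⟨|P| + |r| + ‖y‖, fun x hx => ?_⟩
    refine (pi_norm_le_iff_of_nonneg (by positivity)).2 fun i => ?_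
    have h1 := norm_le_pi_norm y i
    rw [Real.norm_eq_abs] at h1 ⊢
    have h2 := le_abs_self P
    have h3 := le_abs_self r
    by_cases hi : i ∈ J
    · have := (hx i).1 hi; linarith [abs_nonneg r, norm_nonneg y]
    · have := (hx i).2 hi
      have h4 := abs_sub_abs_le_abs_sub (x i) (y i)
      linarith [abs_nonneg P]

/-- properness: `G` is open onto its image as well -/
lemma Ladder.openG [T2Space Z] (hP : 0 < P) (hKJ : Disjoint K J) (L : Ladder K J P C c G H) :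
    ∀ x ∈ slab K, 𝓝[G '' slab K] (G x) ≤ map G (𝓝[slab K] x) := by
  intro x hx N hN
  rw [mem_map, mem_nhdsWithin] at hN
  obtain ⟨O, hO, hxO, hON⟩ := hN
  obtain ⟨y, hy, hxy⟩ := L.img.subset ⟨x, hx, rfl⟩
  set F := ({z : ι → ℝ | ∀ i, (i ∈ J → |z i| ≤ P) ∧ (i ∉ J → |z i - y i| ≤ C + 1)} ∩ slab K) ∩
    ⋂ l ∈ lat J P, {z | z - l ∉ O} with hF
  have hFc : IsCompact F := by
    refine ((isCompact_box J y (C + 1) P).inter_right (isClosed_slab K)).inter_right ?_
    exact isClosed_biInter fun l _ => hO.isClosed_compl.preimage (f := fun z => z - l)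
      (by fun_prop)
  have h1 : IsClosed (G '' F) := (hFc.image_of_continuousOn
    (L.contG.mono fun z hz => hz.1.2)).isClosed
  have h2 : G x ∉ G '' F := by
    rintro ⟨z, hz, hzx⟩
    have h3 := (L.fibG _ hz.1.2 _ hx).1 hzx
    have h4 := mem_iInter₂.1 hz.2 _ h3
    simp only [mem_ofPred_eq, sub_sub_cancel] at h4
    exact h4 hxO
  have h3 : H '' (ball y 1 ∩ slab K) ∈ 𝓝[G '' slab K] (G x) := by
    rw [L.img, ← hxy]
    exact L.openH y hy (image_mem_map
      (inter_mem (mem_nhdsWithin_of_mem_nhds (ball_mem_nhds y one_pos)) self_mem_nhdsWithin))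
  filter_upwards [h3, mem_nhdsWithin_of_mem_nhds (h1.isOpen_compl.mem_nhds h2),
    self_mem_nhdsWithin] with w hw1 hw2 hw3
  obtain ⟨y', hy', rfl⟩ := hw1
  obtain ⟨z, hz, hzy⟩ := hw3
  obtain ⟨l, hl, hlz⟩ := exists_reduce J hP z
  have hzl : z - l ∈ slab K := by
    rw [sub_eq_add_neg]; exact add_mem_slab hKJ hz (neg_mem hl)
  have hGz : G (z - l) = G z := (L.fibG _ hzl _ hz).2 (by simpa using neg_mem hl)
  by_contra hc
  refine hw2 ⟨z - l, ⟨⟨fun i => ⟨hlz i, fun hi => ?_⟩, hzl⟩, mem_iInter₂.2 fun m hm hmO => hc ?_⟩,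
    hGz.trans hzy⟩
  · have h4 := L.vert _ hzl _ hy'.2 (hGz.trans hzy) i hi
    have h5 : |y' i - y i| ≤ 1 := by
      have := norm_le_pi_norm (y' - y) i
      rw [Real.norm_eq_abs, Pi.sub_apply] at this
      exact this.trans (mem_ball_iff_norm.1 hy'.1).le
    exact (abs_sub_le _ (y' i) _).trans (add_le_add h4 h5)
  · have hs : z - l - m ∈ slab K := by
      rw [sub_eq_add_neg]; exact add_mem_slab hKJ hzl (neg_mem hm)
    have h4 : G (z - l - m) ∈ N := hON ⟨hmO, hs⟩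
    rwa [(L.fibG _ hs _ hzl).2 (by simpa using neg_mem hm), hGz, hzy] at h4

/-- the lift of `H⁻¹ ∘ G` is a homeomorphism of the slab -/
lemma Ladder.exists_equiv [T2Space Z] (hP : 0 < P) (hKJ : Disjoint K J)
    (L : Ladder K J P C c G H) {x₀ y₀ : ι → ℝ} (hx₀ : x₀ ∈ slab K) (hy₀ : y₀ ∈ slab K)
    (h₀ : G x₀ = H y₀) :
    ∃ u w : (ι → ℝ) → (ι → ℝ), ContinuousOn u (slab K) ∧ MapsTo u (slab K) (slab K) ∧
      ContinuousOn w (slab K) ∧ MapsTo w (slab K) (slab K) ∧ (∀ x ∈ slab K, H (u x) = G x) ∧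
      (∀ y ∈ slab K, G (w y) = H y) ∧ (∀ x ∈ slab K, w (u x) = x) ∧
      (∀ y ∈ slab K, u (w y) = y) ∧ u x₀ = y₀ := by
  obtain ⟨u, u1, u2, u3, u4⟩ := exists_lift hP hKJ L.contG L.fibH L.openH L.img.subset hx₀ hy₀ h₀
  obtain ⟨w, w1, w2, w3, w4⟩ := exists_lift hP hKJ L.contH L.fibG (L.openG hP hKJ)
    L.img.superset hy₀ hx₀ h₀.symm
  have hc := (convex_slab K).isPreconnected
  refine ⟨u, w, u1, u2, w1, w2, u3, w3, fun x hx => ?_, fun y hy => ?_, u4⟩
  · have := lat_const (J := J) hP hc (f := fun x => w (u x) - x)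
      ((w1.comp u1 u2).sub continuousOn_id)
      (fun z hz => (L.fibG _ (w2 (u2 hz)) _ hz).1 (by rw [w3 _ (u2 hz), u3 _ hz])) hx hx₀
    simp only [u4, w4, sub_self] at this
    exact sub_eq_zero.1 this
  · have := lat_const (J := J) hP hc (f := fun x => u (w x) - x)
      ((u1.comp w1 w2).sub continuousOn_id)
      (fun z hz => (L.fibH _ (u2 (w2 hz)) _ hz).1 (by rw [u3 _ (w2 hz), w3 _ hz])) hy hy₀
    simp only [u4, w4, sub_self] at this
    exact sub_eq_zero.1 this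

end Crest.Agent.X212.Lad50
end

-- ▼ part X212/Lad50/Lad
section

/-!
# Row 212, layer T, LAD (4): from a ladder to a compactly supported homeomorphism `ψ` with
`H ∘ ψ = G` on a given ball (handles of index `k ≥ 1`: `lad`; index `0`: `lad_zero`).
-/

open Set Filter Topology Metric

namespace Crest.Agent.X212.Lad50

variable {ι : Type*} {Z : Type*} {K J : Finset ι} {P C c : ℝ}

lemma continuous_ext {u : (ι → ℝ) → (ι → ℝ)} (hu : ContinuousOn u (slab K))
    (hb : ∀ x ∈ slab K, (∃ i ∈ K, 1 ≤ |x i|) → u x = x) [DecidablePred (· ∈ slab K)] :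
    Continuous ((slab K).piecewise u id) := by
  have hT : IsClosed (⋃ i ∈ K, {x : ι → ℝ | 1 ≤ |x i|}) :=
    isClosed_biUnion_finset fun i _ => isClosed_le continuous_const (by fun_prop)
  have h1 : ContinuousOn ((slab K).piecewise u id) (slab K) :=
    hu.congr fun x hx => piecewise_eq_of_mem _ _ _ hx
  have h2 : ContinuousOn ((slab K).piecewise u id) (⋃ i ∈ K, {x : ι → ℝ | 1 ≤ |x i|}) := by
    refine continuousOn_id.congr fun x hx => ?_
    by_cases h : x ∈ slab K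
    · rw [piecewise_eq_of_mem _ _ _ h]
      obtain ⟨i, hi, hx⟩ := mem_iUnion₂.1 hx
      exact hb x h ⟨i, hi, hx⟩
    · rw [piecewise_eq_of_notMem _ _ _ h]
  have h3 := h1.union_of_isClosed h2 (isClosed_slab K) hT
  rw [← continuousOn_univ]
  refine h3.mono fun x _ => ?_
  by_cases h : x ∈ slab K
  · exact Or.inl h
  · simp only [slab, mem_ofPred_eq, not_forall, not_le] at h
    obtain ⟨i, hi, h⟩ := h
    exact Or.inr (mem_iUnion₂.2 ⟨i, hi, h.le⟩)

/-- extension by the identity -/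
lemma exists_ext {u w : (ι → ℝ) → (ι → ℝ)} (u1 : ContinuousOn u (slab K))
    (u2 : MapsTo u (slab K) (slab K)) (w1 : ContinuousOn w (slab K))
    (w2 : MapsTo w (slab K) (slab K)) (wu : ∀ x ∈ slab K, w (u x) = x)
    (uw : ∀ y ∈ slab K, u (w y) = y) (hb : ∀ x ∈ slab K, (∃ i ∈ K, 1 ≤ |x i|) → u x = x) :
    ∃ U : (ι → ℝ) ≃ₜ (ι → ℝ), (∀ x ∈ slab K, U x = u x) ∧ ∀ x ∉ slab K, U x = x := by
  classical
  have hb' : ∀ x ∈ slab K, (∃ i ∈ K, 1 ≤ |x i|) → w x = x := fun x hx h => by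
    have := wu x hx; rwa [hb x hx h] at this
  refine ⟨⟨⟨(slab K).piecewise u id, (slab K).piecewise w id, fun x => ?_, fun x => ?_⟩,
    continuous_ext u1 hb, continuous_ext w1 hb'⟩, fun x hx => piecewise_eq_of_mem _ _ _ hx,
    fun x hx => piecewise_eq_of_notMem _ _ _ hx⟩
  · by_cases h : x ∈ slab K
    · rw [piecewise_eq_of_mem _ _ _ h, piecewise_eq_of_mem _ _ _ (u2 h), wu x h]
    · rw [piecewise_eq_of_notMem _ _ _ h, id, piecewise_eq_of_notMem _ _ _ h, id]
  · by_cases h : x ∈ slab K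
    · rw [piecewise_eq_of_mem _ _ _ h, piecewise_eq_of_mem _ _ _ (w2 h), uw x h]
    · rw [piecewise_eq_of_notMem _ _ _ h, id, piecewise_eq_of_notMem _ _ _ h, id]

variable [Fintype ι]

/-- a lattice equivariant homeomorphism with bounded displacement off `J` is, on a ball, a
compactly supported homeomorphism -/
theorem periodic (hP : 0 < P) (U : (ι → ℝ) ≃ₜ (ι → ℝ)) (hC : ∀ x, ∀ i ∉ J, |U x i - x i| ≤ C)
    (hU : ∀ x, ∀ l ∈ lat J P, U (x + l) = U x + l) (R : ℝ) :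
    ∃ ψ : (ι → ℝ) ≃ₜ (ι → ℝ), (∀ x, ‖x‖ ≤ R → ψ x = U x) ∧ (∃ R', ∀ x, R' ≤ ‖x‖ → ψ x = x) ∧
      ∀ x, (∀ y, (∃ t : ℝ, 1 ≤ t ∧ ∀ i ∉ J, y i = t * x i) → U y = y) → ψ x = x := by
  refine slow (J : Set ι) U (C := C) hC (fun n => ?_) R
  obtain ⟨M, hM⟩ := ((isCompact_box J 0 n P).image
    (U.continuous.sub continuous_id)).isBounded.exists_norm_le
  refine ⟨M, fun x hx j _ => ?_⟩
  obtain ⟨l, hl, hlx⟩ := exists_reduce J hP x
  have h1 := hM _ ⟨x - l, fun i => ⟨hlx i, fun hi => by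
    simpa [(hl i).2 hi] using hx i hi⟩, rfl⟩
  have h2 : U x - x = U (x - l) - (x - l) := by
    have := hU (x - l) l hl
    rw [sub_add_cancel] at this
    rw [this]; abel
  have h3 := norm_le_pi_norm (U x - x) j
  rw [Real.norm_eq_abs, Pi.sub_apply] at h3
  exact h3.trans (by rw [h2]; exact h1)

omit [Fintype ι] in
lemma convex_core (K : Finset ι) : Convex ℝ (core K) := by
  intro x hx y hy a b ha hb hab
  exact ⟨convex_slab K hx.1 hy.1 ha hb hab, fun i hi => by simp [hx.2 i hi, hy.2 i hi]⟩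

omit [Fintype ι] in
/-- a lift is equivariant up to an endomorphism of the lattice -/
lemma shift_const (hP : 0 < P) (hKJ : Disjoint K J) {G H : (ι → ℝ) → Z}
    (fibH : ∀ x ∈ slab K, ∀ y ∈ slab K, H x = H y ↔ x - y ∈ lat J P)
    (fibG : ∀ x ∈ slab K, ∀ y ∈ slab K, G x = G y ↔ x - y ∈ lat J P)
    {u : (ι → ℝ) → (ι → ℝ)} (u1 : ContinuousOn u (slab K)) (u2 : MapsTo u (slab K) (slab K))
    (u3 : ∀ x ∈ slab K, H (u x) = G x) {l : ι → ℝ} (hl : l ∈ lat J P) :
    (∀ x ∈ slab K, u (x + l) - u x ∈ lat J P) ∧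
      ∀ x ∈ slab K, ∀ y ∈ slab K, u (x + l) - u x = u (y + l) - u y := by
  have h1 : ∀ x ∈ slab K, u (x + l) - u x ∈ lat J P := fun x hx => by
    have hxl := add_mem_slab hKJ hx hl
    refine (fibH _ (u2 hxl) _ (u2 hx)).1 ?_
    rw [u3 _ hxl, u3 _ hx]
    exact (fibG _ hxl _ hx).2 (by simpa using hl)
  refine ⟨h1, fun x hx y hy => lat_const (J := J) hP (convex_slab K).isPreconnected
    (f := fun x => u (x + l) - u x) ?_ h1 hx hy⟩
  exact (u1.comp (f := fun x => x + l) (by fun_prop) fun z hz => add_mem_slab hKJ hz hl).sub u1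

variable [TopologicalSpace Z] [T2Space Z] {G H : (ι → ℝ) → Z}

/-- **Ladder lemma, handles of index `k ≥ 1`.** -/
theorem lad (hP : 0 < P) (hKJ : Disjoint K J) (hK : K.Nonempty) (hc : c ≤ 1)
    (L : Ladder K J P C c G H)
    (hcore : ∀ x ∈ core K, ∃ y ∈ slab K, (∀ j ∈ J, |y j| < P / 2) ∧ G x = H y) (R : ℝ) :
    ∃ ψ : (ι → ℝ) ≃ₜ (ι → ℝ), (∀ x ∈ slab K, ‖x‖ ≤ R → ψ x ∈ slab K ∧ H (ψ x) = G x) ∧
      (∃ R', ∀ x, R' ≤ ‖x‖ → ψ x = x) ∧ (∀ x, (∃ i ∈ K, c ≤ |x i|) → ψ x = x) ∧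
      ∀ x ∈ core K, ∀ y ∈ slab K, (∀ j ∈ J, |y j| < P / 2) → G x = H y → ψ x = y := by
  classical
  have h0 : (0 : ι → ℝ) ∈ core K := ⟨zero_mem_slab K, fun _ _ => rfl⟩
  obtain ⟨y₀, hy₀, hy₀', h₀⟩ := hcore 0 h0
  obtain ⟨u, w, u1, u2, w1, w2, u3, -, wu, uw, u4⟩ := L.exists_equiv hP hKJ h0.1 hy₀ h₀
  have hne : ∀ x ∈ core K, ∀ j ∈ J, |u x j| ≠ P / 2 := fun x hx j hj he => by
    obtain ⟨y, hy, hy', h⟩ := hcore x hx
    obtain ⟨n, hn⟩ := ((L.fibH _ (u2 hx.1) _ hy).1 ((u3 x hx.1).trans h) j).1 hj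
    have h1 := abs_lt.1 (hy' j hj)
    rw [Pi.sub_apply] at hn
    rcases (abs_eq (half_pos hP).le).1 he with h2 | h2
    · have h3 : (0 : ℝ) < n := by nlinarith
      have h4 : (n : ℝ) < 1 := by nlinarith
      have h5 : 0 < n := by exact_mod_cast h3
      have h6 : n < 1 := by exact_mod_cast h4
      omega
    · have h3 : (n : ℝ) < 0 := by nlinarith
      have h4 : (-1 : ℝ) < n := by nlinarith
      have h5 : n < 0 := by exact_mod_cast h3
      have h6 : -1 < n := by exact_mod_cast h4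
      omega
  have hin : ∀ x ∈ core K, ∀ j ∈ J, |u x j| < P / 2 := fun x hx j hj => by
    by_contra hlt
    have h1 : ContinuousOn (fun x => |u x j|) (core K) :=
      (((continuous_apply j).comp_continuousOn u1).mono fun z hz => hz.1).abs
    obtain ⟨z, hz, hz'⟩ := (convex_core K).isPreconnected.intermediate_value h0 hx h1
      (show P / 2 ∈ Icc |u 0 j| |u x j| from ⟨by rw [u4]; exact (hy₀' j hj).le, not_lt.1 hlt⟩)
    exact hne z hz j hj hz'
  have hzone : ∀ x ∈ slab K, (∃ i ∈ K, c ≤ |x i|) → u x = x := fun x hx ⟨i, hi, hci⟩ => by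
    set S : Set (ι → ℝ) := {z | ∀ k ∈ K, z k = x k} with hS
    have hSs : S ⊆ slab K := fun z hz k hk => by rw [hz k hk]; exact hx k hk
    have hSc : Convex ℝ S := fun a ha b hb s t _ _ hst k hk => by
      simp only [Pi.add_apply, Pi.smul_apply, smul_eq_mul, ha k hk, hb k hk]
      rw [← add_mul, hst, one_mul]
    have hl : ∀ z ∈ S, u z - z ∈ lat J P := fun z hz =>
      (L.fibH _ (u2 (hSs hz)) _ (hSs hz)).1
        ((u3 _ (hSs hz)).trans (L.bdry z (hSs hz) ⟨i, hi, by rw [hz i hi]; exact hci⟩))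
    set x' : ι → ℝ := fun k => if k ∈ K then x k else 0 with hx'
    have h1 : x' ∈ S := fun k hk => by simp [hx', hk]
    have h2 : x' ∈ core K := ⟨hSs h1, fun k hk => by simp [hx', hk]⟩
    have h3 : u x' - x' = 0 := lat_eq_zero hP (hl _ h1) fun j hj => by
      have h4 : x' j = 0 := h2.2 j (Finset.disjoint_right.1 hKJ hj)
      have := hin x' h2 j hj
      rw [Pi.sub_apply, h4, sub_zero]; linarith
    have h4 := lat_const (J := J) hP hSc.isPreconnected (f := fun z => u z - z)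
      ((u1.mono hSs).sub continuousOn_id) hl (show x ∈ S from fun _ _ => rfl) h1
    exact sub_eq_zero.1 (h4.trans h3)
  obtain ⟨U, hU1, hU2⟩ := exists_ext u1 u2 w1 w2 wu uw
    fun x hx ⟨i, hi, h⟩ => hzone x hx ⟨i, hi, hc.trans h⟩
  have hUz : ∀ x, (∃ i ∈ K, c ≤ |x i|) → U x = x := fun x h => by
    by_cases hx : x ∈ slab K
    · rw [hU1 x hx, hzone x hx h]
    · exact hU2 x hx
  have hper : ∀ x, ∀ l ∈ lat J P, U (x + l) = U x + l := fun x l hl => by
    by_cases hx : x ∈ slab K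
    · obtain ⟨i, hi⟩ := hK
      have h1 : (Pi.single i 1 : ι → ℝ) ∈ slab K := fun k _ => by
        by_cases hk : k = i <;> simp [Pi.single_apply, hk]
      have h2 := (shift_const hP hKJ L.fibH L.fibG u1 u2 u3 hl).2 x hx _ h1
      rw [hzone _ h1 ⟨i, hi, by simpa using hc⟩, hzone _ (add_mem_slab hKJ h1 hl)
        ⟨i, hi, by simpa [(hl i).2 (Finset.disjoint_left.1 hKJ hi)] using hc⟩] at h2
      rw [hU1 x hx, hU1 _ (add_mem_slab hKJ hx hl), sub_eq_iff_eq_add.1 h2]; abel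
    · rw [hU2 x hx, hU2 _ fun h => hx (by simpa using add_mem_slab hKJ h (neg_mem hl))]
  have hC : ∀ x, ∀ i ∉ J, |U x i - x i| ≤ |C| := fun x i hi => by
    by_cases hx : x ∈ slab K
    · rw [hU1 x hx, abs_sub_comm]
      exact (L.vert x hx _ (u2 hx) (u3 x hx).symm i hi).trans (le_abs_self C)
    · rw [hU2 x hx]; simp
  obtain ⟨ψ, h1, h2, h3⟩ := periodic hP U hC hper (max R 1)
  refine ⟨ψ, fun x hx hR => ?_, h2, fun x ⟨i, hi, hci⟩ => h3 x fun y ⟨t, ht, hy⟩ => hUz y ⟨i, hi, ?_⟩,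
    fun x hx y hy hy' h => ?_⟩
  · rw [h1 x (le_max_of_le_left hR), hU1 x hx]
    exact ⟨u2 hx, u3 x hx⟩
  · rw [hy i (Finset.disjoint_left.1 hKJ hi), abs_mul, abs_of_pos (by linarith : 0 < t)]
    nlinarith [abs_nonneg (x i)]
  · have hn : ‖x‖ ≤ 1 := (pi_norm_le_iff_of_nonneg zero_le_one).2 fun i => by
      by_cases hi : i ∈ K
      · exact hx.1 i hi
      · simp [hx.2 i hi]
    rw [h1 x (le_max_of_le_right hn), hU1 x hx.1]
    refine sub_eq_zero.1 (lat_eq_zero hP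
      ((L.fibH _ (u2 hx.1) _ hy).1 ((u3 x hx.1).trans h)) fun j hj => ?_)
    have h4 := hin x hx j hj
    have h5 := hy' j hj
    have h6 := abs_sub (u x j) (y j)
    rw [Pi.sub_apply]; linarith

omit [TopologicalSpace Z] [T2Space Z] in
/-- an endomorphism of the lattice extends linearly -/
lemma lin_ext [DecidableEq ι] (hP : 0 < P) (B : (ι → ℝ) → (ι → ℝ))
    (hB : ∀ l ∈ lat J P, B l ∈ lat J P)
    (hadd : ∀ l ∈ lat J P, ∀ m ∈ lat J P, B (l + m) = B l + B m) :
    ∃ L : (ι → ℝ) →ₗ[ℝ] (ι → ℝ), (∀ l ∈ lat J P, L l = B l) ∧ (∀ x, ∀ i ∉ J, L x i = x i) ∧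
      ∀ i ∉ J, L (Pi.single i 1) = Pi.single i 1 := by
  have hs : ∀ i ∈ J, (Pi.single i P : ι → ℝ) ∈ lat J P := fun i hi k => by
    by_cases hk : k = i
    · subst hk; exact ⟨fun _ => ⟨1, by simp⟩, fun h => absurd hi h⟩
    · exact ⟨fun _ => ⟨0, by simp [hk]⟩, fun _ => by simp [hk]⟩
  let b : ι → ι → ℝ := fun i => if i ∈ J then P⁻¹ • B (Pi.single i P) else Pi.single i 1
  let L : (ι → ℝ) →ₗ[ℝ] (ι → ℝ) := (Pi.basisFun ℝ ι).constr ℝ b
  have hL : ∀ x, L x = ∑ i, x i • b i := fun x => by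
    simp [L, Module.Basis.constr_apply_fintype]
  let B' : lat J P →+ (ι → ℝ) := AddMonoidHom.mk' (fun l => B l) fun l m => hadd _ l.2 _ m.2
  refine ⟨L, fun l hl => ?_, fun x i hi => ?_, fun i hi => ?_⟩
  · choose n hn using fun i : J => (hl i).1 i.2
    have h1 : (⟨l, hl⟩ : lat J P) = ∑ i : J, n i • (⟨Pi.single i P, hs i i.2⟩ : lat J P) := by
      apply Subtype.ext
      funext k
      simp only [AddSubmonoidClass.coe_finset_sum, AddSubgroupClass.coe_zsmul, Finset.sum_apply,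
        Pi.smul_apply, zsmul_eq_mul]
      by_cases hk : k ∈ J
      · rw [Finset.sum_eq_single ⟨k, hk⟩]
        · simp [hn ⟨k, hk⟩]
        · intro j _ hj
          have : k ≠ (j : ι) := fun h => hj (Subtype.ext h.symm)
          simp [this]
        · simp
      · rw [(hl k).2 hk]
        refine (Finset.sum_eq_zero fun j _ => ?_).symm
        have : k ≠ (j : ι) := fun h => hk (h ▸ j.2)
        simp [this]
    have h2 : B l = ∑ i : J, (n i : ℝ) • B (Pi.single i P) := by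
      change B' ⟨l, hl⟩ = _
      rw [h1, map_sum]
      refine Finset.sum_congr rfl fun i _ => ?_
      rw [map_zsmul, Int.cast_smul_eq_zsmul]; rfl
    rw [hL, h2, ← Finset.sum_subset (Finset.subset_univ J)
      (fun i _ hi => by rw [(hl i).2 hi, zero_smul]), ← Finset.sum_coe_sort J]
    refine Finset.sum_congr rfl fun i _ => ?_
    simp only [b, i.2, if_true, hn i, smul_smul]
    congr 1; field_simp
  · rw [hL, Finset.sum_apply, Finset.sum_eq_single i]
    · simp [b, hi]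
    · intro k _ hk
      by_cases hkJ : k ∈ J
      · simp [b, hkJ, (hB _ (hs k hkJ) i).2 hi]
      · simp [b, hkJ, Pi.single_apply, hk.symm]
    · simp
  · rw [hL, Finset.sum_eq_single i]
    · simp [b, hi]
    · intro k _ hk; simp [hk]
    · simp

/-- **Ladder lemma, index `0`.** -/
theorem lad_zero (hP : 0 < P) (L : Ladder ∅ J P C c G H) (R : ℝ) :
    ∃ (A : (ι → ℝ) ≃L[ℝ] (ι → ℝ)) (x₀ : ι → ℝ) (ψ : (ι → ℝ) ≃ₜ (ι → ℝ)), ψ 0 = 0 ∧
      (∀ x, ‖x‖ ≤ R → H (ψ x) = G (A x + x₀)) ∧ ∃ R', ∀ x, R' ≤ ‖x‖ → ψ x = x := by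
  classical
  have hs : ∀ x : ι → ℝ, x ∈ slab ∅ := fun x i hi => absurd hi (Finset.notMem_empty i)
  have hKJ : Disjoint (∅ : Finset ι) J := Finset.disjoint_empty_left J
  obtain ⟨x₀, -, h₀⟩ := L.img.superset ⟨0, hs 0, rfl⟩
  obtain ⟨u, w, u1, u2, w1, w2, u3, w3, wu, uw, u4⟩ := L.exists_equiv hP hKJ (hs x₀) (hs 0) h₀
  obtain ⟨U, hU, -⟩ := exists_ext u1 u2 w1 w2 wu uw fun x _ ⟨i, hi, _⟩ =>
    absurd hi (Finset.notMem_empty i)
  have hu := fun l hl => shift_const (l := l) hP hKJ L.fibH L.fibG u1 u2 u3 hl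
  have hw := fun l hl => shift_const (l := l) hP hKJ L.fibG L.fibH w1 w2 w3 hl
  set a : (ι → ℝ) → (ι → ℝ) := fun l => u (0 + l) - u 0 with ha
  set b : (ι → ℝ) → (ι → ℝ) := fun l => w (0 + l) - w 0 with hb
  have hua : ∀ x, ∀ l ∈ lat J P, u (x + l) = u x + a l := fun x l hl => by
    rw [ha]; simp only; rw [← (hu l hl).2 x (hs x) 0 (hs 0)]; abel
  have hwb : ∀ x, ∀ l ∈ lat J P, w (x + l) = w x + b l := fun x l hl => by
    rw [hb]; simp only; rw [← (hw l hl).2 x (hs x) 0 (hs 0)]; abel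
  have hal : ∀ l ∈ lat J P, a l ∈ lat J P := fun l hl => (hu l hl).1 0 (hs 0)
  have hbl : ∀ l ∈ lat J P, b l ∈ lat J P := fun l hl => (hw l hl).1 0 (hs 0)
  have hab : ∀ l ∈ lat J P, a (b l) = l := fun l hl => by
    have h1 := uw (0 + l) (hs _)
    rw [hwb 0 l hl, hua _ _ (hbl l hl), uw 0 (hs _)] at h1
    simpa using h1
  have hba : ∀ l ∈ lat J P, b (a l) = l := fun l hl => by
    have h1 := wu (0 + l) (hs _)
    rw [hua 0 l hl, hwb _ _ (hal l hl), wu 0 (hs _)] at h1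
    simpa using h1
  obtain ⟨La, a1, -, a3⟩ := lin_ext hP a hal fun l hl m hm => by
    have h1 := hua 0 _ (add_mem hl hm)
    rw [← add_assoc, hua _ m hm, hua _ l hl, add_assoc] at h1
    exact (add_left_cancel h1).symm
  obtain ⟨Lb, b1, b2, b3⟩ := lin_ext hP b hbl fun l hl m hm => by
    have h1 := hwb 0 _ (add_mem hl hm)
    rw [← add_assoc, hwb _ m hm, hwb _ l hl, add_assoc] at h1
    exact (add_left_cancel h1).symm
  have hinv : ∀ (M N : (ι → ℝ) →ₗ[ℝ] (ι → ℝ)), (∀ l ∈ lat J P, M (N l) = l) →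
      (∀ i ∉ J, M (Pi.single i 1) = Pi.single i 1) → (∀ i ∉ J, N (Pi.single i 1) = Pi.single i 1) →
      M ∘ₗ N = LinearMap.id := by
    intro M N h1 h2 h3
    refine (Pi.basisFun ℝ ι).ext fun i => ?_
    simp only [Pi.basisFun_apply, LinearMap.comp_apply, LinearMap.id_apply]
    by_cases hi : i ∈ J
    · have h4 : (P • Pi.single i 1 : ι → ℝ) ∈ lat J P := fun k => by
        by_cases hk : k = i
        · subst hk; exact ⟨fun _ => ⟨1, by simp⟩, fun h => absurd hi h⟩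
        · exact ⟨fun _ => ⟨0, by simp [hk]⟩, fun _ => by simp [hk]⟩
      have h5 := h1 _ h4
      rw [map_smul, map_smul] at h5
      exact smul_right_injective _ hP.ne' h5
    · rw [h3 i hi, h2 i hi]
  let A : (ι → ℝ) ≃L[ℝ] (ι → ℝ) := (LinearEquiv.ofLinear Lb La
    (hinv Lb La (fun l hl => by rw [a1 l hl, b1 _ (hal l hl), hba l hl]) b3 a3)
    (hinv La Lb (fun l hl => by rw [b1 l hl, a1 _ (hbl l hl), hab l hl]) a3 b3)).toContinuousLinearEquiv
  have hA : ∀ x, A x = Lb x := fun _ => rfl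
  let V : (ι → ℝ) ≃ₜ (ι → ℝ) := (A.toHomeomorph.trans (Homeomorph.addRight x₀)).trans U
  have hV : ∀ x, V x = u (A x + x₀) := fun x => hU _ (hs _)
  obtain ⟨ψ, h1, h2, -⟩ := periodic (J := J) (C := C + ‖x₀‖) hP V (fun x i hi => by
    have h1 := L.vert _ (hs (A x + x₀)) _ (hs _) (u3 _ (hs _)).symm i hi
    have h2 := norm_le_pi_norm x₀ i
    rw [Real.norm_eq_abs] at h2
    rw [Pi.add_apply, hA, b2 x i hi, abs_sub_comm] at h1
    rw [hV, hA]
    refine (abs_sub_le _ (x i + x₀ i) _).trans (add_le_add h1 (by simpa using h2)))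
    (fun x l hl => by
      rw [hV, hV, map_add, hA l, b1 l hl, add_right_comm, hua _ _ (hbl l hl), hab l hl]) (max R 0)
  refine ⟨A, x₀, ψ, ?_, fun x hx => ?_, h2⟩
  · rw [h1 0 (by simp), hV, map_zero, zero_add, u4]
  · rw [h1 x (le_max_of_le_left hx), hV, u3 _ (hs _)]

end Crest.Agent.X212.Lad50
end

-- ▼ part X212/Lad50/Bridge
section

/-!
# Row 212, layer T, LAD (5): the ladder lemmas in the vocabulary of `Prd34.Defs`
-/

open Set Filter Topology Metric

namespace Crest.Agent.X212.Lad50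

open Crest.Agent.R096.Ce_537 Prd34

lemma slab_eq (K : Finset (Fin 3)) : Prd34.slab K = Lad50.slab K := rfl

lemma core_eq (K : Finset (Fin 3)) : Prd34.core K = Lad50.core K := rfl

lemma mem_lat_iff {J : Finset (Fin 3)} {l : V} : l ∈ Prd34.lat J ↔ l ∈ Lad50.lat J 1 := by
  simp [Prd34.lat, mem_lat]

lemma openH_of_isOpenMap {Z : Type*} [TopologicalSpace Z] {K J : Finset (Fin 3)} {H : V → Z}
    (hKJ : Disjoint K J) (ho : IsOpenMap H) (fib : ∀ x y, H x = H y → x - y ∈ Prd34.lat J) :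
    ∀ x ∈ Lad50.slab K, 𝓝[H '' Lad50.slab K] (H x) ≤ map H (𝓝[Lad50.slab K] x) := by
  intro x _ N hN
  rw [mem_map, mem_nhdsWithin] at hN
  obtain ⟨O, hO, hxO, hON⟩ := hN
  filter_upwards [mem_nhdsWithin_of_mem_nhds ((ho O hO).mem_nhds ⟨x, hxO, rfl⟩),
    self_mem_nhdsWithin] with w hw1 hw2
  obtain ⟨a, ha, rfl⟩ := hw1
  obtain ⟨b, hb, e⟩ := hw2
  have h1 := add_mem_slab hKJ hb (mem_lat_iff.1 (fib a b e.symm))
  rw [add_sub_cancel] at h1
  exact hON ⟨ha, h1⟩

/-- a ladder over a `Per` map -/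
lemma ladder_of_per {K J : Finset (Fin 3)} {G H : V → V} {C : ℝ} (hKJ : Disjoint K J)
    (hH : Per J H) (cG : ContinuousOn G (Prd34.slab K))
    (fG : ∀ x ∈ Prd34.slab K, ∀ y ∈ Prd34.slab K, G x = G y ↔ x - y ∈ Prd34.lat J)
    (img : G '' Prd34.slab K = H '' Prd34.slab K)
    (vert : ∀ x ∈ Prd34.slab K, ∀ y ∈ Prd34.slab K, G x = H y → |x 2 - y 2| ≤ C)
    (hKJ2 : ∀ i, i ∉ J → i ∈ K ∨ i = 2)
    (bd : ∀ x ∈ Prd34.slab K, x ∈ out K → G x = H x) : Ladder K J 1 (max C 2) 1 G H where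
  contH := hH.cont.continuousOn
  contG := cG
  fibH := fun x _ y _ => (hH.fib x y).trans mem_lat_iff
  fibG := fun x hx y hy => (fG x hx y hy).trans mem_lat_iff
  openH := openH_of_isOpenMap hKJ hH.opn fun x y h => (hH.fib x y).1 h
  img := img
  vert := fun x hx y hy h i hi => by
    rcases hKJ2 i hi with hK | rfl
    · have h1 := hx i hK
      have h2 := hy i hK
      exact le_max_of_le_right ((abs_sub _ _).trans (by linarith))
    · exact le_max_of_le_left (vert x hx y hy h)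
  bdry := bd

/-- **Ladder lemma, `k ≥ 1`, global form.** `G` is given on all of `V`, equal to `H` on `out K`;
then `H ∘ ψ = G` on the whole ball. -/
theorem lad_per {K J : Finset (Fin 3)} {G H : V → V} {C : ℝ} (hKJ : Disjoint K J)
    (hK : K.Nonempty) (hH : Per J H) (cG : ContinuousOn G (Prd34.slab K))
    (fG : ∀ x ∈ Prd34.slab K, ∀ y ∈ Prd34.slab K, G x = G y ↔ x - y ∈ Prd34.lat J)
    (img : G '' Prd34.slab K = H '' Prd34.slab K)
    (vert : ∀ x ∈ Prd34.slab K, ∀ y ∈ Prd34.slab K, G x = H y → |x 2 - y 2| ≤ C)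
    (hKJ2 : ∀ i, i ∉ J → i ∈ K ∨ i = 2) (bd : ∀ x ∈ out K, G x = H x)
    (hcore : ∀ x ∈ Prd34.core K, ∃ y ∈ Prd34.slab K, (∀ j ∈ J, |y j| < 1 / 2) ∧ G x = H y)
    (R : ℝ) :
    ∃ ψ : V ≃ₜ V, (∀ x, ‖x‖ ≤ R → H (ψ x) = G x) ∧ (∃ R', ∀ x, R' ≤ ‖x‖ → ψ x = x) ∧
      (∀ x ∈ out K, ψ x = x) ∧
      ∀ x ∈ Prd34.core K, ∀ y ∈ Prd34.slab K, (∀ j ∈ J, |y j| < 1 / 2) → G x = H y → ψ x = y := by
  obtain ⟨ψ, h1, h2, h3, h4⟩ := lad one_pos hKJ hK le_rfl
    (ladder_of_per hKJ hH cG fG img vert hKJ2 fun x _ hx => bd x hx) hcore R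
  refine ⟨ψ, fun x hx => ?_, h2, h3, h4⟩
  by_cases h : x ∈ Lad50.slab K
  · exact (h1 x h hx).2
  · have h5 : x ∈ out K := by
      simp only [Lad50.slab, mem_ofPred_eq, not_forall, not_le] at h
      obtain ⟨i, hi, h⟩ := h
      exact ⟨i, hi, h.le⟩
    rw [h3 x h5, bd x h5]

/-- the last step of handle straightening: if `h = H` near `ψ x` and `H ∘ ψ = G` on a ball with
`G` locally PL, then `h ∘ ψ` is locally PL at `x` -/
lemma locPL_finish {G H h ψ : V → V} {A : Set V} {R : ℝ} (hψ : Continuous ψ)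
    (hG : LocPL G A) (hA : ∀ x ∈ A, ‖x‖ < R) (e : ∀ x, ‖x‖ ≤ R → H (ψ x) = G x)
    (hh : ∀ x ∈ A, h =ᶠ[𝓝 (ψ x)] H) : LocPL (fun x => h (ψ x)) A := by
  refine locPL_congr hG fun x hx => ?_
  filter_upwards [hψ.continuousAt (hh x hx),
    continuous_norm.continuousAt (Iio_mem_nhds (hA x hx))] with z h1 h2
  exact (show h (ψ z) = H (ψ z) from h1).trans (e z (le_of_lt h2))

end Crest.Agent.X212.Lad50
end

-- ▼ part X212/Lad50/Fin

/-!
# Row 212, layer T: from ladders to PL handle straightening (`k = 0, 1, 2`), permutations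
-/

open Set Filter Topology Metric

namespace Crest.Agent.X212.Lad50

open Crest.Agent.R096.Ce_537 Prd34

lemma isClosed_out (K : Finset (Fin 3)) : IsClosed (out K) := by
  have : out K = ⋃ i ∈ K, {x : V | 1 ≤ |x i|} := by ext; simp [out]
  rw [this]
  exact isClosed_biUnion_finset fun i _ => isClosed_le continuous_const (by fun_prop)

lemma mem_out_of_not_mem {K : Finset (Fin 3)} {x : V} (h : x ∉ Prd34.slab K) : x ∈ out K := by
  simp only [Prd34.slab, mem_ofPred_eq, not_forall, not_le] at h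
  obtain ⟨i, hi, h⟩ := h
  exact ⟨i, hi, h.le⟩

lemma mem_slab_of_not_mem {K : Finset (Fin 3)} {x : V} (h : x ∉ out K) : x ∈ Prd34.slab K :=
  fun i hi => by
    by_contra hc
    exact h ⟨i, hi, (not_le.1 hc).le⟩

lemma out_subset_rim (K : Finset (Fin 3)) : out K ⊆ rim K :=
  fun _ ⟨i, hi, h⟩ => ⟨i, hi, by linarith⟩

/-- two locally PL maps on two closed sets -/
lemma locPL_of_closed {E F : Type*} [NormedAddCommGroup E] [NormedSpace ℝ E]
    [NormedAddCommGroup F] [NormedSpace ℝ F] {f : E → F} {A B : Set E} (hA : IsClosed A)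
    (hB : IsClosed B) (hAB : ∀ x, x ∉ A → x ∈ B) (h1 : LPL f A) (h2 : LPL f B) : LocPL f univ := by
  have key : ∀ {C : Set E}, IsClosed C → LPL f C → ∀ x, ∃ r > 0, PLOn f (closedBall x r ∩ C) := by
    intro C hC h x
    by_cases hx : x ∈ C
    · obtain ⟨r, hr, h⟩ := h x hx
      exact ⟨r / 2, half_pos hr,
        h.mono (inter_subset_inter_left _ (closedBall_subset_ball (half_lt_self hr)))⟩
    · obtain ⟨r, hr, h⟩ := Metric.isOpen_iff.1 hC.isOpen_compl x hx
      refine ⟨r / 2, half_pos hr, (plOn_empty f).mono fun y hy => ?_⟩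
      exact h (closedBall_subset_ball (half_lt_self hr) hy.1) hy.2
  intro x _
  obtain ⟨r, hr, p1⟩ := key hA h1 x
  obtain ⟨s, hs, p2⟩ := key hB h2 x
  refine ⟨min r s, lt_min hr hs, (p1.union p2 (isClosed_closedBall.inter hA)
    (isClosed_closedBall.inter hB)).mono fun y hy => ?_⟩
  by_cases h : y ∈ A
  · exact Or.inl ⟨ball_subset_closedBall (ball_subset_ball (min_le_left _ _) hy), h⟩
  · exact Or.inr ⟨ball_subset_closedBall (ball_subset_ball (min_le_right _ _) hy), hAB y h⟩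

lemma lpl_of_locPL {E F : Type*} [NormedAddCommGroup E] [NormedSpace ℝ E]
    [NormedAddCommGroup F] [NormedSpace ℝ F] {f g : E → F} {A B : Set E} (h : LocPL f B)
    (hs : A ⊆ B) (e : EqOn g f A) : LPL g A := fun x hx => by
  obtain ⟨r, hr, h⟩ := h x (hs hx)
  exact ⟨r, hr, (h.mono inter_subset_left).congr fun y hy => e hy.2⟩

lemma lpl_congr {E F : Type*} [NormedAddCommGroup E] [NormedSpace ℝ E]
    [NormedAddCommGroup F] [NormedSpace ℝ F] {f g : E → F} {A : Set E} (h : LPL f A)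
    (e : EqOn g f A) : LPL g A := fun x hx => by
  obtain ⟨r, hr, h⟩ := h x hx
  exact ⟨r, hr, h.congr fun y hy => e hy.2⟩

lemma lpl_of_plOn {E F : Type*} [NormedAddCommGroup E] [NormedSpace ℝ E]
    [NormedAddCommGroup F] [NormedSpace ℝ F] {f : E → F} {A : Set E} (h : PLOn f A) : LPL f A :=
  fun _ _ => ⟨1, one_pos, h.mono inter_subset_right⟩

lemma lpl_continuousOn {E F : Type*} [NormedAddCommGroup E] [NormedSpace ℝ E]
    [NormedAddCommGroup F] [NormedSpace ℝ F] {f : E → F} {A : Set E} (h : LPL f A) :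
    ContinuousOn f A := fun x hx => by
  obtain ⟨r, hr, h⟩ := h x hx
  exact (h.1 x ⟨mem_ball_self hr, hx⟩).mono_of_mem_nhdsWithin
    (inter_mem (mem_nhdsWithin_of_mem_nhds (ball_mem_nhds x hr)) self_mem_nhdsWithin)

lemma per_of_emb {h : V → V} (hh : IsOpenEmbedding h) : Per ∅ h where
  cont := hh.continuous
  opn := hh.isOpenMap
  fib := fun x y => by
    rw [hh.injective.eq_iff, ← sub_eq_zero]
    exact ⟨fun e i => ⟨fun hi => absurd hi (Finset.notMem_empty i), fun _ => by rw [e]; rfl⟩,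
      fun e => funext fun i => (e i).2 (Finset.notMem_empty i)⟩

lemma emb_of_per {h : V → V} (hh : Per ∅ h) : IsOpenEmbedding h :=
  .of_continuous_injective_isOpenMap hh.cont (fun x y e => sub_eq_zero.1
    (funext fun i => ((hh.fib x y).1 e i).2 (Finset.notMem_empty i))) hh.opn

lemma ladder_of_lad {K J : Finset (Fin 3)} {G H : V → V} (hKJ : Disjoint K J) (hH : Per J H)
    (L : Lad K J H G) : Ladder K J 1 2 1 G H where
  contH := hH.cont.continuousOn
  contG := lpl_continuousOn L.pl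
  fibH := fun x _ y _ => (hH.fib x y).trans mem_lat_iff
  fibG := fun x hx y hy => (L.fib x hx y hy).trans mem_lat_iff
  openH := openH_of_isOpenMap hKJ hH.opn fun x y h => (hH.fib x y).1 h
  img := L.img
  vert := L.vert
  bdry := L.sid

/-- handles of index `k ≥ 1`: a ladder whose core lies where `H = h` straightens `h` -/
theorem final_pos {K J : Finset (Fin 3)} {G H h : V → V} (hKJ : Disjoint K J) (hK : K.Nonempty)
    (hH : Per J H) (hp : LocPL H (rim K)) (L : Lad K J H G)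
    (hcore : ∀ x ∈ Prd34.core K, ∃ y ∈ Prd34.slab K, (∀ j ∈ J, |y j| < 1 / 2) ∧ G x = H y ∧
      h =ᶠ[𝓝 y] H) :
    ∃ ψ : V ≃ₜ V, (∃ R, ∀ x, R ≤ ‖x‖ → ψ x = x) ∧ (∀ x ∈ out K, ψ x = x) ∧
      LocPL (fun x => h (ψ x)) (Prd34.core K) := by
  classical
  obtain ⟨ψ, h1, h2, h3, h4⟩ := lad one_pos hKJ hK le_rfl (ladder_of_lad hKJ hH L)
    (fun x hx => by obtain ⟨y, a, b, c, -⟩ := hcore x hx; exact ⟨y, a, b, c⟩) 2
  have hG : LocPL ((Prd34.slab K).piecewise G H) univ :=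
    locPL_of_closed (isClosed_slab K) (isClosed_out K) (fun x hx => mem_out_of_not_mem hx)
      (lpl_congr L.pl fun x hx => piecewise_eq_of_mem _ _ _ hx)
      (lpl_of_locPL hp (out_subset_rim K) fun x hx => by
        by_cases h : x ∈ Prd34.slab K
        · rw [piecewise_eq_of_mem _ _ _ h, L.sid x h hx]
        · rw [piecewise_eq_of_notMem _ _ _ h])
  refine ⟨ψ, h2, h3, locPL_finish (R := 2) (H := H) ψ.continuous (locPL_mono hG (subset_univ _))
    (fun x hx => ?_) (fun x hx => ?_) fun x hx => ?_⟩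
  · refine lt_of_le_of_lt ((pi_norm_le_iff_of_nonneg zero_le_one).2 fun i => ?_) one_lt_two
    by_cases hi : i ∈ K
    · exact hx.1 i hi
    · simp [hx.2 i hi]
  · by_cases h : x ∈ Prd34.slab K
    · rw [piecewise_eq_of_mem _ _ _ h]; exact (h1 x h hx).2
    · rw [piecewise_eq_of_notMem _ _ _ h, h3 x (mem_out_of_not_mem h)]
  · obtain ⟨y, a, b, c, d⟩ := hcore x hx
    rw [h4 x hx y a b c]; exact d

/-- handles of index `0` -/
theorem final_zero {J : Finset (Fin 3)} {G H h : V → V} (hH : Per J H) (L : Lad ∅ J H G)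
    (hh : h =ᶠ[𝓝 0] H) :
    ∃ ψ : V ≃ₜ V, (∃ R, ∀ x, R ≤ ‖x‖ → ψ x = x) ∧ (∀ x ∈ out ∅, ψ x = x) ∧
      LocPL (fun x => h (ψ x)) (Prd34.core ∅) := by
  obtain ⟨A, x₀, ψ, h1, h2, h3⟩ :=
    lad_zero one_pos (ladder_of_lad (Finset.disjoint_empty_left J) hH L) 1
  have hs : Prd34.slab ∅ = univ := eq_univ_of_forall fun x i hi => absurd hi (Finset.notMem_empty i)
  have hG : LocPL G univ := fun x _ => by
    obtain ⟨r, hr, h⟩ := L.pl x (by rw [hs]; trivial)
    exact ⟨r, hr, by rwa [hs, inter_univ] at h⟩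
  have h0 : ∀ x ∈ Prd34.core ∅, x = 0 := fun x hx =>
    funext fun i => hx.2 i (Finset.notMem_empty i)
  refine ⟨ψ, h3, fun x ⟨i, hi, _⟩ => absurd hi (Finset.notMem_empty i),
    locPL_finish (R := 1) (H := H) (G := fun x => G (A x + x₀)) ψ.continuous
      (locPL_comp hG (locPL_of_plOn (pl_add (pl_clm (A : V →L[ℝ] V) _) (plOn_const _ _)) _)
        (mapsTo_univ _ _)) (fun x hx => by simp [h0 x hx]) h2 fun x hx => ?_⟩
  rw [h0 x hx, h1]; exact hh

/-! ### polar coordinates in two of the three variables -/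

variable {pl : P → P} {ρ : ℝ → ℝ}

/-- splitting off the first coordinate -/
def spl : V ≃ₜ ℝ × P where
  toFun x := (x 0, ![x 1, x 2])
  invFun p := ![p.1, p.2 0, p.2 1]
  left_inv x := by funext i; fin_cases i <;> rfl
  right_inv p := by
    ext i
    · rfl
    · fin_cases i <;> rfl
  continuous_toFun := by fun_prop
  continuous_invFun := by fun_prop

lemma locPL_qq (hp : Pol pl ρ) : LocPL (qq pl) univ := by
  have h1 : LocPL (fun x : V => pl ![x 1, x 2]) univ :=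
    locPL_comp hp.pl (locPL_of_plOn (pl_vec2 (pl_coord 1 _) (pl_coord 2 _)) _) (mapsTo_univ _ _)
  have h2 : PLOn (fun p : ℝ × P => (![p.1, p.2 0, p.2 1] : V)) univ :=
    pl_vec3 (pl_fst (plOn_id _)) (pl_apply (pl_snd (plOn_id _)) 0) (pl_apply (pl_snd (plOn_id _)) 1)
  exact locPL_comp (f := fun x : V => (x 0, pl ![x 1, x 2])) (locPL_of_plOn h2 univ)
    (locPL_prod (locPL_of_plOn (pl_coord 0 _) _) h1) (mapsTo_univ _ _)

lemma per_qq (hp : Pol pl ρ) : Per {1} (qq pl) where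
  cont := continuous_iff_continuousAt.2 fun x => locPL_continuousAt (locPL_qq hp) (mem_univ x)
  opn := (spl.symm.isOpenMap.comp (IsOpenMap.id.prodMap hp.opn)).comp spl.isOpenMap
  fib := fun x y => by
    have h := hp.fib ![x 1, x 2] ![y 1, y 2]
    simp only [Matrix.cons_val_zero, Matrix.cons_val_one] at h
    constructor
    · intro e
      have e0 : x 0 = y 0 := congrFun e 0
      obtain ⟨e1, e2⟩ := h.1 (by
        funext i; fin_cases i
        · exact congrFun e 1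
        · exact congrFun e 2)
      intro i
      fin_cases i
      · exact ⟨fun h => absurd h (by decide), fun _ => sub_eq_zero.2 e0⟩
      · exact ⟨fun _ => e1, fun h => absurd (Finset.mem_singleton_self _) h⟩
      · exact ⟨fun h => absurd h (by decide), fun _ => sub_eq_zero.2 e2⟩
    · intro e
      have e0 : x 0 = y 0 := sub_eq_zero.1 ((e 0).2 (by decide))
      have e2 : x 2 = y 2 := sub_eq_zero.1 ((e 2).2 (by decide))
      rw [qq, qq, e0, h.2 ⟨(e 1).1 (by decide), e2⟩]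

lemma qq_of_le (hp : Pol pl ρ) {x : V} (h1 : |x 1| ≤ 1 / 4) (h2 : |x 2| ≤ 1 / 4) :
    qq pl x = x + ![0, 0, 1] := by
  rw [qq, hp.aff _ (by rw [norm_vec2]; exact max_le h1 h2)]
  funext i; fin_cases i <;> simp [add_comm]

lemma per_comp_qq (hp : Pol pl ρ) {h : V → V} (hh : Per ∅ h) : Per {1} fun x => h (qq pl x) where
  cont := hh.cont.comp (per_qq hp).cont
  opn := hh.opn.comp (per_qq hp).opn
  fib := fun x y => by rw [(emb_of_per hh).injective.eq_iff, (per_qq hp).fib]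

lemma per_comp_qq' (hp : Pol pl ρ) {h : V → V} (hh : Per {0} h) :
    Per {0, 1} fun x => h (qq pl x) where
  cont := hh.cont.comp (per_qq hp).cont
  opn := hh.opn.comp (per_qq hp).opn
  fib := fun x y => by
    have h := hp.fib ![x 1, x 2] ![y 1, y 2]
    simp only [Matrix.cons_val_zero, Matrix.cons_val_one] at h
    rw [hh.fib]
    constructor
    · intro e
      obtain ⟨e1, e2⟩ := h.1 (by
        funext i; fin_cases i
        · exact sub_eq_zero.1 ((e 1).2 (by decide))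
        · exact sub_eq_zero.1 ((e 2).2 (by decide)))
      intro i
      fin_cases i
      · exact ⟨fun _ => (e 0).1 (by decide), fun h => absurd (by decide) h⟩
      · exact ⟨fun _ => e1, fun h => absurd (by decide) h⟩
      · exact ⟨fun h => absurd h (by decide), fun _ => sub_eq_zero.2 e2⟩
    · intro e
      have e2 : x 2 = y 2 := sub_eq_zero.1 ((e 2).2 (by decide))
      have e1 := h.2 ⟨(e 1).1 (by decide), e2⟩
      intro i
      fin_cases i
      · exact ⟨fun _ => (e 0).1 (by decide), fun h => absurd (by decide) h⟩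
      · exact ⟨fun h => absurd h (by decide), fun _ => by simp [qq, e1]⟩
      · exact ⟨fun h => absurd h (by decide), fun _ => by simp [qq, e1]⟩

lemma box_mem_nhds {y : V} (h1 : |y 1| < 1 / 4) (h2 : |y 2| < 1 / 4) :
    ∀ᶠ z : V in 𝓝 y, |z 1| ≤ 1 / 4 ∧ |z 2| ≤ 1 / 4 := by
  have c1 : Continuous fun z : V => |z 1| := by fun_prop
  have c2 : Continuous fun z : V => |z 2| := by fun_prop
  filter_upwards [c1.continuousAt (Iio_mem_nhds h1), c2.continuousAt (Iio_mem_nhds h2)]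
    with z a b using ⟨le_of_lt a, le_of_lt b⟩

lemma rung_mem_slab {K J : Finset (Fin 3)} {H : V → V} {c δ : ℝ} {u : P → V}
    (hu : Rung K J H c δ u) {y : P} (hy : lv c y ∈ Prd34.slab K) : u y ∈ Prd34.slab K := by
  by_cases h : lv c y ∈ out K
  · rwa [hu.bd y h]
  · exact mem_slab_of_not_mem (hu.ins y h)

/-- `k = 2` -/
theorem plhs_two (hR : Rung2Stmt) (hB : BlkStmt {0, 1} ∅) (hG : GlueStmt) : PLHS {0, 1} := by
  intro h hh hp
  have hH := per_of_emb hh
  choose u hu using fun n : ℤ => hR h hH hp n (1 / 3) (by norm_num)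
  choose G hGn using fun n : ℤ => hB h hH hp n (u n) (u (n + 1)) (hu n)
    (by have := hu (n + 1); rwa [Int.cast_add, Int.cast_one] at this)
  obtain ⟨G', L, -⟩ := hG {0, 1} ∅ (by simp) (by simp) h hH u G hu hGn
  refine final_pos (by simp) (by simp) hH hp L fun x hx => ?_
  obtain ⟨y, hy, e⟩ := L.img.subset ⟨x, hx.1, rfl⟩
  exact ⟨y, hy, fun j hj => absurd hj (Finset.notMem_empty j), e.symm, EventuallyEq.rfl⟩

/-- `k = 1` -/
theorem plhs_one (hR : Rung1Stmt) (hC : Core1Stmt) (hB : BlkStmt {0} {1}) (hG : GlueStmt) :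
    PLHS {0} := by
  intro h hh hp
  obtain ⟨pl, ρ, hP⟩ := polStmt
  set h₁ : V → V := fun x => h (x - ![0, 0, 1]) with hh₁
  have hH₁ : Per ∅ h₁ := per_of_emb (hh.comp (Homeomorph.subRight _).isOpenEmbedding)
  have hp₁ : LocPL h₁ (rim {0}) := locPL_comp hp
    (locPL_of_plOn (pl_sub (plOn_id _) (plOn_const _ _)) _) fun x ⟨i, hi, hx⟩ => ⟨i, hi, by
      rw [Finset.mem_singleton.1 hi] at hx ⊢; simpa using hx⟩
  have hH := per_comp_qq hP hH₁
  have hpH : LocPL (fun x => h₁ (qq pl x)) (rim {0}) := locPL_comp hp₁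
    (locPL_mono (locPL_qq hP) (subset_univ _)) fun x ⟨i, hi, hx⟩ => ⟨i, hi, by
      rw [Finset.mem_singleton.1 hi] at hx ⊢; exact hx⟩
  obtain ⟨u₀, hu₀, hc⟩ := hC pl ρ hP h₁ hH₁ hp₁
  have hex : ∀ n : ℤ, ∃ u, Rung {0} {1} (fun x => h₁ (qq pl x)) n (1 / 3) u ∧ (n = 0 → u = u₀) := by
    intro n
    by_cases hn : n = 0
    · exact ⟨u₀, by rw [hn, Int.cast_zero]; exact hu₀, fun _ => rfl⟩
    · obtain ⟨u, hu⟩ := hR pl ρ hP h₁ hH₁ hp₁ n (1 / 3) (by norm_num)
      exact ⟨u, hu, fun h => absurd h hn⟩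
  choose u hu hu0 using hex
  choose G hGn using fun n : ℤ => hB _ hH hpH n (u n) (u (n + 1)) (hu n)
    (by have := hu (n + 1); rwa [Int.cast_add, Int.cast_one] at this)
  obtain ⟨G', L, hL⟩ := hG {0} {1} (by decide) (by decide) _ hH u G hu hGn
  refine final_pos (by decide) (by simp) hH hpH L fun x hx => ?_
  have e1 : x 1 = 0 := hx.2 1 (by decide)
  have e2 : x 2 = 0 := hx.2 2 (by decide)
  have e3 : pr x = ![x 0, 0] := by rw [pr, e1]
  obtain ⟨c1, c2⟩ := hc (x 0) (hx.1 0 (by decide))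
  refine ⟨u₀ ![x 0, 0], rung_mem_slab hu₀ fun i hi => ?_, fun j hj => ?_, ?_, ?_⟩
  · rw [Finset.mem_singleton.1 hi]; exact hx.1 0 (by decide)
  · rw [Finset.mem_singleton.1 hj]; linarith
  · rw [hL x hx.1 e2, hu0 0 rfl, e3]
  · filter_upwards [box_mem_nhds c1 c2] with z hz
    rw [qq_of_le hP hz.1 hz.2, hh₁]; simp only [add_sub_cancel_right]

/-- a permutation of the coordinates -/
noncomputable def prm (σ : Equiv.Perm (Fin 3)) : V ≃L[ℝ] V :=
  (LinearEquiv.funCongrLeft ℝ ℝ σ).toContinuousLinearEquiv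

lemma prm_apply (σ : Equiv.Perm (Fin 3)) (x : V) (i : Fin 3) : prm σ x i = x (σ i) := rfl

lemma prm_symm_apply (σ : Equiv.Perm (Fin 3)) (x : V) (i : Fin 3) :
    (prm σ).symm x i = x (σ.symm i) := rfl

/-- `k = 0` -/
theorem plhs_zero (hR : Rung0Stmt) (hB : BlkStmt ∅ {0, 1}) (hG : GlueStmt) : PLHS ∅ := by
  intro h hh _
  obtain ⟨pl, ρ, hP⟩ := polStmt
  set s := prm (Equiv.swap 0 1) with hs
  set h₁ : V → V := fun x => h (s (qq pl (s (x - ![0, 0, 1]))) - ![0, 0, 1]) with hh₁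
  have hq := per_qq hP
  have hH₁ : Per {0} h₁ := by
    refine ⟨hh.continuous.comp ((s.continuous.comp (hq.cont.comp (by fun_prop))).sub
      continuous_const), ?_, fun x y => ?_⟩
    · exact hh.isOpenMap.comp ((Homeomorph.subRight _).isOpenMap.comp (s.isOpenMap.comp
        (hq.opn.comp (s.isOpenMap.comp (Homeomorph.subRight _).isOpenMap))))
    · rw [hh₁]
      simp only
      rw [hh.injective.eq_iff, sub_left_inj, s.injective.eq_iff, hq.fib, ← map_sub,
        sub_sub_sub_cancel_right]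
      constructor
      · intro e i
        fin_cases i
        · exact ⟨fun _ => (e 1).1 (by decide), fun h => absurd (by decide) h⟩
        · exact ⟨fun h => absurd h (by decide), fun _ => (e 0).2 (by decide)⟩
        · exact ⟨fun h => absurd h (by decide), fun _ => (e 2).2 (by decide)⟩
      · intro e i
        fin_cases i
        · exact ⟨fun h => absurd h (by decide), fun _ => (e 1).2 (by decide)⟩
        · exact ⟨fun _ => (e 0).1 (by decide), fun h => absurd (by decide) h⟩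
        · exact ⟨fun h => absurd h (by decide), fun _ => (e 2).2 (by decide)⟩
  have hH := per_comp_qq' hP hH₁
  choose u hu using fun n : ℤ => hR pl ρ hP h₁ hH₁ n (1 / 3) (by norm_num)
  choose G hGn using fun n : ℤ => hB _ hH (fun x ⟨i, hi, _⟩ => absurd hi (Finset.notMem_empty i))
    n (u n) (u (n + 1)) (hu n) (by have := hu (n + 1); rwa [Int.cast_add, Int.cast_one] at this)
  obtain ⟨G', L, -⟩ := hG ∅ {0, 1} (by simp) (by simp) _ hH u G hu hGn
  refine final_zero hH L ?_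
  filter_upwards [closedBall_mem_nhds (0 : V) (show (0 : ℝ) < 1 / 4 by norm_num)] with z hz
  have hz' : ∀ i, |z i| ≤ 1 / 4 := fun i =>
    (norm_le_pi_norm z i).trans (mem_closedBall_zero_iff.1 hz)
  rw [qq_of_le hP (hz' 1) (hz' 2), hh₁]
  simp only [add_sub_cancel_right]
  rw [qq_of_le hP (x := s z) (hz' _) (hz' _)]
  congr 1
  have e1 : s ![0, 0, 1] = ![0, 0, 1] := by funext i; fin_cases i <;> rfl
  have e2 : s (s z) = z := by funext i; fin_cases i <;> rfl
  rw [map_add, e1, e2, add_sub_cancel_right]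

/-- permuting the coordinates -/
theorem plhs_perm (σ : Equiv.Perm (Fin 3)) {K : Finset (Fin 3)} (hK : PLHS K) :
    PLHS (K.map σ.toEmbedding) := by
  intro h hh hp
  have hn : ∀ x, ‖prm σ x‖ = ‖x‖ := fun x => le_antisymm
    ((pi_norm_le_iff_of_nonneg (norm_nonneg _)).2 fun i => norm_le_pi_norm x (σ i))
    ((pi_norm_le_iff_of_nonneg (norm_nonneg _)).2 fun i => by
      have := norm_le_pi_norm (prm σ x) (σ.symm i)
      rwa [prm_apply, Equiv.apply_symm_apply] at this)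
  obtain ⟨ψ, ⟨R, h1⟩, h2, h3⟩ := hK (fun x => h ((prm σ).symm x))
    (hh.comp (prm σ).symm.toHomeomorph.isOpenEmbedding)
    (locPL_comp hp (locPL_of_plOn (pl_clm ((prm σ).symm : V →L[ℝ] V) _) _) fun x ⟨i, hi, hx⟩ =>
      ⟨σ i, Finset.mem_map_of_mem _ hi, by
        change 1 / 2 < |(prm σ).symm x (σ i)|
        rwa [prm_symm_apply, Equiv.symm_apply_apply]⟩)
  refine ⟨((prm σ).toHomeomorph.trans ψ).trans (prm σ).symm.toHomeomorph, ⟨R, fun x hx => ?_⟩,
    fun x ⟨i, hi, hx⟩ => ?_, ?_⟩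
  · change (prm σ).symm (ψ (prm σ x)) = x
    rw [h1 _ (by rwa [hn]), ContinuousLinearEquiv.symm_apply_apply]
  · change (prm σ).symm (ψ (prm σ x)) = x
    obtain ⟨j, hj, rfl⟩ := Finset.mem_map.1 hi
    rw [h2 _ ⟨j, hj, hx⟩, ContinuousLinearEquiv.symm_apply_apply]
  · refine locPL_comp (g := fun x => h ((prm σ).symm (ψ x))) h3
      (locPL_of_plOn (pl_clm (prm σ : V →L[ℝ] V) _) _) fun x hx => ⟨fun i hi => ?_, fun i hi => ?_⟩
    · exact hx.1 (σ i) (Finset.mem_map_of_mem _ hi)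
    · exact hx.2 (σ i) fun h => hi (by simpa using h)

/-- all handles from the four standard ones -/
theorem plhs_all (h0 : PLHS ∅) (h1 : PLHS {0}) (h2 : PLHS {0, 1}) (h3 : PLHS Finset.univ)
    (K : Finset (Fin 3)) : PLHS K := by
  have : ∀ K : Finset (Fin 3), ∃ σ : Equiv.Perm (Fin 3), K = (∅ : Finset (Fin 3)).map σ.toEmbedding ∨
      K = ({0} : Finset (Fin 3)).map σ.toEmbedding ∨ K = ({0, 1} : Finset (Fin 3)).map σ.toEmbedding ∨
      K = Finset.univ.map σ.toEmbedding := by decide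
  obtain ⟨σ, rfl | rfl | rfl | rfl⟩ := this K
  exacts [plhs_perm σ h0, plhs_perm σ h1, plhs_perm σ h2, plhs_perm σ h3]

end Crest.Agent.X212.Lad50
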