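import Crest.Agent.X212.Flo2.Alg
import Crest.Agent.X212.Flo2.Real
import Crest.Agent.X212.Lad50.Bas
import Crest.Agent.X212.Mcg32.Good
import Crest.Agent.X212.Win22.Ob
import Crest.Agent.X212.Geo28.Re
import Crest.Agent.X212.Flo2.Cut

-- ▼ part X212/Alg43/Tot
section

/-!
# Row 212, layer AN-S (helper43): totals of families of counts, the local matrix calculus
-/

set_option autoImplicit false
set_option linter.unusedSectionVars false

open Module Function Filter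

noncomputable section

namespace Crest.Agent.X212.Alg43

open Win22 Flo2
open Bor5 (K)

section scal

variable {I J : Type}

theorem fs_inj {φ : I → K} {ψ : J → K} (e : I → J) (he : Injective e) (h : ∀ i, ψ (e i) = φ i)
    (h0 : ∀ j, j ∉ Set.range e → ψ j = 0) : ∑ᶠ i, φ i = ∑ᶠ j, ψ j := by
  rw [← funext h, ← finsum_mem_range he, ← finsum_mem_inter_support,
    Set.inter_eq_right.2 (show support ψ ⊆ Set.range e from fun j hj =>
      by_contra fun k => hj (h0 j k)), finsum_mem_support]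

theorem fin_of {φ : I → K} (T : Finset I) (h : ∀ i ∉ T, φ i = 0) : HasFiniteSupport φ :=
  T.finite_toSet.subset fun i hi => by_contra fun k => hi (h i k)

theorem fs_prod {ι : Type} [Fintype ι] {x : I → ι → K} {y : J → ι → K}
    (h : ∀ j, HasFiniteSupport fun p : I × J => x p.1 j * y p.2 j) :
    ∑ᶠ p : I × J, ∑ j, x p.1 j * y p.2 j = ∑ j, (∑ᶠ a, x a j) * ∑ᶠ b, y b j := by
  rw [finsum_sum_comm _ _ fun j _ => h j]
  refine Finset.sum_congr rfl fun j _ => ?_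
  rw [finsum_curry _ (h j), finsum_mul]
  exact finsum_congr fun a => (mul_finsum (fun b => y b j) (x a j)).symm

theorem fs_half {φ : I → K} (h : HasFiniteSupport φ) {r : I → I} (rr : ∀ j, r (r j) = j)
    {p : I → Prop} (hr : ∀ j, p (r j) ↔ ¬p j) :
    ∑ᶠ j : {j // p j}, (φ j + φ (r j)) = ∑ᶠ j, φ j := by
  classical
  have i : Injective fun j : {j // p j} => r j :=
    (LeftInverse.injective rr).comp Subtype.val_injective
  rw [finsum_add_distrib (h.preimage Subtype.val_injective.injOn) (h.preimage i.injOn),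
    fs_inj (ψ := fun j => if p j then φ j else 0) Subtype.val Subtype.val_injective
      (fun j => if_pos j.2) fun j hj => if_neg fun k => hj ⟨⟨j, k⟩, rfl⟩,
    fs_inj (ψ := fun j => if p j then 0 else φ j) _ i (fun j => if_neg fun k => (hr _).1 k j.2)
      fun j hj => if_pos (by_contra fun k => hj ⟨⟨r j, (hr j).2 k⟩, rr j⟩),
    ← finsum_add_distrib (h.subset fun j hj k => hj (by simp [k]))
      (h.subset fun j hj k => hj (by simp [k]))]
  exact finsum_congr fun j => by split_ifs <;> simp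

theorem fs_sigma {C : I → Type} {φ : (Σ i, C i) → K} (h : HasFiniteSupport φ) :
    ∑ᶠ i, ∑ᶠ c, φ ⟨i, c⟩ = ∑ᶠ θ, φ θ := by
  classical
  have e : ∀ i, ∑ᶠ c, φ ⟨i, c⟩ = ∑ θ ∈ h.toFinset, if θ.1 = i then φ θ else 0 := fun i => by
    rw [fs_inj (ψ := fun θ => if θ.1 = i then φ θ else 0) (Sigma.mk i) sigma_mk_injective
      (fun _ => if_pos rfl) fun θ hθ => if_neg (by rintro rfl; exact hθ ⟨θ.2, rfl⟩)]
    exact finsum_eq_sum_of_support_subset _ fun θ hθ => by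
      simpa using fun k => hθ (by simp [k])
  simp only [e]
  rw [finsum_sum_comm _ _ fun θ _ => fin_of {θ.1} fun i hi => if_neg fun k => hi (by simp [k]),
    finsum_eq_sum _ h]
  exact Finset.sum_congr rfl fun θ _ =>
    (finsum_eq_single _ θ.1 fun i hi => if_neg (Ne.symm hi)).trans (if_pos rfl)

end scal

variable {S : Sk} {Z : Cs S} {a b c : S.E} {I J : Type}

/-- matrices at all levels -/
abbrev Mx (Z : Cs S) (a b : S.E) : Type := ∀ m, (Z.A a).ι m → (Z.A b).ι m → K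

/-- true in every bounded range of degrees, eventually -/
def Ev (Z : Cs S) (a : S.E) (p : ∀ m, (Z.A a).ι m → Prop) : Prop :=
  ∀ r, ∀ᶠ m in atTop, ∀ i, ((Z.A a).lab m i).2 ≤ r → p m i

/-- true off a finite set of indices -/
def Cof (Z : Cs S) (a : S.E) (q : I → ∀ m, (Z.A a).ι m → Prop) : Prop :=
  ∀ r, ∃ T : Finset I, ∀ᶠ m in atTop, ∀ i, ((Z.A a).lab m i).2 ≤ r → ∀ κ ∉ T, q κ m i

/-- locally equal -/
def Leq (φ ψ : Mx Z a b) : Prop := Ev Z a fun m i => ∀ k, φ m i k = ψ m i k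

/-- finitely many are alive -/
def Al (φ : I → Mx Z a b) : Prop := Cof Z a fun κ m i => ∀ k, φ κ m i k = 0

/-- bounded -/
def Bd (φ : Mx Z a b) : Prop := ∀ r, ∃ r', ∀ᶠ m in atTop, ∀ i k, ((Z.A a).lab m i).2 ≤ r →
  φ m i k ≠ 0 → ((Z.A b).lab m k).2 ≤ r'

/-- first `φ`, then `ψ` -/
def mul (φ : Mx Z a b) (ψ : Mx Z b c) : Mx Z a c := fun m i k => ∑ j, φ m i j * ψ m j k

/-- the total -/
def tot (φ : I → Mx Z a b) : Mx Z a b := fun m i k => ∑ᶠ κ, φ κ m i k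

/-- `d φ + φ d` -/
def del (φ : Mx Z a b) : Mx Z a b := mul (Z.d a) φ + mul φ (Z.d b)

variable {p p' : ∀ m, (Z.A a).ι m → Prop} {φ φ' φ'' : Mx Z a b} {ψ ψ' : Mx Z b c}
  {F F' : I → Mx Z a b} {G : J → Mx Z b c}

theorem Ev.mono (h : Ev Z a p) (k : ∀ m i, p m i → p' m i) : Ev Z a p' :=
  fun r => (h r).mono fun m h i hi => k m i (h i hi)

theorem Ev.and (h : Ev Z a p) (h' : Ev Z a p') : Ev Z a fun m i => p m i ∧ p' m i :=
  fun r => ((h r).and (h' r)).mono fun _ h i hi => ⟨h.1 i hi, h.2 i hi⟩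

theorem Ev.all (h : ∀ m i, p m i) : Ev Z a p := fun _ => Eventually.of_forall fun m i _ => h m i

theorem Ev.of_ev {q : ℕ → Prop} (h : ∀ᶠ m in atTop, q m) : Ev Z a fun m _ => q m :=
  fun _ => h.mono fun _ h _ _ => h

theorem Bd.ev (h : Bd φ) {q : ∀ m, (Z.A b).ι m → Prop} (hq : Ev Z b q) :
    Ev Z a fun m i => ∀ j, φ m i j ≠ 0 → q m j := fun r =>
  let ⟨r', k⟩ := h r; (k.and (hq r')).mono fun _ h i hi j hj => h.2 j (h.1 i j hi hj)

theorem Cof.ev {q : I → ∀ m, (Z.A a).ι m → Prop} {q' : I → ∀ m, (Z.A a).ι m → Prop}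
    (h : Cof Z a q) (h' : ∀ κ, Ev Z a (q' κ)) : Ev Z a fun m i => ∀ κ, q κ m i ∨ q' κ m i := fun r =>
  let ⟨T, k⟩ := h r
  (k.and ((eventually_all_finset T).2 fun κ _ => h' κ r)).mono fun _ h i hi κ =>
    (em (κ ∈ T)).elim (fun j => Or.inr (h.2 κ j i hi)) fun j => Or.inl (h.1 i hi κ j)

theorem Cof.and {q q' : I → ∀ m, (Z.A a).ι m → Prop} (h : Cof Z a q) (h' : Cof Z a q') :
    Cof Z a fun κ m i => q κ m i ∧ q' κ m i := fun r => by
  classical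
  obtain ⟨T, k⟩ := h r
  obtain ⟨T', k'⟩ := h' r
  exact ⟨T ∪ T', (k.and k').mono fun _ h i hi κ j => ⟨h.1 i hi κ fun t => j (by simp [t]),
    h.2 i hi κ fun t => j (by simp [t])⟩⟩

theorem Cof.mono {q q' : I → ∀ m, (Z.A a).ι m → Prop} (h : Cof Z a q)
    (k : ∀ κ m i, q κ m i → q' κ m i) : Cof Z a q' :=
  fun r => (h r).imp fun _ h => h.mono fun m h i hi κ j => k κ m i (h i hi κ j)

theorem Cof.comp {q : I → ∀ m, (Z.A a).ι m → Prop} (h : Cof Z a q) {e : J → I}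
    (he : Injective e) : Cof Z a fun κ => q (e κ) := fun r =>
  let ⟨T, k⟩ := h r
  ⟨T.preimage e he.injOn, k.mono fun _ h i hi _ j => h i hi _ fun t => j (Finset.mem_preimage.2 t)⟩

/-- push forward: every index of `J` is good or comes from `I` -/
theorem Cof.push {q : I → ∀ m, (Z.A a).ι m → Prop} {q' : J → ∀ m, (Z.A a).ι m → Prop}
    (h : Cof Z a q) (e : I → J) (k : ∀ κ m i, (∀ t, e t = κ → q t m i) → q' κ m i) :
    Cof Z a q' := fun r => by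
  classical
  obtain ⟨T, j⟩ := h r
  exact ⟨T.image e, j.mono fun m h i hi κ hκ => k κ m i fun t ht =>
    h i hi t fun s => hκ (ht ▸ Finset.mem_image_of_mem e s)⟩

theorem Cof.fintype [Fintype I] (q : I → ∀ m, (Z.A a).ι m → Prop) : Cof Z a q :=
  fun _ => ⟨Finset.univ, Eventually.of_forall fun _ _ _ _ h => absurd (Finset.mem_univ _) h⟩

theorem Al.fin (h : Al F) : Ev Z a fun m i => ∀ k, HasFiniteSupport fun κ => F κ m i k := fun r =>
  let ⟨T, k⟩ := h r; k.mono fun _ h i hi l => fin_of T fun κ j => h i hi κ j l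

theorem Al.add (h : Al F) (h' : Al F') : Al fun κ => F κ + F' κ :=
  (h.and h').mono fun _ _ _ k l => by simp [k.1 l, k.2 l]

theorem Al.mul_right (h : Al F) (ψ : Mx Z b c) : Al fun κ => mul (F κ) ψ :=
  h.mono fun _ _ _ k l => by simp [mul, k]

theorem Al.mul_left (h : Al G) (hφ : Bd φ) : Al fun κ => mul φ (G κ) := fun r =>
  let ⟨r', k⟩ := hφ r
  let ⟨T, j⟩ := h r'
  ⟨T, (k.and j).mono fun m h i hi κ t l => Finset.sum_eq_zero fun s _ => by
    by_cases e : φ m i s = 0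
    · rw [e, zero_mul]
    · rw [h.2 s (h.1 i s hi e) κ t, mul_zero]⟩

theorem bd_of (x : ℚ) (h : ∀ m i k, φ m i k ≠ 0 → ((Z.A b).lab m k).2 ≤ ((Z.A a).lab m i).2 + x) :
    Bd φ := fun r => ⟨r + x, Eventually.of_forall fun m i k hi e => by linarith [h m i k e]⟩

theorem bd_d (a : S.E) : Bd (Z.d a) := bd_of 0 fun m i k h => by
  rw [Z.hom a m i k h]; simp [sh]

theorem bd_z (σ : S.F a b) : Bd (Z.z σ) := bd_of (Z.dg σ) fun m i k h => by
  rw [(Z.hz σ m i k h).2]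

theorem Bd.add (h : Bd φ) (h' : Bd φ') : Bd (φ + φ') := fun r =>
  let ⟨s, k⟩ := h r
  let ⟨s', k'⟩ := h' r
  ⟨max s s', (k.and k').mono fun m h i l hi e => by
    by_cases j : φ m i l = 0
    · exact (h.2 i l hi fun t => e (by simp [j, t])).trans (le_max_right _ _)
    · exact (h.1 i l hi j).trans (le_max_left _ _)⟩

theorem Al.bd' (h : Al F) (hb : ∀ κ, Bd (F κ)) (r : ℚ) : ∃ r', ∀ᶠ m in atTop, ∀ κ i k,
    ((Z.A a).lab m i).2 ≤ r → F κ m i k ≠ 0 → ((Z.A b).lab m k).2 ≤ r' := by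
  obtain ⟨T, k⟩ := h r
  choose s hs using fun κ => hb κ r
  obtain ⟨x, hx⟩ := Finite.exists_le fun κ : T => s κ
  refine ⟨x, (k.and ((eventually_all_finset T).2 fun κ _ => hs κ)).mono fun m h κ i l hi e => ?_⟩
  have t : κ ∈ T := by_contra fun t => e (h.1 i hi κ t l)
  exact (h.2 κ t i l hi e).trans (hx ⟨κ, t⟩)

theorem Al.bd (h : Al F) (hb : ∀ κ, Bd (F κ)) : Bd (tot F) := fun r =>
  (h.bd' hb r).imp fun _ k => k.mono fun m k i l hi e => by
    by_contra j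
    exact e (finsum_eq_zero_of_forall_eq_zero fun κ => by_contra fun t => j (k κ i l hi t))

theorem Al.prod (h : Al F) (hb : ∀ κ, Bd (F κ)) (h' : Al G) :
    Cof Z a fun (p : I × J) m i => ∀ j k, F p.1 m i j * G p.2 m j k = 0 := fun r => by
  obtain ⟨T, k⟩ := h r
  obtain ⟨s, hs⟩ := h.bd' hb r
  obtain ⟨T', k'⟩ := h' s
  refine ⟨T ×ˢ T', (k.and (hs.and k')).mono fun m h i hi p t j l => ?_⟩
  by_cases e : F p.1 m i j = 0
  · rw [e, zero_mul]
  · rw [h.2.2 j (h.2.1 _ i j hi e) p.2 (fun u => t (Finset.mem_product.2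
      ⟨by_contra fun v => e (h.1 i hi _ v j), u⟩)), mul_zero]

theorem Al.prod' (h : Al F) (hb : ∀ κ, Bd (F κ)) (h' : Al G) :
    Al fun p : I × J => mul (F p.1) (G p.2) :=
  (h.prod hb h').mono fun _ _ _ k l => Finset.sum_eq_zero fun j _ => k j l

theorem Leq.rfl : Leq φ φ := Ev.all fun _ _ _ => Eq.refl _

theorem Leq.symm (h : Leq φ φ') : Leq φ' φ := h.mono fun _ _ k l => (k l).symm

theorem Leq.trans (h : Leq φ φ') (h' : Leq φ' φ'') : Leq φ φ'' :=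
  (h.and h').mono fun _ _ k l => (k.1 l).trans (k.2 l)

theorem Leq.add {χ χ' : Mx Z a b} (h : Leq φ φ') (h' : Leq χ χ') : Leq (φ + χ) (φ' + χ') :=
  (h.and h').mono fun _ _ k l => congrArg₂ (· + ·) (k.1 l) (k.2 l)

theorem tot_congr (h : Al F) (h' : Al F') (e : ∀ κ, Leq (F κ) (F' κ)) : Leq (tot F) (tot F') :=
  ((h.and h').ev e).mono fun _ _ k l => finsum_congr fun κ =>
    (k κ).elim (fun t => (t.1 l).trans (t.2 l).symm) fun t => t l

theorem tot_add (h : Al F) (h' : Al F') : Leq (tot fun κ => F κ + F' κ) (tot F + tot F') :=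
  (h.fin.and h'.fin).mono fun _ _ k l => finsum_add_distrib (k.1 l) (k.2 l)

theorem tot_prod (h : Al F) (hb : ∀ κ, Bd (F κ)) (h' : Al G) :
    Leq (tot fun p : I × J => mul (F p.1) (G p.2)) (mul (tot F) (tot G)) := fun r =>
  let ⟨T, k⟩ := h.prod hb h' r
  k.mono fun m k i hi l => fs_prod (x := fun κ j => F κ m i j) (y := fun κ j => G κ m j l)
    fun j => fin_of T fun p t => k i hi p t j l

theorem tot_mul (h : Al F) (ψ : Mx Z b c) : Leq (tot fun κ => mul (F κ) ψ) (mul (tot F) ψ) :=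
  h.fin.mono fun m i k l => by
    simp only [tot, mul, finsum_mul]
    exact finsum_sum_comm _ _ fun j _ => (k j).subset fun κ t e => t (by simp [e])

theorem mul_tot (hφ : Bd φ) (h : Al G) : Leq (tot fun κ => mul φ (G κ)) (mul φ (tot G)) :=
  (hφ.ev h.fin).mono fun m i k l => by
    simp only [tot, mul, mul_finsum]
    refine finsum_sum_comm _ _ fun j _ => ?_
    by_cases e : φ m i j = 0
    · exact fin_of ∅ fun _ _ => by rw [e, zero_mul]
    · exact (k j e l).subset fun κ t e => t (by simp [e])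

theorem tot_half (h : Al F) {r : I → I} (rr : ∀ j, r (r j) = j) {p : I → Prop}
    (hr : ∀ j, p (r j) ↔ ¬p j) : Leq (tot fun j : {j // p j} => F j + F (r j)) (tot F) :=
  h.fin.mono fun _ _ k l => fs_half (k l) rr hr

theorem tot_inj {F' : J → Mx Z a b} (e : I → J) (he : Injective e) (h : ∀ i, F' (e i) = F i)
    (h0 : ∀ j, j ∉ Set.range e → F' j = 0) : tot F = tot F' := by
  funext m i k
  exact fs_inj e he (fun t => by rw [h]) fun j hj => by rw [h0 j hj]; rfl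

/-- the boundary of a total -/
theorem del_tot (h : Al F) (h' : Al F') (e : ∀ κ, Leq (del (F κ)) (F' κ)) :
    Leq (del (tot F)) (tot F') :=
  (((tot_add (h.mul_left (bd_d a)) (h.mul_right _)).trans
    ((mul_tot (bd_d a) h).add (tot_mul h _))).symm).trans
    (tot_congr ((h.mul_left (bd_d a)).add (h.mul_right _)) h' e)

theorem del_add : del (φ + φ') = del φ + del φ' := by
  funext m i k
  simp only [del, mul, Pi.add_apply, mul_add, add_mul, Finset.sum_add_distrib]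
  ring

theorem mul_add' : mul φ (ψ + ψ') = mul φ ψ + mul φ ψ' := by
  funext m i k
  simp only [mul, Pi.add_apply, mul_add, Finset.sum_add_distrib]

theorem add_mul' : mul (φ + φ') ψ = mul φ ψ + mul φ' ψ := by
  funext m i k
  simp only [mul, Pi.add_apply, add_mul, Finset.sum_add_distrib]

theorem exists_low (Z : Cs S) (a : S.E) : ∃ w, ∀ m i, w ≤ ((Z.A a).lab m i).2 := by
  have := (Z.A a).fin
  obtain ⟨x, hx⟩ := Finite.exists_le fun s => -(Z.A a).w s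
  refine ⟨-x, fun m i => ?_⟩
  obtain ⟨k, e⟩ := (Z.A a).lat m i
  have := hx ((Z.A a).lab m i).1
  have : (0 : ℚ) ≤ k := Nat.cast_nonneg k
  linarith

/-- finitely many members of degree `≥ -ρ` are alive -/
theorem alive_ge {f : I → S.F a b} (h : S.Prp f) (ρ : ℚ) : ∃ T : Finset I,
    Ev Z a fun m i => ∀ κ ∉ T, -ρ ≤ Z.dg (f κ) → ∀ k, Z.z (f κ) m i k = 0 := by
  obtain ⟨β, h, D, hD⟩ := h
  choose x hx using fun e => Z.bnd a b β e ρ
  obtain ⟨y, hy⟩ := Finite.exists_le fun e : D => x e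
  refine ⟨(hD y).toFinset, fun r => ((eventually_all_finset D).2 fun e _ => hx e r).mono
    fun m k i hi κ t l j => by_contra fun u => t ?_⟩
  exact (hD y).mem_toFinset.2 fun e he => (k e he _ (h κ) i j l hi u).trans (hy ⟨e, he⟩)

theorem alive {f : I → S.F a b} (h : S.Prp f) : Al fun κ => Z.z (f κ) := fun r => by
  obtain ⟨w, hw⟩ := exists_low Z b
  obtain ⟨T, k⟩ := alive_ge (Z := Z) h (r - w)
  refine ⟨T, (k r).mono fun m k i hi κ t j => by_contra fun u => u (k i hi κ t ?_ j)⟩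
  have := hw m j
  rw [(Z.hz _ m i j u).2] at this
  linarith

/-- the term of a cap -/
def cpt (θ : Σ x, S.F3 a b x × S.F x S.one) : Mx Z a b :=
  fun m i k => ∑ j, Z.z3 θ.2.1 m i k j * Z.z θ.2.2 m j (Z.pt m)

/-- the term of a neck -/
def nkt (θ : Σ x, S.F a x × S.F x b) : Mx Z a b := mul (Z.z θ.2.1) (Z.z θ.2.2)

theorem cof_cp (σ : S.F a b) : Cof Z a fun c m i => ∀ k j, Z.z3 (S.cp σ c).2.1 m i k j = 0 :=
  fun r => (Z.mas σ r).imp fun _ h => h.mono fun _ h i hi c t k => (h i hi k).1 c t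

/-- the master equation -/
theorem mas (σ : S.F a b) {l : List (S.F a b)} {n : List (Σ x, S.F a x × S.F x b)}
    (hl : (S.fc σ).Perm l) (hn : (S.nk σ).Perm n) :
    Leq (del (Z.z σ)) ((l.map Z.z).sum + (n.map nkt).sum + tot fun c => cpt (S.cp σ c)) := fun r => by
  obtain ⟨D, h⟩ := Z.mas σ r
  refine h.mono fun m h i hi k => (h i hi k).2.trans ?_
  simp only [Pi.add_apply, Pi.list_sum_apply, List.map_map]
  congr 1
  · congr 1
    exacts [(hl.map _).sum_eq, (hn.map _).sum_eq]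
  · exact (finsum_eq_sum_of_support_subset _ fun c t => by_contra fun u => t
      (Finset.sum_eq_zero fun j _ => by rw [(h i hi k).1 c u, zero_mul])).symm

theorem mas_bd {σ : S.F a b} {l : List (S.F a b)} {n : List (Σ x, S.F a x × S.F x b)}
    (h : S.Bd σ l n) : Leq (del (Z.z σ)) ((l.map Z.z).sum + (n.map nkt).sum) :=
  (mas σ h.fc h.nk).mono fun m i k l => by
    have := h.cp
    rw [k l, Pi.add_apply, Pi.add_apply, Pi.add_apply, tot, finsum_of_isEmpty, add_zero]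

theorem mul_off {σ : S.F a b} {τ : S.F b c} (h : S.t σ ≠ S.s τ) : mul (Z.z σ) (Z.z τ) = 0 := by
  funext m i k
  refine Finset.sum_eq_zero fun j _ => by_contra fun e => h ?_
  rw [← (Z.hz τ m j k (right_ne_zero_of_mul e)).1, (Z.hz σ m i j (left_ne_zero_of_mul e)).2]

/-! ### from matrices to maps -/

/-- the maps of a bounded matrix -/
def wm (φ : Mx Z a b) (h : Bd φ) : WM (Z.cx a).toWG (Z.cx b).toWG := Gen.wm φ h

theorem mat_mul (m : ℕ) (y : (Z.A a).ι m → K) : mat (mul φ ψ m) y = mat (ψ m) (mat (φ m) y) := by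
  funext k
  simp only [mat_apply, mul, Finset.mul_sum, Finset.sum_mul, mul_assoc]
  exact Finset.sum_comm

theorem mat_add (m : ℕ) (y : (Z.A a).ι m → K) : mat ((φ + φ') m) y = mat (φ m) y + mat (φ' m) y := by
  funext k
  simp only [mat_apply, Pi.add_apply, mul_add, Finset.sum_add_distrib]

theorem mat_del (m : ℕ) (y : (Z.A a).ι m → K) :
    mat (del φ m) y = mat (Z.d b m) (mat (φ m) y) + mat (φ m) (mat (Z.d a m) y) := by
  rw [del, mat_add, mat_mul, mat_mul, add_comm]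

theorem Leq.loc (h : Leq φ φ') : (Z.cx a).Loc fun m y => mat (φ m) y = mat (φ' m) y :=
  (Z.A a).loc (fun m => mat (φ m)) (fun m => mat (φ' m)) fun r => (h r).mono fun m h i hi => by
    rw [mat_single, mat_single]; exact funext (h i hi)

theorem loc_mono {L : Type} {X : WG L} {q q' : ∀ m, X.H m → Prop} (h : X.Loc q)
    (k : ∀ m y, q m y → q' m y) : X.Loc q' := fun r => (h r).mono fun m h y hy => k m y (h y hy)

/-- the total chain map of a family of points -/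
def tch {f : I → S.F a b} (hp : ∀ κ, S.Pt (f κ)) (h : Al fun κ => Z.z (f κ)) :
    WCh (Z.cx a) (Z.cx b) where
  toWM := wm (tot fun κ => Z.z (f κ)) (h.bd fun _ => bd_z _)
  ch := loc_mono (del_tot h (F' := fun _ => 0) (fun _ => ⟨∅, Eventually.of_forall
      fun _ _ _ _ _ _ => rfl⟩) fun κ => by
        simpa using mas_bd (Z := Z) (l := []) (n := []) ⟨.of_eq (hp κ).fc, .of_eq (hp κ).nk,
          (hp κ).cp⟩).loc fun m y k => by
    rw [mat_del] at k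
    refine funext fun l => CharTwo.add_eq_zero.1 ((congrFun k l).trans ?_)
    simp [mat_apply, tot]

theorem tch_hm {f : I → S.F a b} (hp : ∀ κ, S.Pt (f κ)) (h : Al fun κ => Z.z (f κ)) (y : Z.H a) :
    (support fun κ => Z.hm (f κ) y).Finite ∧ (tch hp h).hm y = ∑ᶠ κ, Z.hm (f κ) y := by
  simp only [fun κ => Z.hm_eq (hp κ)]
  refine WCh.hm_finsum (fun κ => Z.ch (hp κ)) _ (fun r => (h r).imp fun T k => k.mono
    fun m k y hy => ?_) y
  have hy' : ∀ i, ¬((Z.A a).lab m i).2 ≤ r → y i = 0 := ((Z.A a).le_eq m r ▸ hy :)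
  refine ⟨fun κ t => funext fun l => Finset.sum_eq_zero fun i _ => ?_, funext fun l => ?_⟩
  · by_cases e : ((Z.A a).lab m i).2 ≤ r
    · exact mul_eq_zero_of_right _ (k i e κ t l)
    · exact mul_eq_zero_of_left (hy' i e) _
  · refine Eq.trans ?_ (Finset.sum_apply l T fun κ => mat (Z.z (f κ) m) y).symm
    show ∑ i, y i * ∑ᶠ κ, Z.z (f κ) m i l = ∑ κ ∈ T, ∑ i, y i * Z.z (f κ) m i l
    rw [Finset.sum_comm]
    refine Finset.sum_congr rfl fun i _ => ?_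
    by_cases e : ((Z.A a).lab m i).2 ≤ r
    · rw [finsum_eq_sum_of_support_subset (s := T) _ fun κ t => by_contra fun u => t (k i e κ u l),
        Finset.mul_sum]
    · simp [hy' i e]

end Crest.Agent.X212.Alg43
end
end

-- ▼ part X212/Alg43/Pen
section

/-!
# Row 212, layer AN-S (helper43): the null-homotopy of a double composite and the pentagon identity
-/

set_option autoImplicit false
set_option linter.unusedSectionVars false

open Module Function Filter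

noncomputable section

namespace Crest.Agent.X212.Alg43

open Win22 Flo2
open Bor5 (K)

variable {S : Sk} {Z : Cs S} {a b c x : S.E} {I J M : Type}

/-- finitely many are alive and the total is `φ` -/
def Has (F : I → Mx Z a b) (φ : Mx Z a b) : Prop := Al F ∧ Leq (tot F) φ

variable (Z) in
/-- the total of a family of classes -/
def zt (f : I → S.F a b) : Mx Z a b := tot fun i => Z.z (f i)

variable {F F' : I → Mx Z a b} {φ φ' : Mx Z a b}

theorem Al.has (h : Al F) : Has F (tot F) := ⟨h, Leq.rfl⟩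

theorem has_z {f : I → S.F a b} (h : S.Prp f) : Has (fun i => Z.z (f i)) (zt Z f) := (alive h).has

theorem Has.add (h : Has F φ) (h' : Has F' φ') : Has (fun κ => F κ + F' κ) (φ + φ') :=
  ⟨h.1.add h'.1, (tot_add h.1 h'.1).trans (h.2.add h'.2)⟩

theorem Al.sub (h : Al F) (p : I → Prop) : Al fun j : {j // p j} => F j :=
  h.comp Subtype.val_injective

theorem Al.half (h : Al F) {r : I → I} (rr : ∀ j, r (r j) = j) {p : I → Prop}
    (hr : ∀ j, p (r j) ↔ ¬p j) : Has (fun j : {j // p j} => F j + F (r j)) (tot F) :=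
  ⟨(h.sub p).add (h.comp ((LeftInverse.injective rr).comp Subtype.val_injective)), tot_half h rr hr⟩

theorem Has.del (h' : Has F' φ) (h : Al F) (e : ∀ κ, Leq (del (F κ)) (F' κ)) :
    Leq (del (tot F)) φ := (del_tot h h'.1 e).trans h'.2

/-- products over the compatible pairs -/
theorem has_cmp {f : I → S.F a b} {g : J → S.F b c} (hf : Al fun i => Z.z (f i))
    (hg : Al fun j => Z.z (g j)) (e : M → I × J) (he : Injective e)
    (hs : ∀ p, S.t (f p.1) = S.s (g p.2) → p ∈ Set.range e) :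
    Has (fun k => mul (Z.z (f (e k).1)) (Z.z (g (e k).2))) (mul (zt Z f) (zt Z g)) :=
  ⟨(hf.prod' (fun _ => bd_z _) hg).comp he, by
    rw [tot_inj (F' := fun p : I × J => mul (Z.z (f p.1)) (Z.z (g p.2))) e he (fun _ => rfl)
      fun p hp => mul_off fun h => hp (hs p h)]
    exact tot_prod hf (fun _ => bd_z _) hg⟩

theorem has_eqv {f : I → S.F a b} {g : J → S.F b c} (hf : S.Prp f) (hg : S.Prp g)
    (e : M ≃ {p : I × J // S.t (f p.1) = S.s (g p.2)}) :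
    Has (fun k => mul (Z.z (f (e k).1.1)) (Z.z (g (e k).1.2))) (mul (zt Z f) (zt Z g)) :=
  has_cmp (alive hf) (alive hg) (fun k => (e k).1) (Subtype.val_injective.comp e.injective)
    fun p hp => ⟨e.symm ⟨p, hp⟩, by simp⟩

section
variable {f : S.Arr a b} {g : S.Arr b c} {h : S.Arr c a}

variable (Z) in
/-- the total of the reflection paths -/
def γt (D : Sk.Dbl f g) : Mx Z a c := zt Z fun j : {j // D.half j} => D.γ j

variable (Z) in
/-- the null-homotopy -/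
def nul (D : Sk.Dbl f g) : Mx Z a c := zt Z D.h + γt Z D

theorem bd_zt {f : I → S.F a b} (h : Al fun i => Z.z (f i)) : Bd (zt Z f) := h.bd fun _ => bd_z _

theorem bd_nul (D : Sk.Dbl f g) : Bd (nul Z D) :=
  (bd_zt (alive D.ph)).add (bd_zt ((alive D.pγ).sub _))

theorem del_nul (D : Sk.Dbl f g) : Leq (del (nul Z D)) (mul (zt Z f.f) (zt Z g.f)) := by
  have h1 := ((has_z (Z := Z) D.pp).add (has_eqv f.prp g.prp D.e)).del (alive D.ph) fun j => by
    simpa [nkt] using mas_bd (Z := Z) (D.bh j)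
  have h2 := ((alive (Z := Z) D.pp).half D.rr D.hr).del ((alive D.pγ).sub _) fun j => by
    simpa using mas_bd (Z := Z) (D.bγ j)
  rw [nul, del_add]
  refine (h1.and h2).mono fun m i k l => ?_
  have := k.1 l
  have := k.2 l
  simp only [Pi.add_apply, γt, zt] at *
  grind

end

/-! ### caps -/

theorem Cof.sigma [Fintype I] {C : I → Type} {q : (Σ i, C i) → ∀ m, (Z.A a).ι m → Prop}
    (h : ∀ i, Cof Z a fun c => q ⟨i, c⟩) : Cof Z a q := fun r => by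
  choose T hT using fun i => h i r
  exact ⟨Finset.univ.sigma T, (eventually_all.2 hT).mono fun m k i hi θ t =>
    k θ.1 i hi θ.2 fun u => t (Finset.mem_sigma.2 ⟨Finset.mem_univ _, u⟩)⟩

/-- all pieces glued to all caps -/
theorem has_cap {L : I → S.F3 a b x} {Q : J → S.F x S.one}
    (hL : Cof Z a fun n m i => ∀ k j, Z.z3 (L n) m i k j = 0) (hQ : Al fun j => Z.z (Q j)) :
    Has (fun p : I × J => cpt (Z := Z) ⟨x, L p.1, Q p.2⟩)
      fun m i k => ∑ j, (∑ᶠ n, Z.z3 (L n) m i k j) * zt Z Q m j (Z.pt m) := by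
  have H : Cof Z a fun (p : I × J) m i =>
      ∀ k j, Z.z3 (L p.1) m i k j * Z.z (Q p.2) m j (Z.pt m) = 0 := fun r => by
    obtain ⟨T, k⟩ := hL r
    obtain ⟨D, hD⟩ := Finite.exists_le fun n : T => Z.dg3 (L n)
    obtain ⟨w, hw⟩ := exists_low Z b
    obtain ⟨T', k'⟩ := hQ (r + D - w)
    refine ⟨T ×ˢ T', (k.and k').mono fun m h i hi p t l j => ?_⟩
    by_cases e : Z.z3 (L p.1) m i l j = 0
    · rw [e, zero_mul]
    have u : p.1 ∈ T := by_contra fun v => e (h.1 i hi _ v l j)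
    refine mul_eq_zero_of_right _ (h.2 j ?_ p.2 (fun v => t (Finset.mem_product.2 ⟨u, v⟩)) _)
    linarith [(Z.hz3 _ m i l j e).2.2.2, hD ⟨_, u⟩, hw m l]
  refine ⟨H.mono fun _ _ _ k l => Finset.sum_eq_zero fun j _ => k l j, fun r => ?_⟩
  obtain ⟨T, k⟩ := H r
  exact k.mono fun m k i hi l => fs_prod (x := fun n j => Z.z3 (L n) m i l j)
    (y := fun n j => Z.z (Q n) m j (Z.pt m)) fun j => fin_of T fun p t => k i hi p t l j

/-- the caps of a family, reindexed -/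
theorem Has.caps {σ : I → S.F a b} {F : M → Mx Z a b} (h : Has F φ) (e : M → Σ i, S.C (σ i))
    (he : Injective e) (h1 : ∀ t, cpt (S.cp _ (e t).2) = F t)
    (h0 : ∀ θ, θ ∉ Set.range e → cpt (Z := Z) (S.cp _ θ.2) = 0) :
    Has (fun i => tot fun c => cpt (S.cp (σ i) c)) φ := by
  have H : Al fun θ : Σ i, S.C (σ i) => cpt (Z := Z) (S.cp _ θ.2) := h.1.push e fun θ m i k l => by
    beta_reduce
    by_cases u : θ ∈ Set.range e
    · obtain ⟨t, rfl⟩ := u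
      rw [h1, k t rfl]
    · rw [h0 θ u]; rfl
  refine ⟨H.push Sigma.fst fun κ m i k l => finsum_eq_zero_of_forall_eq_zero fun c =>
    k ⟨κ, c⟩ rfl l, Leq.trans ?_ h.2⟩
  rw [tot_inj (F' := fun θ : Σ i, S.C (σ i) => cpt (S.cp _ θ.2)) e he h1 h0]
  exact H.fin.mono fun m i k l => fs_sigma (k l)

theorem cpt_dead {θ : Σ x, S.F3 a b x × S.F x S.one} (h : S.dead θ.1) : cpt (Z := Z) θ = 0 := by
  funext m i k
  have := Z.dead _ h m
  exact Finset.sum_of_isEmpty _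

theorem has_live {σ : I → S.F a b} {L : M → S.F3 a b x} {Q : J → S.F x S.one}
    (hL : Cof Z a fun n m i => ∀ k j, Z.z3 (L n) m i k j = 0) (hQ : S.Prp Q)
    (β : {θ : Σ i, S.C (σ i) // ¬S.dead (S.cp _ θ.2).1} ≃ M × J)
    (hβ : ∀ θ, S.cp _ θ.1.2 = ⟨x, L (β θ).1, Q (β θ).2⟩) :
    Has (fun i => tot fun c => cpt (S.cp (σ i) c))
      fun m i k => ∑ j, (∑ᶠ n, Z.z3 (L n) m i k j) * zt Z Q m j (Z.pt m) :=
  (has_cap hL (alive hQ)).caps (fun p => (β.symm p).1)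
    (Subtype.val_injective.comp β.symm.injective) (fun t => by rw [hβ, β.apply_symm_apply])
    fun θ u => cpt_dead (by_contra fun v => u ⟨β ⟨θ, v⟩, by simp⟩)

variable {f : S.Arr a b} {g : S.Arr b c} {h : S.Arr c a} {D0 : Sk.Dbl f g} {D1 : Sk.Dbl g h}
  {N : S.Cap} {T : f.I → g.I → h.I → Prop} (P : Sk.Pen D0 D1 N T)

theorem r1_half (k : P.M) : D0.half (P.e0 (P.r1 k)).1.1 ↔ ¬D0.half (P.e0 k).1.1 := by
  rw [P.er1]; exact D0.hr _

theorem r2_half (k : P.M) : D1.half (P.e1 (P.r2 k)).1.2 ↔ ¬D1.half (P.e1 k).1.2 := by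
  rw [P.er2]; exact D1.hr _

theorem r1_r1 (k : P.M) : P.r1 (P.r1 k) = k :=
  P.e0.injective (Subtype.ext (by rw [P.er1, P.er1, D0.rr]))

theorem r2_r2 (k : P.M) : P.r2 (P.r2 k) = k :=
  P.e1.injective (Subtype.ext (by rw [P.er2, P.er2, D1.rr]))

theorem cof_Lc : Cof Z a fun n m i => ∀ k j, Z.z3 (P.Lc n) m i k j = 0 :=
  ((Cof.sigma (q := fun (θ : Σ t, S.C (P.κ t)) m i => ∀ k j, Z.z3 (S.cp _ θ.2).2.1 m i k j = 0)
    fun t => cof_cp (P.κ t)).comp P.β0.symm.injective).mono fun n m i k => by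
      rwa [P.c0, P.β0.apply_symm_apply] at k

variable (Z) in
/-- the cap term -/
def capT : Mx Z a a := fun m i k => ∑ j, (∑ᶠ n, Z.z3 (P.Lc n) m i k j) *
  (Z.z N.B m j (Z.pt m) + zt Z N.g1 m j (Z.pt m) + zt Z N.g2 m j (Z.pt m))

/-- **the pentagon identity** -/
theorem pen (P : Sk.Pen D0 D1 N) : ∃ G : Mx Z a a, Bd G ∧ Leq (del G)
    (mul (nul Z D0) (zt Z h.f) + mul (zt Z f.f) (nul Z D1) + (zt Z P.ι + capT Z P)) := by
  obtain ⟨pQ, pA, pB, pS1, pS2, pΓ1, pΓ2, pR1, pR2, pρ⟩ := P.prp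
  have aκ : Al fun t => Z.z (P.κ t) := Cof.fintype _
  have h1 := (((has_z (Z := Z) pA).add (has_z pB)).add ((has_cmp (alive f.prp) (alive D1.ph) _
    (Subtype.val_injective.comp P.e1.injective) fun p hp => ⟨P.e1.symm ⟨p, hp, trivial⟩, by simp⟩).add
    (has_cmp (alive D0.ph) (alive h.prp) _ (Subtype.val_injective.comp P.e0.injective)
      fun p hp => ⟨P.e0.symm ⟨p, hp, trivial⟩, by simp⟩))).del (alive pQ) fun k => by
      simpa [nkt] using mas_bd (Z := Z) (P.bQ k)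
  have h2 := ((((alive (Z := Z) pB).half (r1_r1 P) (r1_half P)).add ((alive pΓ1).sub _).has).add
    (has_cmp ((alive D0.pγ).sub D0.half) (alive h.prp)
      (fun k : {k // D0.half (P.e0 k).1.1} => (⟨(P.e0 k).1.1, k.2⟩, (P.e0 k).1.2))
      (fun k k' e => Subtype.ext (P.e0.injective (Subtype.ext (by
        simp only [Prod.mk.injEq, Subtype.mk.injEq] at e; exact Prod.ext e.1 e.2))))
      fun p hp => ⟨⟨P.e0.symm ⟨(p.1, p.2), D0.tγ _ ▸ hp, trivial⟩, by simpa using p.1.2⟩, by simp⟩)).del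
    ((alive pS1).sub _) fun k => by simpa [nkt, add_assoc] using mas_bd (Z := Z) (P.bS1 k)
  have h3 := ((((alive (Z := Z) pA).half (r2_r2 P) (r2_half P)).add ((alive pΓ2).sub _).has).add
    (has_cmp (alive f.prp) ((alive D1.pγ).sub D1.half)
      (fun k : {k // D1.half (P.e1 k).1.2} => ((P.e1 k).1.1, ⟨(P.e1 k).1.2, k.2⟩))
      (fun k k' e => Subtype.ext (P.e1.injective (Subtype.ext (by
        simp only [Prod.mk.injEq, Subtype.mk.injEq] at e; exact Prod.ext e.1 e.2))))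
      fun p hp => ⟨⟨P.e1.symm ⟨(p.1, p.2), D1.sγ _ ▸ hp, trivial⟩, by simpa using p.2.2⟩, by simp⟩)).del
    ((alive pS2).sub _) fun k => by simpa [nkt, add_assoc] using mas_bd (Z := Z) (P.bS2 k)
  have h4 := ((((alive (Z := Z) pΓ1).sub _).has.add ((alive pρ).half (r1_r1 P) (r1_half P))).add
    (has_live (cof_Lc P) N.p1 P.β1 P.c1)).del ((alive pR1).sub _) fun k => by
      simpa using mas (Z := Z) _ (P.bR1 k).1 (.of_eq (P.bR1 k).2)
  have h5 := ((((alive (Z := Z) pΓ2).sub _).has.add ((alive pρ).half (r2_r2 P) (r2_half P))).add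
    (has_live (cof_Lc P) N.p2 P.β2 P.c2)).del ((alive pR2).sub _) fun k => by
      simpa using mas (Z := Z) _ (P.bR2 k).1 (.of_eq (P.bR2 k).2)
  have h6 := ((Al.has (F := fun t => Z.z (P.ι t)) (Cof.fintype _)).add
    ((has_cap (Q := fun _ : Unit => N.B) (cof_Lc P) (Cof.fintype _)).caps (fun p => P.β0.symm p.1)
      (fun p p' e => Prod.ext (P.β0.symm.injective e) rfl)
      (fun t => by rw [P.c0, P.β0.apply_symm_apply])
      fun θ u => (u ⟨(P.β0 θ, ()), by simp⟩).elim)).del aκ fun t => by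
      simpa using mas (Z := Z) _ (.of_eq (P.bκ t).1) (.of_eq (P.bκ t).2)
  refine ⟨_, (((((bd_zt (alive pQ)).add (bd_zt ((alive pS1).sub fun k => D0.half (P.e0 k).1.1))).add
    (bd_zt ((alive pS2).sub fun k => D1.half (P.e1 k).1.2))).add
    (bd_zt ((alive pR1).sub fun k => D0.half (P.e0 k).1.1))).add
    (bd_zt ((alive pR2).sub fun k => D1.half (P.e1 k).1.2))).add (bd_zt aκ), ?_⟩
  simp only [del_add, nul, mul_add', add_mul']
  refine (h1.and (h2.and (h3.and (h4.and (h5.and h6))))).mono fun m i k l => ?_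
  have k1 := k.1 l
  have k2 := k.2.1 l
  have k3 := k.2.2.1 l
  have k4 := k.2.2.2.1 l
  have k5 := k.2.2.2.2.1 l
  have k6 := k.2.2.2.2.2 l
  have e : zt Z (fun _ : Unit => N.B) = Z.z N.B := by
    funext m i k; exact finsum_unique _
  rw [e] at k6
  simp only [Pi.add_apply, γt, capT, mul_add, Finset.sum_add_distrib] at *
  simp only [zt] at *
  rw [k1, k2, k3, k4, k5, k6]
  grind

/-- the cap term lowers the degree -/
theorem capT_low (hN : Z.Good N) : ∀ᶠ m in atTop, ∀ i k, capT Z P m i k ≠ 0 →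
    ∃ t, ((Z.A a).lab m k).2 < ((Z.A a).lab m i).2 + Z.dg (P.ι t) := by
  refine hN.2.2.mono fun m ⟨j0, hB, hg⟩ i k e => ?_
  obtain ⟨j, -, e⟩ := Finset.exists_ne_zero_of_sum_ne_zero e
  have d : ∀ {Q : S.F N.x S.one} {j}, Z.z Q m j (Z.pt m) ≠ 0 →
      ((Z.A N.x).lab m j).2 = -Z.dg Q := fun {Q j} h => by
    have := Z.pt_deg m
    rw [(Z.hz Q m j _ h).2] at this
    linarith
  have d0 := d (hB ▸ one_ne_zero : Z.z N.B m j0 (Z.pt m) ≠ 0)
  have hj : j ≠ j0 := by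
    rintro rfl
    refine right_ne_zero_of_mul e ?_
    rw [add_assoc, hB]
    exact (congrArg (1 + ·) hg).trans (CharTwo.add_self_eq_zero _)
  have h1 : ((Z.A N.x).lab m j).2 ≠ -Z.dg N.B := fun u => hj (Z.thin _ N.thin m _ _ (u.trans d0.symm))
  have h2 : -Z.dg N.B ≤ ((Z.A N.x).lab m j).2 := by
    by_contra u
    refine right_ne_zero_of_mul e ?_
    rw [show Z.z N.B m j (Z.pt m) = 0 from by_contra fun v => h1 (d v),
      show zt Z N.g1 m j (Z.pt m) = 0 from finsum_eq_zero_of_forall_eq_zero fun t =>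
        by_contra fun v => u (d v ▸ neg_le_neg (hN.1 t)),
      show zt Z N.g2 m j (Z.pt m) = 0 from finsum_eq_zero_of_forall_eq_zero fun t =>
        by_contra fun v => u (d v ▸ neg_le_neg (hN.2.1 t)), add_zero, add_zero]
  obtain ⟨n, hn⟩ : ∃ n, Z.z3 (P.Lc n) m i k j ≠ 0 := by_contra fun u =>
    left_ne_zero_of_mul e (finsum_eq_zero_of_forall_eq_zero fun n => by_contra fun v => u ⟨n, v⟩)
  obtain ⟨θ, rfl⟩ := P.β0.surjective n
  have h3 := Z.dg_cp _ θ.2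
  rw [P.c0] at h3
  have h4 := Z.dg_fc (P.κ θ.1) (P.ι θ.1) (by simp [(P.bκ _).1])
  exact ⟨θ.1, by linarith [h3 P.live, (Z.hz3 _ m i k j hn).2.2.2, lt_of_le_of_ne h2 h1.symm]⟩

end Crest.Agent.X212.Alg43
end
end

-- ▼ part X212/Alg43/Tri
section

/-!
# Row 212, layer AN-S (helper43): the exact triangle (ALG-3) and the pentagon at the empty vertex
(ALG-4)
-/

set_option autoImplicit false
set_option linter.unusedSectionVars false

open Module Function Filter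

noncomputable section

namespace Crest.Agent.X212.Alg43

open Win22 Flo2 WG
open Bor5 (K)

variable {S : Sk} (Z : Cs S) {a b c : S.E}

/-- the total chain map of an arrow -/
def ach (f : S.Arr a b) : WCh (Z.cx a) (Z.cx b) := tch f.pt (alive f.prp)

theorem ach_hm (f : S.Arr a b) : Z.tot f = (ach Z f).hm :=
  funext fun y => (tch_hm f.pt (alive f.prp) y).2.symm

variable {f : S.Arr a b} {g : S.Arr b c} {h : S.Arr c a}

theorem nul_loc (D : Sk.Dbl f g) : (Z.cx a).Loc fun m x =>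
    (Z.cx c).d m ((wm _ (bd_nul (Z := Z) D)).φ m x) + (wm _ (bd_nul D)).φ m ((Z.cx a).d m x) =
      (ach Z g).φ m ((ach Z f).φ m x) :=
  loc_mono (del_nul D).loc fun m y k => (mat_del m y).symm.trans (k.trans (mat_mul m y))

/-- the triangle -/
def tri (D0 : Sk.Dbl f g) (D1 : Sk.Dbl g h) (D2 : Sk.Dbl h f) : WTri (Z.cx a) (Z.cx b) (Z.cx c) :=
  ⟨ach Z f, ach Z g, ach Z h, _, _, _, nul_loc Z D0, nul_loc Z D1, nul_loc Z D2⟩

variable {D0 : Sk.Dbl f g} {D1 : Sk.Dbl g h} {N : S.Cap} (P : Sk.Pen D0 D1 N)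

variable {Z} in
/-- the map of a matrix -/
def mp (φ : Mx Z a b) (m : ℕ) : (Z.cx a).H m →ₗ[K] (Z.cx b).H m := mat (φ m)

theorem pen_loc : ∃ G : WM (Z.cx a).toWG (Z.cx a).toWG, (Z.cx a).Loc fun m x =>
    (Z.cx a).d m (G.φ m x) + G.φ m ((Z.cx a).d m x) =
      (ach Z h).φ m ((wm _ (bd_nul D0)).φ m x) + (wm _ (bd_nul D1)).φ m ((ach Z f).φ m x) +
        (mp (zt Z P.ι) m x + mp (capT Z P) m x) :=
  let ⟨G, hG, e⟩ := pen (Z := Z) P
  ⟨wm G hG, loc_mono e.loc fun m y k => (mat_del m y).symm.trans (k.trans (by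
    rw [mat_add, mat_add, mat_add, mat_mul, mat_mul]; rfl))⟩

theorem zt_id (hP : P.Id) : (Z.cx a).Loc fun m y => mp (zt Z P.ι) m y = y := by
  classical
  refine loc_mono (Leq.loc (φ' := fun m i k => if i = k then 1 else 0) fun r =>
    (eventually_all.2 fun t => Z.idn _ (hP.idn t) r).mono fun m e i hi k => ?_)
    fun m y k => k.trans (funext fun l => by simp [mat_apply])
  obtain ⟨t, ht⟩ := hP.bij.2 ((Z.A a).lab m i).1
  refine (finsum_eq_single _ t fun t' u => ?_).trans ?_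
  · exact (e t' i hi k).trans (if_neg fun v => u (hP.bij.1 (v.2.symm.trans ht.symm)))
  · simp [e t i hi, ← ht]

theorem exists_pent (D2 : Sk.Dbl h f) (hN : Z.Good N) (hP : P.Id) :
    Nonempty (tri Z D0 D1 D2).Pent := by
  obtain ⟨G, e⟩ := pen_loc Z P
  have lo : ∀ᶠ m in atTop, ∀ i k, capT Z P m i k ≠ 0 →
      ((Z.A a).lab m k).2 < ((Z.A a).lab m i).2 := (capT_low P hN).mono fun m k i l u => by
    obtain ⟨t, ht⟩ := k i l u
    rwa [Z.dg_tp _ _ (hP.tp t), add_zero] at ht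
  refine ⟨⟨G, WCh.id _, wm (capT Z P) fun r => ⟨r, lo.mono fun m k i l hi u =>
    (k i l u).le.trans hi⟩, fun r => ((e r).and (zt_id Z P hP r)).mono fun m k y hy => ?_,
    fun l => Eventually.of_forall fun m x hx => ((Z.cx a).g m).W_le_up (S := {k | k.2 = l.2}) rfl hx,
    fun l => lo.mono fun m k => Gen.mat_up fun i j hi u => hi ▸ k i j u, ?_⟩⟩
  · refine (k.1 y hy).trans ?_
    rw [show mp (zt Z P.ι) m y = y from k.2 y hy]; rfl
  · rw [WCh.hm_id]; exact injective_id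

/-- ALG-3 -/
theorem triStmt : TriStmt := fun _ Z _ _ _ f g _ D0 D1 D2 _ P P' hN hP hP' => by
  obtain ⟨p⟩ := exists_pent Z P D2 hN hP
  obtain ⟨q⟩ := exists_pent Z P' D0 hN hP'
  rw [ach_hm, ach_hm]
  exact (tri Z D0 D1 D2).exact p q

theorem d_one (m : ℕ) (y : (Z.cx S.one).H m) : (Z.cx S.one).d m y = 0 := by
  refine funext fun k => Finset.sum_eq_zero fun i _ => mul_eq_zero_of_right _ (by_contra fun e => ?_)
  have h := congrArg Prod.snd (Z.hom _ m i k e)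
  rw [Z.pt_eq m i, Z.pt_eq m k] at h
  simp only [sh] at h
  linarith

theorem mat_one (m : ℕ) (n : (Z.A S.one).ι m → (Z.A S.one).ι m → K) (y : (Z.A S.one).ι m → K) (k) :
    mat n y k = y k * n (Z.pt m) (Z.pt m) := by
  rw [mat_apply, Z.pt_eq m k]
  exact Finset.sum_eq_single _ (fun i _ u => (u (Z.pt_eq m i)).elim) (by simp)

/-- ALG-4 -/
theorem pentStmt : PentStmt := fun S Z b c f g h D0 D1 N P hN hI ⟨t, ht⟩ hh y hy => by
  rw [ach_hm] at hh hy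
  have hz : zt Z P.ι = Z.z (P.ι t) := by
    funext m i k; exact finsum_eq_single _ t fun t' u => (u (hI _ _)).elim
  have h1 : ∀ᶠ m in uf, Z.z (P.ι t) m (Z.pt m) (Z.pt m) ≠ 0 := by
    refine (Ultrafilter.em (hyperfilter ℕ) _).resolve_right fun u => ht ?_
    rw [Z.hm_eq (P.pι t)]
    refine Cx.hext fun x hx => ?_
    obtain ⟨xs, -, rx, -⟩ := exists_rp x
    refine ((Z.cx _).cx.cls_congr _ (map_zero _) (((Z.ch (P.pι t)).rp rx).ext Rp.zero
      (u.mono fun m u => funext fun k => ?_))).trans ((Z.cx _).cx.cls_zero _)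
    exact (mat_one Z m _ _ k).trans (mul_eq_zero_of_right _ (not_not.1 u))
  have h2 : ∀ t', Z.dg (P.ι t') = 0 := fun t' => by
    obtain ⟨m, u⟩ := h1.exists
    simpa [hI t' t] using congrArg Prod.snd (Z.hz _ m _ _ u).2
  have h3 : ∀ᶠ m in atTop, capT Z P m (Z.pt m) (Z.pt m) = 0 :=
    (capT_low P hN).mono fun m k => by_contra fun u => by
      obtain ⟨t', v⟩ := k _ _ u
      simp [h2] at v
  obtain ⟨G, e⟩ := pen_loc Z P
  obtain ⟨x, hx, rfl⟩ := (Z.cx _).cx.exists_cls y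
  obtain ⟨w, hw⟩ := ((Z.cx b).cx.cls_eq_zero ((ach Z f).isCh.cyc hx)).1 hy
  obtain ⟨xs, -, rx, -⟩ := exists_rp x
  obtain ⟨ws, -, rw', -⟩ := exists_rp w
  have e1 := ((Z.cx b).dM.rp rw').ev (show Rp _ ((Z.cx b).cx.d w) from hw ▸ (ach Z f).rp rx)
  have rv := ((wm _ (bd_nul (Z := Z) D0)).rp rx).add ((ach Z g).rp rw')
  have hv := ((Z.cx c).dM.rp rv).ext Rp.zero ((e1.and ((rx.loc (nul_loc Z D0)).and
    (rw'.loc (ach Z g).ch))).mono fun m k => by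
      have k1 : (Z.cx b).d m _ = _ := k.1
      have k2 := k.2.1
      rw [d_one, map_zero, add_zero] at k2
      show (Z.cx c).d m _ = 0
      rw [map_add, k2, k.2.2, k1]
      exact add_self2 K _)
  obtain ⟨s, hs⟩ := ((Z.cx S.one).cx.cls_eq_zero ((ach Z h).isCh.cyc hv)).1
    (hh ((Z.cx c).cx.cls _ hv))
  obtain ⟨ss, -, rs, -⟩ := exists_rp s
  have e2 := ((Z.cx S.one).dM.rp rs).ev
    (show Rp _ ((Z.cx S.one).cx.d s) from hs ▸ (ach Z h).rp rv)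
  refine ((Z.cx _).cx.cls_congr _ (map_zero _) (rx.ext Rp.zero ((h1.and ((ev_uf h3).and (e1.and
    (e2.and ((rx.loc e).and (rw'.loc (nul_loc Z D1))))))).mono fun m k => ?_))).trans
    ((Z.cx _).cx.cls_zero _)
  obtain ⟨k1, k2, k3, k4, k5, k6⟩ := k
  have k3 : (Z.cx b).d m _ = _ := k3
  have k4 : (Z.cx S.one).d m _ = _ := k4
  rw [d_one, map_add] at k4
  rw [d_one, zero_add, k3] at k6
  rw [d_one, d_one, map_zero, add_zero, k6, ← k4, zero_add, hz] at k5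
  funext l
  have k7 : (0 : K) = mat (Z.z (P.ι t) m) (xs m) l + mat (capT Z P m) (xs m) l := congrFun k5 l
  rw [mat_one, mat_one, k2, mul_zero, add_zero] at k7
  exact (mul_eq_zero.1 k7.symm).resolve_right k1

end Crest.Agent.X212.Alg43
end
end

-- ▼ part X212/Asm22/Main
section

/-!
# Row 212, layer AN-S (helper22): counts and a realisation give the theory
-/

set_option autoImplicit false

open Set Filter Function Module

noncomputable section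

universe v

namespace Crest.Agent.X212.Asm22

open Flo2 Win22 Bor5.T
open Bor5 (K)

/-- relabelling -/
@[reducible] def rl {L L' : Type} (X : Hf L) (e : L' ≃ L) : Hf L' where
  H := X.H
  gr s := X.gr (e s)
  ind := X.ind.comp (f := Prod.map e id) (e.injective.prodMap injective_id)
  top := ((e.prodCongr (Equiv.refl ℚ)).iSup_comp (g := fun i : L × ℚ => X.gr i.1 i.2)).trans X.top
  fd _ := X.fd _
  U := X.U
  U_mem _ := X.U_mem _
  w s := X.w (e s)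
  lat _ := X.lat _
  N := X.N
  ev _ := X.ev _
  od _ := X.od _

theorem ext_gr {L V : Type} [AddCommGroup V] [Module K V] (X : Hf L) {f g : X.H →ₗ[K] V}
    (h : ∀ s x, ∀ y ∈ X.gr s x, f y = g y) (y : X.H) : f y = g y := by
  have hy : y ∈ ⨆ z : L × ℚ, X.gr z.1 z.2 := X.top ▸ Submodule.mem_top
  induction hy using Submodule.iSup_induction' with
  | mem z y hy => exact h _ _ y hy
  | zero => rw [map_zero, map_zero]
  | add y z _ _ h1 h2 => rw [map_add, map_add, h1, h2]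

section alg

variable {S : Sk.{v}} (Z : Cs S) {a b c : S.E}

theorem bs : Bas Z := Lad50.Bs.bas S Z

theorem htp {τ τ' : S.F a b} (h : S.Htp τ τ') :
    S.Pt τ' ∧ Z.hm τ = Z.hm τ' ∧ Z.dg τ = Z.dg τ' := by
  induction h with
  | refl h => exact ⟨h, rfl, rfl⟩
  | step σ τ' τ'' _ p q ih =>
    have h1 := Z.dg_fc σ τ' (q.fc.symm.subset (by simp))
    have h2 := Z.dg_fc σ τ'' (q.fc.symm.subset (by simp))
    exact ⟨p, ih.2.1.trans ((bs Z).inv σ _ _ ih.1 p q), by linarith [ih.2.2]⟩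

theorem cmp {τ : S.F a c} {τ₁ : S.F a b} {τ₂ : S.F b c} (h : S.Cmp τ τ₁ τ₂) :
    Z.hm τ = Z.hm τ₂ ∘ₗ Z.hm τ₁ := by
  obtain ⟨σ, ρ, ρ₁, ρ₂, h0, h1, h2, q⟩ := h
  rw [(htp Z h0).2.1, (htp Z h1).2.1, (htp Z h2).2.1]
  exact (bs Z).comp σ _ _ _ (htp Z h0).1 (htp Z h1).1 (htp Z h2).1 q

theorem nz {Q : S.F a S.one} (h : S.Nz Q) : Z.NZ Q :=
  let ⟨_, _, σ, τ, L, h1, h2, h3, h4⟩ := h
  (bs Z).nz σ τ L Q h1 h2 h3 h4

theorem has {N : S.Cap} (h : N.Has) : Z.Good N :=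
  let ⟨_, _, _, f, g, k, D0, D1, P, h⟩ := h
  Mcg32.good S Z _ _ _ f g k D0 D1 N P h

theorem dg_cap {σ τ : S.F a b} {L : S.F3 a b c} {Q : S.F c S.one} (h : S.CapI σ τ L Q)
    (hc : ¬S.dead c) : Z.dg3 L + Z.dg Q = Z.dg τ := by
  obtain ⟨h1, -, c₀, -, h2⟩ := h
  have e1 := Z.dg_fc σ τ (by simp [h1])
  have e2 := Z.dg_cp σ c₀
  rw [h2] at e2
  linarith [e2 hc]

theorem tot_rp {f : S.Arr a b} {L : Type} {p : L → S.F a b} (h : f.Rp p) (y : Z.H a) :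
    Z.tot f y = ∑ᶠ d, Z.hm (p d) y := by
  obtain ⟨e, h⟩ := h
  rw [Cs.tot, ← finsum_comp_equiv e]
  exact finsum_congr fun d => by rw [(htp Z (h d)).2.1]

theorem exists_one : ∃ y : Z.H S.one, y ≠ 0 :=
  have := Module.nontrivial_of_finrank_pos (R := K) (M := Z.H S.one) (by rw [(bs Z).one]; norm_num)
  exists_ne 0

/-- a model of the homology of an end -/
structure Md (u : S.UD a) : Type 1 where
  X : Hf (S.L a)
  e : X.H ≃ₗ[K] Z.H a
  gr : ∀ c x y, y ∈ X.gr c x ↔ e y ∈ (Z.cx a).gr c x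
  U : ∀ c x, ∀ y ∈ X.gr c x, e (X.U y) = Z.hm (u.U c) (e y)
  w : X.w = (Z.A a).w
  psc : S.psc a → ∀ c (k : ℕ), finrank K (X.gr c (X.w c + 2 * k)) = 1 ∧
    X.gr c (X.w c + (2 * k + 1)) = ⊥ ∧ ∀ y ∈ X.gr c (X.w c + 2 * k + 2), X.U y = 0 → y = 0

theorem exists_md (u : S.UD a) (h : S.qhs a) : Nonempty (Md Z u) :=
  let ⟨X, e, h1, h2, h3, h4⟩ := (bs Z).hf a u h
  ⟨⟨X, e, h1, h2, h3, h4⟩⟩

variable {Z} {u : S.UD a} {u' : S.UD b} {u'' : S.UD c} (M : Md Z u) (M' : Md Z u')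

/-- the map of a family on the models -/
def mp (σ : S.F a b) : M.X.H →ₗ[K] M'.X.H := M'.e.symm.toLinearMap ∘ₗ Z.hm σ ∘ₗ M.e.toLinearMap

theorem e_mp (σ : S.F a b) (y : M.X.H) : M'.e (mp M M' σ y) = Z.hm σ (M.e y) :=
  M'.e.apply_symm_apply _

theorem mp_zero {σ : S.F a b} {y : M.X.H} : mp M M' σ y = 0 ↔ Z.hm σ (M.e y) = 0 :=
  M'.e.symm.map_eq_zero_iff

theorem mp_mem (σ : S.F a b) {x : ℚ} {y : M.X.H} (h : y ∈ M.X.gr (S.s σ) x) :
    mp M M' σ y ∈ M'.X.gr (S.t σ) (x + Z.dg σ) := by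
  rw [M'.gr, e_mp]
  exact (bs Z).mem σ x _ ((M.gr _ _ _).1 h)

theorem off {σ : S.F a b} {s : S.L a} (hs : s ≠ S.s σ) {x : ℚ} {y : M.X.H} (h : y ∈ M.X.gr s x) :
    Z.hm σ (M.e y) = 0 := (bs Z).off σ s x hs _ ((M.gr _ _ _).1 h)

theorem hm_U {σ τ : S.F a b} (h : S.Cmp τ (u.U (S.s σ)) σ) {s : S.L a} {x : ℚ} {y : M.X.H}
    (hy : y ∈ M.X.gr s x) (e : s = S.s σ) : Z.hm σ (M.e (M.X.U y)) = Z.hm τ (M.e y) := by
  rw [M.U _ _ y hy, cmp Z h, e]
  rfl

theorem mp_U {σ τ : S.F a b} (h : S.Cmp τ (u.U (S.s σ)) σ) (h' : S.Cmp τ σ (u'.U (S.t σ)))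
    (y : M.X.H) : mp M M' σ (M.X.U y) = M'.X.U (mp M M' σ y) := by
  refine ext_gr M.X (f := mp M M' σ ∘ₗ M.X.U) (g := M'.X.U ∘ₗ mp M M' σ) (fun s x y hy => ?_) y
  simp only [LinearMap.comp_apply]
  by_cases e : s = S.s σ
  · refine M'.e.injective ?_
    rw [e_mp, hm_U M h hy e, M'.U _ _ _ (mp_mem M M' σ (e ▸ hy)), e_mp, cmp Z h']
    rfl
  · rw [(mp_zero M M').2 (off M e hy), (mp_zero M M').2 (off M e (M.X.U_mem _ _ _ hy)), map_zero]

theorem kil (hU : Surjective M.X.U) {σ : S.F a b} (h : Sk.Kil u σ) : Z.hm σ = 0 := by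
  induction h with
  | base σ τ h h' => rw [(htp Z h).2.1, (bs Z).al0 τ h']
  | step σ τ h _ ih =>
    refine LinearMap.ext fun y => ?_
    obtain ⟨y, rfl⟩ := M.e.surjective y
    obtain ⟨y, rfl⟩ := hU y
    refine ext_gr M.X (f := Z.hm σ ∘ₗ M.e.toLinearMap ∘ₗ M.X.U) (g := 0) (fun s x y hy => ?_) y
    by_cases e : s = S.s σ
    · exact (hm_U M h hy e).trans (by rw [ih]; rfl)
    · exact off M e (M.X.U_mem _ _ _ hy)

theorem pur (h : S.psc a) {L : Type} (e : L ≃ S.L a) : Pur (rl M.X e) fun s => M.X.w (e s) := by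
  refine ⟨fun s k => ⟨(M.psc h _ k).1, (M.psc h _ k).2.2⟩, fun s x hx => by_contra fun k => ?_⟩
  obtain ⟨n, rfl⟩ := M.X.lat _ x k
  rcases Nat.even_or_odd' n with ⟨n, rfl | rfl⟩
  · exact hx ⟨n, by push_cast; rfl⟩
  · exact k (by push_cast; exact (M.psc h _ n).2.1)

theorem sum_mp {L : Type} (p : L → S.F a b) (y : M.X.H) :
    ∑ᶠ d, mp M M' (p d) y = M'.e.symm (∑ᶠ d, Z.hm (p d) (M.e y)) :=
  (M'.e.symm.toAddEquiv.map_finsum _).symm

theorem exact_mp (M'' : Md Z u'') {f : S.Arr a b} {g : S.Arr b c} {L L' : Type} {p : L → S.F a b}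
    {q : L' → S.F b c} (hf : f.Rp p) (hg : g.Rp q) (h : Exact (Z.tot f) (Z.tot g)) :
    Exact (fun y => ∑ᶠ d, mp M M' (p d) y) fun y => ∑ᶠ d, mp M' M'' (q d) y := fun y => by
  simp only [sum_mp, ← tot_rp Z hf, ← tot_rp Z hg, LinearEquiv.map_eq_zero_iff, h _, mem_range,
    LinearEquiv.symm_apply_eq]
  exact ⟨fun ⟨x, e⟩ => ⟨M.e.symm x, by rwa [M.e.apply_symm_apply]⟩, fun ⟨_, e⟩ => ⟨_, e⟩⟩

end alg

variable {S : Scene} {T : Sk.{v}} (r : Rl S T) {Z : Cs T} (M : ∀ i, Md Z (r.U i)) (y₀ : Z.H T.one)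

open Classical in
/-- the class of a cap -/
def xi {i : S.ι} (c : S.γ i) (d : (S.cap c).L) : (M i).X.H :=
  if h : (S.cap c).Ps d (S.cap c).η then (M i).e.symm (Z.hm (r.cp c d h) y₀) else 0

theorem xi_eq {i : S.ι} (c : S.γ i) (d : (S.cap c).L) (h : (S.cap c).Ps d (S.cap c).η) :
    xi r M y₀ c d = (M i).e.symm (Z.hm (r.cp c d h) y₀) := dif_pos h

/-- the theory -/
def th : Th S where
  H i := rl (M i).X (r.lab i)
  F c d := mp (M _) (M _) (r.pt c d)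
  dg c d := Z.dg (r.pt c d)
  ξ := xi r M y₀
  map c d s t x y h1 h2 hy := by
    have := mp_mem (M _) (M _) (r.pt c d) (x := x) (y := y) (by rw [r.s c d s h1]; exact hy)
    rwa [r.t c d t h2] at this
  off c d s s' x y h1 h2 hy := (mp_zero _ _).2
    (off _ (fun e => h2 ((r.lab _).injective (e.trans (r.s c d s h1)))) hy)
  U c d y := let ⟨_, h1, h2⟩ := r.comU c d; mp_U _ _ h1 h2 y
  fin c y := ((bs Z).fin ⟨_, r.pt c, r.isPt c, r.prp c⟩ ((M _).e y)).subset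
    fun _ h k => h ((mp_zero _ _).2 k)
  nat c c' φ d d' h1 h2 h3 := by rw [mp, (htp Z (r.nat c c' φ d d' h1 h2 h3)).2.1, mp]
  comp c₁ c₂ c g d d₁ d₂ h1 h2 h3 := LinearMap.ext fun y => (M _).e.injective (by
    rw [LinearMap.comp_apply, e_mp, e_mp, e_mp, cmp Z (r.comp c₁ c₂ c g d d₁ d₂ h1 h2 h3)]
    rfl)
  id c φ d s x y h1 h2 h3 h4 hy := by
    obtain ⟨τ, k1, k2, k3⟩ := r.id c φ d s h1 h2 h3 h4
    refine (M _).e.injective ?_
    rw [e_mp, (htp Z k1).2.1]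
    exact (bs Z).idn τ (htp Z k1).1 k2 x _ (k3 ▸ ((M _).gr _ _ _).1 hy :)
  deg c d _ _ _ e g Y c₀ x h1 h2 h3 h4 :=
    let ⟨τ, k1, k2⟩ := r.deg c d e g Y c₀ x h1 h2 h3 h4
    (htp Z k1).2.2.trans (Z.dg_tp τ x k2)
  tn c d s _ _ _ e g Y h1 h2 h3 := by
    obtain ⟨τ, k1, k2, k3⟩ := r.tn c d e g Y h1 h2
    obtain ⟨n, hn⟩ := (bs Z).hi1 τ (htp Z k1).1 (r.qhs _) (r.qhs _) k2
    refine ⟨n, fun x hx y hy h => (M _).e.map_eq_zero_iff.1 (hn x hx _ ?_ ?_)⟩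
    · rw [k3, r.s c d s h3]
      exact ((M _).gr _ _ _).1 hy
    · rw [← (htp Z k1).2.1]
      exact (mp_zero _ _).1 h
  tp c d e h1 h2 := by
    obtain ⟨τ, k1, k2⟩ := r.tp c d e h1 h2
    obtain ⟨n, hn⟩ := (bs Z).hi0 τ k2
    refine ⟨n, fun s x hx y hy => (mp_zero _ _).2 ?_⟩
    rw [(htp Z k1).2.1]
    by_cases k : r.lab _ s = T.s τ
    · exact hn x hx _ (k ▸ ((M _).gr _ _ _).1 hy :)
    · exact off _ k hy
  psc i h := ⟨_, pur (M i) (r.psc i h) _⟩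
  s3 := by
    have := pur (M S.i0) (r.psc _ ⟨S.s0⟩) (r.lab _)
    simpa only [(M _).w, Z.sph _ r.sph] using this
  bu c c' _ _ _ _ _ _ _ _ _ hv hv' f g ρ ρ' d d' d₀ h1 h2 h3 h4 h5 h6 h7 h8 := by
    obtain ⟨u, σ, σ', p, p', L, Q, Q', k1, k2, k3, k4, k5, k6, k7, k8⟩ :=
      r.bu c c' hv hv' f g ρ ρ' d d' d₀ h1 h2 h3 h4 h5 h6 h7
    rw [mp, mp, (htp Z k1).2.1, (htp Z k2).2.1, (bs Z).bu σ σ' p p' L Q Q' (htp Z k1).1
      (htp Z k2).1 k3 k5 k6 (nz Z k7) (nz Z k8) (by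
        linarith [dg_cap Z k5 k4, dg_cap Z k6 k4, (htp Z k1).2.2, (htp Z k2).2.2])]
  triad c₁ c₂ c₃ _ _ _ _ f g h h1 h2 h3 h4 :=
    let ⟨A, B, C, D0, D1, D2, N, P, P', k1, k2, k3, k4, k5⟩ := r.triad c₁ c₂ c₃ f g h h1 h2 h3 h4
    exact_mp _ _ _ k1 k2 (Alg43.triStmt T Z _ _ _ A B C D0 D1 D2 N P P' (has Z k3) k4 k5)
  natc c c' φ d d' h1 h2 h3 := by
    obtain ⟨h, h', k⟩ := r.natc c c' φ d d' h1 h2 h3
    rw [xi_eq r M y₀ c d h, xi_eq r M y₀ c' d' h', (htp Z k).2.1]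
  compc c₁ c₂ c g d d₁ d₂ h1 h2 h3 h4 h5 := (M _).e.injective (by
    rw [e_mp, xi_eq r M y₀ c d h5, xi_eq r M y₀ c₁ d₁ h4, LinearEquiv.apply_symm_apply,
      LinearEquiv.apply_symm_apply, cmp Z (r.compc c₁ c₂ c g d d₁ d₂ h1 h2 h3 h4 h5)]
    rfl)
  bnd c e he := by
    obtain ⟨β, hβ, D, h⟩ := r.bnd c e he
    choose b hb using fun e' => (bs Z).bnd T.one (r.ob _) β e' y₀
    obtain ⟨R, hR⟩ := h (∑ e' ∈ D, |b e'|)
    refine ⟨R, fun d c₀ h1 h2 h3 => hR d h1 c₀ h3 fun e' k => (hb e' _ _ fun k' => h2 ?_).trans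
      ((le_abs_self _).trans (Finset.single_le_sum (f := fun e' => |b e'|)
        (fun _ _ => abs_nonneg _) k))⟩
    rw [xi_eq r M y₀ c d h1, k', map_zero]

theorem nv (h0 : y₀ ≠ 0) {Q : Prd} {R : ℝ} {P : Pent S Q R} (h : r.NV P) : (th r M y₀).NV P := by
  obtain ⟨A, B, C, D0, D1, N, Pn, k1, k2, ⟨i, τ, k3, k4⟩, k5, k6⟩ := h
  intro hU
  by_contra hn
  refine h0 (Alg43.pentStmt T Z _ _ A B C D0 D1 N Pn (has Z k1) k2 ⟨i, fun e => h0 ?_⟩
    (fun y => ?_) y₀ ?_)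
  · rw [(htp Z k3).2.1, (bs Z).ex1 τ (htp Z k3).1 k4] at e
    exact LinearMap.congr_fun e y₀
  · simp only [Cs.tot, kil (M P.j) hU (k5 _), LinearMap.zero_apply, finsum_zero]
  · refine finsum_eq_zero_of_forall_eq_zero fun k => ?_
    obtain ⟨D, h, p, q⟩ := k6 k
    rw [← (htp Z q).2.1, ← (M P.i).e.symm.map_eq_zero_iff, ← xi_eq r M y₀ P.C D h]
    exact by_contra fun e => hn ⟨D, p, e⟩

theorem asm : AsmStmt.{v} := fun _ _ r ⟨Z⟩ =>
  let ⟨y, hy⟩ := exists_one Z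
  ⟨th r (fun i => (exists_md Z (r.U i) (r.qhs i)).some) y, fun _ _ _ h => nv r _ y hy h⟩

end Crest.Agent.X212.Asm22
end
end

-- ▼ part X212/Sw88/Kil
section

/-!
# Row 212, layer AN-S (helper88): a map that commutes with `U` and vanishes in high degree is
killed by a power of `U`
-/

set_option autoImplicit false

open Function

namespace Crest.Agent.X212.Sw88
open Win22
open Bor5 (K)

theorem U_pow_mem {L : Type} (X : Hf L) (k : ℕ) {s : L} {x : ℚ} {y : X.H} (hy : y ∈ X.gr s x) :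
    (X.U ^ k) y ∈ X.gr s (x - 2 * k) := by
  induction k with
  | zero => simpa using hy
  | succ k ih =>
    rw [pow_succ', Module.End.mul_apply, show x - 2 * ((k + 1 : ℕ) : ℚ) = x - 2 * k - 2 by
      push_cast; ring]
    exact X.U_mem _ _ _ ih

theorem kil_pow {L V : Type} [AddCommGroup V] [Module K V] (X : Hf L) (f : X.H →ₗ[K] V)
    (U' : V →ₗ[K] V) (hU : ∀ y, f (X.U y) = U' (f y)) (s : L)
    (off : ∀ s' x, s' ≠ s → ∀ y ∈ X.gr s' x, f y = 0) (n : ℚ)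
    (hi : ∀ x, n ≤ x → ∀ y ∈ X.gr s x, f y = 0) : ∃ k : ℕ, ∀ y, f ((X.U ^ k) y) = 0 := by
  have hc : ∀ (k : ℕ) y, f ((X.U ^ k) y) = (U' ^ k) (f y) := fun k => by
    induction k with
    | zero => exact fun _ => rfl
    | succ k ih => intro y; rw [pow_succ', pow_succ', Module.End.mul_apply, hU, ih]; rfl
  obtain ⟨k, hk⟩ := exists_nat_ge ((n - X.w s) / 2)
  refine ⟨k, fun y => ?_⟩
  have hy : y ∈ ⨆ z : L × ℚ, X.gr z.1 z.2 := X.top ▸ Submodule.mem_top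
  induction hy using Submodule.iSup_induction' with
  | zero => rw [map_zero, map_zero]
  | add y z _ _ h1 h2 => rw [map_add, map_add, h1, h2, add_zero]
  | mem z y hy =>
    obtain ⟨s', x⟩ := z
    by_cases e : s' = s
    · subst e
      by_cases hx : n ≤ x
      · rw [hc, hi x hx y hy, map_zero]
      · have h0 : X.gr s' (x - 2 * k) = ⊥ := X.gr_lat fun ⟨j, hj⟩ => by
          have : (0 : ℚ) ≤ j := Nat.cast_nonneg j
          linarith [not_le.1 hx]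
        have := U_pow_mem X k hy
        rw [h0, Submodule.mem_bot] at this
        rw [this, map_zero]
    · rw [hc, off s' x e y hy, map_zero]

/-- the form for a submodule on which `U` is onto -/
theorem kil_on {L V : Type} [AddCommGroup V] [Module K V] (X : Hf L) (f : X.H →ₗ[K] V)
    (U' : V →ₗ[K] V) (hU : ∀ y, f (X.U y) = U' (f y)) (s : L)
    (off : ∀ s' x, s' ≠ s → ∀ y ∈ X.gr s' x, f y = 0) (n : ℚ)
    (hi : ∀ x, n ≤ x → ∀ y ∈ X.gr s x, f y = 0) (R : Set X.H)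
    (hR : ∀ y ∈ R, ∃ y' ∈ R, X.U y' = y) : ∀ y ∈ R, f y = 0 := by
  obtain ⟨k, hk⟩ := kil_pow X f U' hU s off n hi
  have : ∀ j : ℕ, ∀ y ∈ R, ∃ y' ∈ R, (X.U ^ j) y' = y := fun j => by
    induction j with
    | zero => exact fun y hy => ⟨y, hy, rfl⟩
    | succ j ih =>
      intro y hy
      obtain ⟨y₁, h1, rfl⟩ := ih y hy
      obtain ⟨y₂, h2, rfl⟩ := hR y₁ h1
      exact ⟨y₂, h2, by rw [pow_succ, Module.End.mul_apply]⟩
  intro y hy
  obtain ⟨y', -, rfl⟩ := this k y hy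
  exact hk y'

end Crest.Agent.X212.Sw88
end

-- ▼ part X212/Asm22/Two
section

/-!
# Row 212, layer AN-S (helper22): the theory on the ranges of the idempotents
-/

set_option autoImplicit false
set_option linter.unusedSectionVars false

open Set Filter Function Module

noncomputable section

universe v

namespace Crest.Agent.X212.Asm22

open Flo2 Win22 Bor5.T
open Bor5 (K)

section res

variable {L : Type} (X : Hf L)

theorem onto_U {s : L} {x : ℚ} (h1 : finrank K (X.gr s x) = 1) (h2 : finrank K (X.gr s (x + 2)) = 1)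
    (hi : ∀ y ∈ X.gr s (x + 2), X.U y = 0 → y = 0) : ∀ y ∈ X.gr s x, ∃ z, X.U z = y := fun y hy => by
  have := X.fd s x
  have := X.fd s (x + 2)
  let f : X.gr s (x + 2) →ₗ[K] X.gr s x :=
    X.U.restrict fun z hz => by simpa using X.U_mem s _ z hz
  obtain ⟨z, hz⟩ := (LinearMap.injective_iff_surjective_of_finrank_eq_finrank (f := f) (h2.trans h1.symm)).1
    ((injective_iff_map_eq_zero f).2 fun z e => Subtype.ext (hi _ z.2 (congrArg Subtype.val e))) ⟨y, hy⟩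
  exact ⟨z, congrArg Subtype.val hz⟩

variable (p : X.H →ₗ[K] X.H) (hg : ∀ s x, ∀ y ∈ X.gr s x, p y ∈ X.gr s x) (pp : ∀ y, p (p y) = p y)
  (hU : ∀ y, p (X.U y) = X.U y)

include hU in
theorem rk_res {s : L} {x : ℚ} (h1 : finrank K (X.gr s x) = 1) (h2 : finrank K (X.gr s (x + 2)) = 1)
    (hi : ∀ y ∈ X.gr s (x + 2), X.U y = 0 → y = 0) :
    finrank K ((X.gr s x).comap (p.eqLocus .id).subtype) = 1 :=
  (Submodule.comapSubtypeEquivOfLe fun y hy => by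
    obtain ⟨z, rfl⟩ := onto_U X h1 h2 hi y hy
    exact hU z).finrank_eq.trans h1

/-- the fixed points of a graded idempotent -/
@[reducible] def res : Hf L where
  H := p.eqLocus .id
  gr s x := (X.gr s x).comap (p.eqLocus .id).subtype
  ind i := Submodule.disjoint_def.2 fun y h1 h2 => Subtype.ext (Submodule.disjoint_def.1 (X.ind i) y h1
    ((iSup₂_le fun j hj => Submodule.comap_mono (le_iSup₂_of_le j hj le_rfl) :
      _ ≤ Submodule.comap (p.eqLocus .id).subtype _) h2))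
  top := eq_top_iff.2 fun y _ => by
    have : (⊤ : Submodule K X.H).map (p.codRestrict (p.eqLocus .id) pp) ≤
        ⨆ i : L × ℚ, (X.gr i.1 i.2).comap (p.eqLocus .id).subtype := by
      rw [← X.top, Submodule.map_iSup]
      exact iSup_mono fun i => Submodule.map_le_iff_le_comap.2 (hg _ _)
    exact this ⟨y, trivial, Subtype.ext y.2⟩
  fd s x := have := X.fd s x
    .of_injective ((p.eqLocus .id).subtype.restrict (q := X.gr s x) fun _ h => h)
      fun _ _ e => Subtype.ext (Subtype.ext (congrArg Subtype.val e :))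
  U := X.U.restrict fun y _ => hU y
  U_mem s x y h := X.U_mem s x y h
  w := X.w
  lat s x h := X.lat s x fun e => h (by rw [e, Submodule.comap_bot, Submodule.ker_subtype])
  N := X.N
  ev s k h1 h2 := ⟨rk_res X p hU (X.ev s k h1 h2).1 (by
      have := (X.ev s (k + 2) (by omega) (h2.add even_two)).1
      rwa [Nat.cast_add, ← add_assoc] at this) (X.ev s k h1 h2).2,
    fun y hy e => Subtype.ext ((X.ev s k h1 h2).2 y hy (congrArg Subtype.val e))⟩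
  od s k h1 h2 := by rw [X.od s k h1 h2, Submodule.comap_bot, Submodule.ker_subtype]

end res

section alg

variable {S : Sk.{v}} (Z : Cs S) {a b c : S.E}

theorem dg_cmp {τ : S.F a c} {τ₁ : S.F a b} {τ₂ : S.F b c} (h : S.Cmp τ τ₁ τ₂) :
    Z.dg τ = Z.dg τ₁ + Z.dg τ₂ := by
  obtain ⟨σ, ρ, ρ₁, ρ₂, h0, h1, h2, q⟩ := h
  have e1 := Z.dg_fc σ ρ (q.fc.symm.subset (by simp))
  have e2 := Z.dg_nk σ ⟨b, ρ₁, ρ₂⟩ (q.nk.symm.subset (by simp))
  linarith [(htp Z h0).2.2, (htp Z h1).2.2, (htp Z h2).2.2]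

theorem dg_e (E : S.ED a) (s : S.L a) : Z.dg (E.e s) = 0 := by linarith [dg_cmp Z (E.ee s)]

/-- the idempotent of an end -/
def ε [Fintype (S.L a)] (E : S.ED a) : Z.H a →ₗ[K] Z.H a := ∑ s, Z.hm (E.e s)

/-- `σ` lands in the fixed points of `e` -/
def Ot (e : Z.H b →ₗ[K] Z.H b) (σ : S.F a b) : Prop := ∀ y, e (Z.hm σ y) = Z.hm σ y

/-- `σ` factors through `e` -/
def It (e : Z.H a →ₗ[K] Z.H a) (σ : S.F a b) : Prop := ∀ y, Z.hm σ (e y) = Z.hm σ y

section eps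

variable {Z} {u : S.UD a} [Fintype (S.L a)] (E : S.ED a)

theorem e_mem {s : S.L a} {x : ℚ} {y : Z.H a} (h : y ∈ (Z.cx a).gr s x) :
    Z.hm (E.e s) y ∈ (Z.cx a).gr s x := by
  have := (bs Z).mem (E.e s) x y (by rwa [E.s])
  rwa [E.t, dg_e, add_zero] at this

theorem e_off {s s' : S.L a} (e : s ≠ s') {x : ℚ} {y : Z.H a} (h : y ∈ (Z.cx a).gr s x) :
    Z.hm (E.e s') y = 0 := (bs Z).off _ s x (by rwa [E.s]) y h

theorem e_e (s : S.L a) (y : Z.H a) : Z.hm (E.e s) (Z.hm (E.e s) y) = Z.hm (E.e s) y :=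
  (LinearMap.congr_fun (cmp Z (E.ee s)) y).symm

theorem ε_gr {s : S.L a} {x : ℚ} {y : Z.H a} (h : y ∈ (Z.cx a).gr s x) : ε Z E y = Z.hm (E.e s) y := by
  rw [ε, LinearMap.sum_apply]
  exact Finset.sum_eq_single s (fun _ _ e => e_off E e.symm h) (by simp)

variable (M : Md Z u)
include M

theorem ext_Z {V : Type} [AddCommGroup V] [Module K V] {f g : Z.H a →ₗ[K] V}
    (h : ∀ s x, ∀ y ∈ (Z.cx a).gr s x, f y = g y) (y : Z.H a) : f y = g y := by
  obtain ⟨y, rfl⟩ := M.e.surjective y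
  exact ext_gr M.X (f := f ∘ₗ M.e.toLinearMap) (g := g ∘ₗ M.e.toLinearMap)
    (fun s x y hy => h s x _ ((M.gr _ _ _).1 hy)) y

theorem ot_e (s : S.L a) : Ot Z (ε Z E) (E.e s) :=
  ext_Z M (f := ε Z E ∘ₗ Z.hm (E.e s)) fun s' x y hy => by
    rw [LinearMap.comp_apply]
    by_cases e : s' = s
    · rw [ε_gr E (e_mem E (e ▸ hy)), e_e]
    · rw [e_off E e hy, map_zero]

theorem it_e (s : S.L a) : It Z (ε Z E) (E.e s) :=
  ext_Z M (f := Z.hm (E.e s) ∘ₗ ε Z E) fun s' x y hy => by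
    rw [LinearMap.comp_apply, ε_gr E hy]
    by_cases e : s' = s
    · rw [e, e_e]
    · rw [e_off E e hy, e_off E e (e_mem E hy)]

theorem ot {τ : S.F b a} (h : E.Out τ) : Ot Z (ε Z E) τ := fun y => by
  rw [cmp Z h]
  exact ot_e E M _ _

theorem it {τ : S.F a b} (h : E.In τ) : It Z (ε Z E) τ := fun y => by
  rw [cmp Z h]
  exact congrArg (Z.hm τ) (it_e E M _ _)

theorem εε (y : Z.H a) : ε Z E (ε Z E y) = ε Z E y := by
  conv_lhs => rw [show ε Z E y = _ from LinearMap.sum_apply _ _ _, map_sum]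
  simp only [ot_e E M _ y]
  exact (LinearMap.sum_apply _ _ _).symm

end eps

/-- a model of the fixed points of `ε` -/
structure M2 (u : S.UD a) (ε : Z.H a →ₗ[K] Z.H a) : Type 1 where
  X : Hf (S.L a)
  e : X.H →ₗ[K] Z.H a
  p : Z.H a →ₗ[K] X.H
  ep : ∀ y, e (p y) = ε y
  pe : ∀ y, p (e y) = y
  εε : ∀ y, ε (ε y) = ε y
  gr : ∀ c x y, y ∈ X.gr c x ↔ e y ∈ (Z.cx a).gr c x
  U : ∀ c x, ∀ y ∈ X.gr c x, e (X.U y) = Z.hm (u.U c) (e y)
  w : X.w = (Z.A a).w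
  psc : S.psc a → ∀ c (k : ℕ), finrank K (X.gr c (X.w c + 2 * k)) = 1 ∧
    X.gr c (X.w c + (2 * k + 1)) = ⊥ ∧ ∀ y ∈ X.gr c (X.w c + 2 * k + 2), X.U y = 0 → y = 0

variable {Z} {u : S.UD a} {u' : S.UD b} {u'' : S.UD c}

theorem exists_m2 [Fintype (S.L a)] (E : S.ED a) (M : Md Z u) (h : ∀ s, E.Out (u.U s)) :
    Nonempty (M2 Z u (ε Z E)) := by
  let q : M.X.H →ₗ[K] M.X.H := M.e.symm.toLinearMap ∘ₗ ε Z E ∘ₗ M.e.toLinearMap
  have eq : ∀ y, M.e (q y) = ε Z E (M.e y) := fun y => M.e.apply_symm_apply _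
  have pp : ∀ y, q (q y) = q y := fun y => M.e.injective (by rw [eq, eq, εε E M])
  have hU : ∀ y, q (M.X.U y) = M.X.U y := ext_gr M.X (f := q ∘ₗ M.X.U) fun s x y hy =>
    M.e.injective (by rw [LinearMap.comp_apply, eq, M.U s x y hy, ot E M (h s)])
  refine ⟨⟨res M.X q (fun s x y hy => ?_) pp hU, M.e.toLinearMap ∘ₗ Submodule.subtype _,
    q.codRestrict _ pp ∘ₗ M.e.symm.toLinearMap, fun y => (eq _).trans (congrArg _ (M.e.apply_symm_apply y)),
    fun y => Subtype.ext ((congrArg q (M.e.symm_apply_apply _)).trans y.2), εε E M, fun _ _ _ => M.gr _ _ _,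
    fun s x y hy => M.U s x y hy, M.w, fun k s n => ⟨rk_res M.X q hU (M.psc k s n).1 ?_ (M.psc k s n).2.2, ?_,
      fun y hy e => Subtype.ext ((M.psc k s n).2.2 y hy (congrArg Subtype.val e))⟩⟩⟩
  · rw [M.gr] at hy ⊢
    rw [eq, ε_gr E hy]
    exact e_mem E hy
  · have := (M.psc k s (n + 1)).1
    rwa [Nat.cast_succ, mul_add, mul_one, ← add_assoc] at this
  · show Submodule.comap _ _ = _
    rw [(M.psc k s n).2.1, Submodule.comap_bot, Submodule.ker_subtype]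

/-- the model of the whole space -/
def Md.m2 (M : Md Z u) : M2 Z u .id :=
  ⟨M.X, M.e.toLinearMap, M.e.symm.toLinearMap, M.e.apply_symm_apply, M.e.symm_apply_apply,
    fun _ => rfl, M.gr, M.U, M.w, M.psc⟩

namespace M2

variable {ε : Z.H a →ₗ[K] Z.H a} {ε' : Z.H b →ₗ[K] Z.H b} {ε'' : Z.H c →ₗ[K] Z.H c} (M : M2 Z u ε)
  (M' : M2 Z u' ε')

theorem inj : Injective M.e := LeftInverse.injective M.pe

theorem εe (y : M.X.H) : ε (M.e y) = M.e y := by rw [← M.ep, M.pe]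

/-- the map of a family on the models -/
def mp (σ : S.F a b) : M.X.H →ₗ[K] M'.X.H := M'.p ∘ₗ Z.hm σ ∘ₗ M.e

variable {σ τ : S.F a b}

theorem e_mp (ho : Ot Z ε' σ) (y : M.X.H) : M'.e (mp M M' σ y) = Z.hm σ (M.e y) := (M'.ep _).trans (ho _)

theorem mp_of {y : M.X.H} (h : Z.hm σ (M.e y) = 0) : mp M M' σ y = 0 := (congrArg M'.p h).trans (map_zero _)

theorem mp_mem (ho : Ot Z ε' σ) {x : ℚ} {y : M.X.H} (h : y ∈ M.X.gr (S.s σ) x) :
    mp M M' σ y ∈ M'.X.gr (S.t σ) (x + Z.dg σ) := by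
  rw [M'.gr, e_mp M M' ho]
  exact (bs Z).mem σ x _ ((M.gr _ _ _).1 h)

theorem off {s : S.L a} (hs : s ≠ S.s σ) {x : ℚ} {y : M.X.H} (h : y ∈ M.X.gr s x) :
    Z.hm σ (M.e y) = 0 := (bs Z).off σ s x hs _ ((M.gr _ _ _).1 h)

theorem hm_U (h : S.Cmp τ (u.U (S.s σ)) σ) {s : S.L a} {x : ℚ} {y : M.X.H}
    (hy : y ∈ M.X.gr s x) (e : s = S.s σ) : Z.hm σ (M.e (M.X.U y)) = Z.hm τ (M.e y) := by
  rw [M.U _ _ y hy, cmp Z h, e]
  rfl

theorem mp_U (ho : Ot Z ε' σ) (h : S.Cmp τ (u.U (S.s σ)) σ) (h' : S.Cmp τ σ (u'.U (S.t σ)))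
    (y : M.X.H) : mp M M' σ (M.X.U y) = M'.X.U (mp M M' σ y) := by
  refine ext_gr M.X (f := mp M M' σ ∘ₗ M.X.U) (g := M'.X.U ∘ₗ mp M M' σ) (fun s x y hy => ?_) y
  simp only [LinearMap.comp_apply]
  by_cases e : s = S.s σ
  · refine M'.inj ?_
    rw [e_mp M M' ho, hm_U M h hy e, M'.U _ _ _ (mp_mem M M' ho (e ▸ hy)), e_mp M M' ho, cmp Z h']
    rfl
  · rw [mp_of M M' (off M e hy), mp_of M M' (off M e (M.X.U_mem _ _ _ hy)), map_zero]

include M' in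
theorem kil (hU : Surjective M.X.U) (h1 : ∀ y, ε' y = y) {ρ : S.F a c} (h : Sk.Kil2 u u' ρ)
    (y : M.X.H) : Z.hm ρ (M.e y) = 0 := by
  obtain ⟨σ₁, τ, τ₀, σ₂, k1, k2, k3, k4, k5⟩ := h
  obtain ⟨n, hn⟩ := (bs Z).hi0 τ₀ k5
  have ho : Ot Z ε' σ₁ := fun _ => h1 _
  have := Sw88.kil_on M.X (mp M M' σ₁) M'.X.U (mp_U M M' ho k2 k3) (S.s σ₁)
    (fun s x e y hy => mp_of M M' (off M e hy)) n (fun x hx y hy => mp_of M M' (by
      rw [(htp Z k4).2.1]
      by_cases e : S.s σ₁ = S.s τ₀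
      · exact hn x hx _ (e ▸ (M.gr _ _ _).1 hy :)
      · exact off M e hy)) univ (fun y _ => (hU y).imp fun _ e => ⟨trivial, e⟩) y trivial
  rw [cmp Z k1, LinearMap.comp_apply, ← e_mp M M' ho, this, map_zero, map_zero]

theorem pur (h : S.psc a) {L : Type} (e : L ≃ S.L a) : Pur (rl M.X e) fun s => M.X.w (e s) := by
  refine ⟨fun s k => ⟨(M.psc h _ k).1, (M.psc h _ k).2.2⟩, fun s x hx => by_contra fun k => ?_⟩
  obtain ⟨n, rfl⟩ := M.X.lat _ x k
  rcases Nat.even_or_odd' n with ⟨n, rfl | rfl⟩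
  · exact hx ⟨n, by push_cast; rfl⟩
  · exact k (by push_cast; exact (M.psc h _ n).2.1)

variable {f : S.Arr a b} {g : S.Arr b c} {L L' : Type} {p : L → S.F a b} {q : L' → S.F b c}

theorem sum_mp (hf : f.Rp p) (ho : ∀ d, Ot Z ε' (p d)) (y : M.X.H) :
    M'.e (∑ᶠ d, mp M M' (p d) y) = Z.tot f (M.e y) := by
  rw [tot_rp Z hf]
  exact (M'.e.toAddMonoidHom.map_finsum_of_injective M'.inj _).trans
    (finsum_congr fun d => e_mp M M' (ho d) y)

theorem tot_it (hf : f.Rp p) (hi : ∀ d, It Z ε (p d)) (y : Z.H a) : Z.tot f (ε y) = Z.tot f y := by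
  rw [tot_rp Z hf, tot_rp Z hf]
  exact finsum_congr fun d => hi d y

theorem tot_ot (hf : f.Rp p) (ho : ∀ d, Ot Z ε' (p d)) (y : Z.H a) : ε' (Z.tot f y) = Z.tot f y := by
  obtain ⟨e, h⟩ := hf
  refine (ε'.toAddMonoidHom.map_finsum ((bs Z).fin f y)).trans (finsum_congr fun i => ?_)
  obtain ⟨d, rfl⟩ := e.surjective i
  rw [← (htp Z (h d)).2.1]
  exact ho d y

theorem exact_mp (M'' : M2 Z u'' ε'') (hf : f.Rp p) (hg : g.Rp q) (hi : ∀ d, It Z ε (p d))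
    (ho : ∀ d, Ot Z ε' (p d)) (ho' : ∀ d, Ot Z ε'' (q d))
    (h : (∀ x, Z.tot g (Z.tot f x) = 0) ∧ ∀ y, Z.tot g y = 0 → ∃ x, Z.tot f x = ε' y) :
    Exact (fun y => ∑ᶠ d, mp M M' (p d) y) fun y => ∑ᶠ d, mp M' M'' (q d) y := fun y => by
  rw [← map_eq_zero_iff M''.e M''.inj, sum_mp M' M'' hg ho']
  refine ⟨fun k => ?_, fun ⟨x, e⟩ => by rw [← e, sum_mp M M' hf ho, h.1]⟩
  obtain ⟨x, e⟩ := h.2 _ k
  exact ⟨M.p x, M'.inj (by rw [sum_mp M M' hf ho, M.ep, tot_it hf hi, e, εe])⟩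

end M2

open Alg43 WG in
theorem dbl_zero {f : S.Arr a b} {g : S.Arr b c} (D : Sk.Dbl f g) (x : Z.H a) : Z.tot g (Z.tot f x) = 0 := by
  rw [ach_hm, ach_hm]
  obtain ⟨x, hx, rfl⟩ := (Z.cx a).cx.exists_cls x
  obtain ⟨xs, -, r, -⟩ := exists_rp x
  refine ((Z.cx c).cx.cls_eq_zero ((ach Z g).isCh.cyc ((ach Z f).isCh.cyc hx))).2 ⟨(wm _ (bd_nul D)).lim x, ?_⟩
  have := (((Z.cx c).dM.rp ((wm _ (bd_nul D)).rp r)).add ((wm _ (bd_nul D)).rp ((Z.cx a).dM.rp r))).ext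
    ((ach Z g).rp ((ach Z f).rp r)) (r.loc (nul_loc Z D))
  rwa [show (Z.cx a).dM.lim x = 0 from hx, map_zero, add_zero] at this

theorem has2 (hG : Good2Stmt.{v}) {N : S.Cap} (h : N.Has2) : Z.Good N :=
  let ⟨_, _, _, f, g, k, D0, D1, T, P, h⟩ := h
  hG S Z _ _ _ f g k D0 D1 N T P h

end alg

open M2

variable (hG : Good2Stmt.{v}) (hT : Tri2Stmt.{v}) {S : Scene} {T : Sk.{v}} (r : Rl2 S T) {Z : Cs T}
  [∀ i, Fintype (T.L (r.ob i))] (M₀ : ∀ i, Md Z (r.U i)) (M : ∀ i, M2 Z (r.U i) (ε Z (r.E i)))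
  (y₀ : Z.H T.one)

open Classical in
/-- the class of a cap -/
def xi2 {i : S.ι} (c : S.γ i) (d : (S.cap c).L) : (M i).X.H :=
  if h : (S.cap c).Ps d (S.cap c).η then (M i).p (Z.hm (r.cp c d h) y₀) else 0

theorem xi2_eq {i : S.ι} (c : S.γ i) (d : (S.cap c).L) (h : (S.cap c).Ps d (S.cap c).η) :
    xi2 r M y₀ c d = (M i).p (Z.hm (r.cp c d h) y₀) := dif_pos h

include M₀ in
theorem e_xi2 {i : S.ι} (c : S.γ i) (d : (S.cap c).L) (h : (S.cap c).Ps d (S.cap c).η) :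
    (M i).e (xi2 r M y₀ c d) = Z.hm (r.cp c d h) y₀ := by
  rw [xi2_eq r M y₀ c d h, (M i).ep, ot _ (M₀ i) (r.ecp c d h)]

include M₀ in
theorem opt {i j : S.ι} (c : S.κ i j) (d : (S.cob c).L) : Ot Z (ε Z (r.E j)) (r.pt c d) :=
  ot _ (M₀ j) (r.ept c d).2

include M₀ in
theorem ipt {i j : S.ι} (c : S.κ i j) (d : (S.cob c).L) : It Z (ε Z (r.E i)) (r.pt c d) :=
  it _ (M₀ i) (r.ept c d).1

/-- the theory -/
def th2 : Th S where
  H i := rl (M i).X (r.lab i)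
  F c d := M2.mp (M _) (M _) (r.pt c d)
  dg c d := Z.dg (r.pt c d)
  ξ := xi2 r M y₀
  map c d s t x y h1 h2 hy := by
    have := M2.mp_mem (M _) (M _) (opt r M₀ c d) (x := x) (y := y) (by rw [r.s c d s h1]; exact hy)
    rwa [r.t c d t h2] at this
  off c d s s' x y h1 h2 hy := mp_of _ _
    (M2.off _ (fun e => h2 ((r.lab _).injective (e.trans (r.s c d s h1)))) hy)
  U c d y := let ⟨_, h1, h2⟩ := r.comU c d; M2.mp_U _ _ (opt r M₀ c d) h1 h2 y
  fin c y := ((bs Z).fin ⟨_, r.pt c, r.isPt c, r.prp c⟩ ((M _).e y)).subset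
    fun _ h k => h (mp_of _ _ k)
  nat c c' φ d d' h1 h2 h3 := by rw [M2.mp, (htp Z (r.nat c c' φ d d' h1 h2 h3)).2.1, M2.mp]
  comp c₁ c₂ c g d d₁ d₂ h1 h2 h3 := LinearMap.ext fun y => (M _).inj (by
    rw [LinearMap.comp_apply, M2.e_mp _ _ (opt r M₀ _ _), M2.e_mp _ _ (opt r M₀ _ _),
      M2.e_mp _ _ (opt r M₀ _ _), cmp Z (r.comp c₁ c₂ c g d d₁ d₂ h1 h2 h3)]
    rfl)
  id c φ d s x y h1 h2 h3 h4 hy := (M _).inj (by
    rw [M2.e_mp _ _ (opt r M₀ _ _), (htp Z (r.id c φ d s h1 h2 h3 h4)).2.1,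
      ← ε_gr _ (((M _).gr _ _ _).1 hy), εe])
  deg c d _ _ _ e g Y c₀ x h1 h2 h3 h4 :=
    let ⟨τ, k1, k2⟩ := r.deg c d e g Y c₀ x h1 h2 h3 h4
    (htp Z k1).2.2.trans (Z.dg_tp τ x k2)
  tn c d s _ _ _ e g Y h1 h2 h3 := by
    obtain ⟨τ, k1, k2, k3⟩ := r.tn c d e g Y h1 h2
    obtain ⟨n, hn⟩ := (bs Z).hi1 τ (htp Z k1).1 (r.qhs _) (r.qhs _) k2
    refine ⟨n, fun x hx y hy h => (map_eq_zero_iff _ (M _).inj).1 (hn x hx _ ?_ ?_)⟩
    · rw [k3, r.s c d s h3]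
      exact ((M _).gr _ _ _).1 hy
    · rw [← (htp Z k1).2.1, ← M2.e_mp _ _ (opt r M₀ c d), h, map_zero]
  tp c d e h1 h2 := by
    obtain ⟨τ, k1, k2⟩ := r.tp c d e h1 h2
    obtain ⟨n, hn⟩ := (bs Z).hi0 τ k2
    refine ⟨n, fun s x hx y hy => mp_of _ _ ?_⟩
    rw [(htp Z k1).2.1]
    by_cases k : r.lab _ s = T.s τ
    · exact hn x hx _ (k ▸ ((M _).gr _ _ _).1 hy :)
    · exact M2.off _ k hy
  psc i h := ⟨_, M2.pur (M i) (r.psc i h) _⟩
  s3 := by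
    have := M2.pur (M S.i0) (r.psc _ ⟨S.s0⟩) (r.lab _)
    simpa only [(M _).w, Z.sph _ r.sph] using this
  bu c c' _ _ _ _ _ _ _ _ _ hv hv' f g ρ ρ' d d' d₀ h1 h2 h3 h4 h5 h6 h7 h8 := by
    obtain ⟨u, σ, σ', p, p', L, Q, Q', k1, k2, k3, k4, k5, k6, k7, k8⟩ :=
      r.bu c c' hv hv' f g ρ ρ' d d' d₀ h1 h2 h3 h4 h5 h6 h7
    rw [M2.mp, M2.mp, (htp Z k1).2.1, (htp Z k2).2.1, (bs Z).bu σ σ' p p' L Q Q' (htp Z k1).1
      (htp Z k2).1 k3 k5 k6 (nz Z k7) (nz Z k8) (by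
        linarith [dg_cap Z k5 k4, dg_cap Z k6 k4, (htp Z k1).2.2, (htp Z k2).2.2])]
  triad c₁ c₂ c₃ _ _ _ _ f g h h1 h2 h3 h4 :=
    let ⟨⟨A0, B0, D0, k5, k6⟩, A, B, C, D1, D2, N, P, k1, k2, k3, k4⟩ := r.triad c₁ c₂ c₃ f g h h1 h2 h3 h4
    have k7 : ∀ x, Z.tot B (Z.tot A x) = 0 := fun x => by
      rw [tot_rp Z k1, tot_rp Z k2, ← tot_rp Z k5, ← tot_rp Z k6, dbl_zero D0]
    M2.exact_mp _ _ _ k1 k2 (ipt r M₀ c₁) (opt r M₀ c₁) (opt r M₀ c₂)
      ⟨k7, hT T Z _ _ _ A B C D1 D2 N P _ (has2 hG k3) (fun i => (htp Z (k4.htp i)).2.2.trans (dg_e Z _ _))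
        (fun y => (LinearMap.sum_apply _ _ _).trans (Fintype.sum_bijective _ k4.bij _ _ fun i => by
          rw [(htp Z (k4.htp i)).2.1]).symm) (M _).εε (tot_ot k1 (opt r M₀ c₁)) (tot_it k2 (ipt r M₀ c₂)) k7⟩
  natc c c' φ d d' h1 h2 h3 := by
    obtain ⟨h, h', k⟩ := r.natc c c' φ d d' h1 h2 h3
    rw [xi2_eq r M y₀ c d h, xi2_eq r M y₀ c' d' h', (htp Z k).2.1]
  compc c₁ c₂ c g d d₁ d₂ h1 h2 h3 h4 h5 := (M _).inj (by
    rw [M2.e_mp _ _ (opt r M₀ _ _), e_xi2 r M₀ M y₀ c d h5, e_xi2 r M₀ M y₀ c₁ d₁ h4,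
      cmp Z (r.compc c₁ c₂ c g d d₁ d₂ h1 h2 h3 h4 h5)]
    rfl)
  bnd c e he := by
    obtain ⟨β, hβ, D, h⟩ := r.bnd c e he
    choose b hb using fun e' => (bs Z).bnd T.one (r.ob _) β e' y₀
    obtain ⟨R, hR⟩ := h (∑ e' ∈ D, |b e'|)
    refine ⟨R, fun d c₀ h1 h2 h3 => hR d h1 c₀ h3 fun e' k => (hb e' _ _ fun k' => h2 ?_).trans
      ((le_abs_self _).trans (Finset.single_le_sum (f := fun e' => |b e'|)
        (fun _ _ => abs_nonneg _) k))⟩
    rw [xi2_eq r M y₀ c d h1, k', map_zero]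

theorem nv2 (hP : Pent2Stmt.{v}) (h0 : y₀ ≠ 0) {Q : Prd} {R : ℝ} {P : Pent S Q R} (h : r.NV P) :
    (th2 hG hT r M₀ M y₀).NV P := by
  obtain ⟨A, B, C, D0, D1, N, U, Pn, k1, k2, ⟨i, τ, k3, k4⟩, k5, k6⟩ := h
  intro hU
  by_contra hn
  refine h0 (hP T Z _ _ A B C D0 D1 N U Pn (has2 hG k1) k2 ⟨i, fun e => h0 ?_⟩
    (fun k => LinearMap.ext fun y => ?_) y₀ fun k => ?_)
  · rw [(htp Z k3).2.1, (bs Z).ex1 τ (htp Z k3).1 k4] at e
    exact LinearMap.congr_fun e y₀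
  · rw [← it _ (M₀ _) (k5 k).2, ← (M P.j).ep,
      M2.kil (M P.j) (M₀ S.i0).m2 hU (fun _ => rfl) (k5 k).1, LinearMap.zero_apply]
  · obtain ⟨D, h, p, q⟩ := k6 k
    rw [← (htp Z q).2.1, ← e_xi2 r M₀ M y₀ P.C D h, map_eq_zero_iff _ (M _).inj]
    exact by_contra fun e => hn ⟨D, p, e⟩

include hG hT in
theorem asm2 (hP : Pent2Stmt.{v}) : Asm2Stmt.{v} := fun S T r ⟨Z⟩ => by
  obtain ⟨y, hy⟩ := exists_one Z
  have : ∀ i, Fintype (T.L (r.ob i)) := fun i =>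
    have := (S.ob i).fin
    have := Finite.of_equiv _ (r.lab i)
    .ofFinite _
  have M₀ := fun i => (exists_md Z (r.U i) (r.qhs i)).some
  exact ⟨th2 hG hT r M₀ (fun i => (exists_m2 (r.E i) (M₀ i) (r.eU i)).some) y,
    fun _ _ _ h => nv2 hG hT r M₀ _ y hP hy h⟩

end Crest.Agent.X212.Asm22
end
end

-- ▼ part X212/Tri19/Good
section

/-!
# Row 212, layer GEO (helper19): ALG-2', a model pentagon with high marks (after `Mcg32.good`)
-/

set_option autoImplicit false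

open Module Function Filter Finset

noncomputable section

namespace Crest.Agent.X212.Tri19

open Win22 Flo2 Mcg32
open Bor5 (K)

open Classical in
/-- ALG-2' -/
theorem good2Stmt : Good2Stmt := by
  rintro S Z a b c f g h D0 D1 N _ P ⟨Q⟩
  have dL : ∀ n, Z.dg3 (P.Lc n) + Z.dg N.B = 0 := fun n => by
    obtain ⟨θ, rfl⟩ := P.β0.surjective n
    have h1 := Z.dg_cp (P.κ θ.1) θ.2 (by rw [P.c0 θ]; exact P.live)
    have h2 := Z.dg_fc (P.κ θ.1) (P.ι θ.1) (by simp [(P.bκ θ.1).1])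
    rw [P.c0 θ] at h1
    rw [Z.dg_tp _ _ (Q.tp θ.1)] at h2
    simp only at h1
    linarith
  obtain ⟨n⟩ := Q.ne
  refine ⟨fun k => ?_, fun k => ?_, ?_⟩
  · obtain ⟨θ, e⟩ := P.β1.surjective (n, k)
    have h1 := Z.dg_cp _ θ.1.2 θ.2
    have h2 := Z.dg_fc _ (P.Γ1 θ.1.1.1) ((P.bR1 θ.1.1.1).1.mem_iff.2 (by simp))
    obtain ⟨q, q0, hq⟩ := Q.tp1 θ.1.1.1 (by_contra fun h' => θ.2 ((Q.dd1 _ _).2 h'))
    rw [P.c1 θ, e] at h1
    rw [Z.dg_tp _ _ hq] at h2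
    simp only at h1
    linarith [dL n]
  · obtain ⟨θ, e⟩ := P.β2.surjective (n, k)
    have h1 := Z.dg_cp _ θ.1.2 θ.2
    have h2 := Z.dg_fc _ (P.Γ2 θ.1.1.1) ((P.bR2 θ.1.1.1).1.mem_iff.2 (by simp))
    obtain ⟨q, q0, hq⟩ := Q.tp2 θ.1.1.1 (by_contra fun h' => θ.2 ((Q.dd2 _ _).2 h'))
    rw [P.c2 θ, e] at h1
    rw [Z.dg_tp _ _ hq] at h2
    simp only at h1
    linarith [dL n]
  obtain ⟨n1, h1⟩ := side Z (half := fun k => D0.half (P.e0 k).1.1) (r := P.r1)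
    (fun k => P.e0.injective (Subtype.ext (by rw [P.er1, P.er1, D0.rr])))
    (fun k => by rw [P.er1, D0.hr]) Q.al1 P.bR1 P.β1 P.c1 Q.dd1 Q.tp1 Q.w1 (fun k o p q t s => (Q.n1 k o p q s).resolve_right
      fun ⟨_, h, t'⟩ => h.ne ((Z.dg_tp _ _ t').symm.trans (Z.dg_tp _ _ t)))
    P.prp.2.2.2.2.2.1 N.p1
  obtain ⟨n2, h2⟩ := side Z (half := fun k => D1.half (P.e1 k).1.2) (r := P.r2)
    (fun k => P.e1.injective (Subtype.ext (by rw [P.er2, P.er2, D1.rr])))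
    (fun k => by rw [P.er2, D1.hr]) Q.al2 P.bR2 P.β2 P.c2 Q.dd2 Q.tp2 Q.w2 (fun k o p q t s => (Q.n2 k o p q s).resolve_right
      fun ⟨_, h, t'⟩ => h.ne ((Z.dg_tp _ _ t').symm.trans (Z.dg_tp _ _ t)))
    P.prp.2.2.2.2.2.2.1 N.p2
  obtain ⟨T, hT⟩ := alive Z P.prp.2.2.2.2.2.2.2.2.2 0
  obtain ⟨i0, e0⟩ := Q.bij.2 Q.s0
  obtain ⟨n3, h3⟩ := Z.hi1 _ (Q.hi1 i0)
  obtain ⟨l, hl⟩ := exists_nat_ge (max (max n1 n2) n3 - (Z.A a).w Q.s0)
  set k0 := l + Z.N a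
  set y : ℚ := (Z.A a).w Q.s0 + (2 * k0 + 2 : ℕ) with hy
  have ly : max (max n1 n2) n3 ≤ y := by
    have : (l : ℚ) ≤ (2 * k0 + 2 : ℕ) := by exact_mod_cast (by omega)
    linarith
  simp only [max_le_iff] at ly
  choose D hD using fun i => mas0 Z (P.κ i) (P.bκ i).2 y
  set L0 := (univ.sigma D).map P.β0.toEmbedding with hL0
  filter_upwards [h1 y ly.1.1 L0 (-Z.dg N.B) T,
    h2 y ly.1.2 L0 (-Z.dg N.B) T, hT y, eventually_all.2 hD,
    h3 y ly.2,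
    Z.ev a Q.qhs Q.s0 (2 * k0 + 2) (by omega) ⟨k0 + 1, by ring⟩,
    Z.od a Q.qhs Q.s0 (2 * k0 + 1) (by omega) ⟨k0, rfl⟩,
    Z.od a Q.qhs Q.s0 (2 * k0 + 3) (by omega) ⟨k0 + 1, by ring⟩] with m a1 a2 a3 a4 a5 ⟨i, hi, hu⟩ o1 o2
  have iy : ((Z.A a).lab m i).2 ≤ y := by rw [hi]
  have hd : ∀ j, Z.d a m i j = 0 ∧ Z.d a m j i = 0 := fun j =>
    ⟨by_contra fun h0 => o1 j (by rw [Z.hom a m i j h0, hi, sh]; push_cast; congr 1; ring),
      by_contra fun h0 => o2 j (by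
        have := Z.hom a m j i h0
        rw [hi, sh, Prod.mk.injEq] at this
        refine Prod.ext this.1.symm ?_
        have := this.2
        push_cast at this ⊢
        linarith)⟩
  have hL : ∀ n ∉ L0, ∀ j, Z.z3 (P.Lc n) m i i j = 0 := fun n hn => by
    obtain ⟨θ, rfl⟩ := P.β0.surjective n
    have := (a4 θ.1 i iy hd).1 θ.2 fun h' => hn (mem_map_of_mem _ (mem_sigma.2 ⟨mem_univ _, h'⟩))
    rwa [P.c0 θ] at this
  have E : ∑ j, (∑ n ∈ L0, Z.z3 (P.Lc n) m i i j) * Z.z N.B m j (Z.pt m) = 1 := by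
    have e1 : ∑ i', (Z.z (P.ι i') m i i + ∑ c ∈ D i', capv Z (S.cp (P.κ i') c) m i i) = 0 :=
      sum_eq_zero fun i' _ => by simpa [(P.bκ i').1] using (a4 i' i iy hd).2
    have e2 : ∑ i', Z.z (P.ι i') m i i = 1 := by
      rw [sum_eq_single i0 (fun i' _ h' => ?_) fun h => absurd (mem_univ _) h]
      · obtain ⟨k, hk⟩ := a5 i (hi.trans (congrArg (·, y) e0.symm))
        have := (Z.hz _ m i k hk).2
        rw [Q.st, Z.dg_tp _ _ (Q.tp _), hi, add_zero, show S.s _ = _ from e0] at this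
        exact k_one (hu k this ▸ hk)
      · exact by_contra fun k => h' (Q.bij.1 ((Z.hz _ m i i k).1.symm.trans (by rw [hi]; exact e0.symm)))
    rw [sum_add_distrib, e2, sum_sigma', CharTwo.add_eq_zero] at e1
    rw [e1, hL0]
    simp only [sum_map, sum_mul]
    rw [sum_comm]
    refine sum_congr rfl fun θ _ => ?_
    rw [P.c0 θ]
    rfl
  obtain ⟨j0, -, hj0⟩ := exists_ne_zero_of_sum_ne_zero (E.trans_ne one_ne_zero)
  have dj : ((Z.A N.x).lab m j0).2 = -Z.dg N.B := by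
    have := congrArg Prod.snd (Z.hz _ m _ _ (right_ne_zero_of_mul hj0)).2
    rw [Z.pt_deg] at this
    simp only at this
    linarith
  have hj : ∀ n j, Z.z3 (P.Lc n) m i i j ≠ 0 → j = j0 := fun n j h0 =>
    Z.thin _ N.thin m _ _ (by linarith [(Z.hz3 _ m i i j h0).2.2.2, dL n])
  have hρ : ∀ k ∉ T, Z.z (P.ρ k) m i i = 0 := fun k hk => by_contra fun h0 =>
    h0 (a3 k hk i i (by simpa using (congrArg Prod.snd (Z.hz _ m i i h0).2).le) iy)
  have b1 := a1 i j0 hi hu hd hL hj dj hρ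
  have b2 := a2 i j0 hi hu hd hL hj dj hρ
  rw [k_one (left_ne_zero_of_mul hj0), one_mul] at b1 b2
  refine ⟨j0, k_one (right_ne_zero_of_mul hj0), ?_⟩
  have od : (Q.W1.card : K) + Q.W2.card = 1 := by
    obtain ⟨t, ht⟩ := Q.odd
    rw [← Nat.cast_add, ht]
    simp [CharTwo.two_eq_zero]
  rw [← CharTwo.add_eq_zero.1 b1, ← CharTwo.add_eq_zero.1 b2, add_add_add_comm, od,
    CharTwo.add_self_eq_zero, add_zero]

end Crest.Agent.X212.Tri19
end
end

-- ▼ part X212/Sub56/Main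
section

/-!
# Row 212, ALG-7 (helper56): a realisation uses countably many cells

`ev K` : the filter of the large countable parts of a skeleton.  Every notion that holds in `K.clo` holds in
`(K.cut A).clo` for large `A`.
-/

set_option autoImplicit false
set_option linter.unusedSectionVars false

open Set Function Filter

noncomputable section

universe u

namespace Crest.Agent.X212.Sub56

open Flo2 Flo2.Sk Bor5.T

theorem exists_clo {X : Type*} {g : X → Set X} (hg : ∀ x, (g x).Countable) {s : Set X} (hs : s.Countable) :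
    ∃ t, s ⊆ t ∧ t.Countable ∧ ∀ x ∈ t, g x ⊆ t := by
  let w : ℕ → Set X := fun n => Nat.rec s (fun _ t => ⋃ x ∈ t, g x) n
  refine ⟨⋃ n, w n, subset_iUnion w 0, countable_iUnion fun n => ?_, fun x hx y hy => ?_⟩
  · induction n with
    | zero => exact hs
    | succ n ih => exact ih.biUnion fun x _ => hg x
  · obtain ⟨n, hn⟩ := mem_iUnion.1 hx
    exact mem_iUnion.2 ⟨n + 1, mem_biUnion hn hy⟩

variable {K : Sk.{u}}

variable (K) in
/-- the large countable parts -/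
def ev : Filter K.Sub where
  sets := {s | ∃ (E : Set K.E) (F : Set (Σ a b, K.F a b)), E.Countable ∧ F.Countable ∧
    ∀ A : K.Sub, E ⊆ A.E → F ⊆ A.F → A ∈ s}
  univ_sets := ⟨∅, ∅, countable_empty, countable_empty, fun _ _ _ => trivial⟩
  sets_of_superset := fun ⟨E, F, a, b, c⟩ h => ⟨E, F, a, b, fun A x y => h (c A x y)⟩
  inter_sets := fun ⟨E, F, a, b, c⟩ ⟨E', F', a', b', c'⟩ => ⟨E ∪ E', F ∪ F', a.union a', b.union b',
    fun A x y => ⟨c A (subset_union_left.trans x) (subset_union_left.trans y),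
      c' A (subset_union_right.trans x) (subset_union_right.trans y)⟩⟩

instance : CountableInterFilter (ev K) := ⟨fun S hS h => by
  choose! E F a b c using h
  exact ⟨⋃ s ∈ S, E s, ⋃ s ∈ S, F s, hS.biUnion a, hS.biUnion b, fun A x y s hs =>
    c s hs A ((subset_biUnion_of_mem (u := E) hs).trans x) ((subset_biUnion_of_mem (u := F) hs).trans y)⟩⟩

theorem neBot (hC : ∀ a b (σ : K.F a b), Countable (K.C σ)) : (ev K).NeBot := by
  refine ⟨fun h => ?_⟩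
  obtain ⟨E, F, a, b, c⟩ : (∅ : Set K.Sub) ∈ ev K := h ▸ mem_bot
  obtain ⟨G, h1, h2, h3⟩ := exists_clo (g := fun σ : Σ a b, K.F a b =>
    ((fun τ => ⟨σ.1, σ.2.1, τ⟩) '' {τ | τ ∈ K.fc σ.2.2} ∪
      (fun p : Σ x, K.F σ.1 x × K.F x σ.2.1 => ⟨σ.1, p.1, p.2.1⟩) '' {p | p ∈ K.nk σ.2.2}) ∪
      ((fun p : Σ x, K.F σ.1 x × K.F x σ.2.1 => ⟨p.1, σ.2.1, p.2.2⟩) '' {p | p ∈ K.nk σ.2.2} ∪
        range fun c => ⟨(K.cp σ.2.2 c).1, K.one, (K.cp σ.2.2 c).2.2⟩))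
    (fun σ => (((List.finite_toSet _).countable.image _).union ((List.finite_toSet _).countable.image _)).union
      (((List.finite_toSet _).countable.image _).union (countable_range _))) b
  have k : ∀ a b σ, ⟨a, b, σ⟩ ∈ G → a ∈ insert K.one E ∪ (Sigma.fst '' G ∪ (fun σ => σ.2.1) '' G) ∧
      b ∈ insert K.one E ∪ (Sigma.fst '' G ∪ (fun σ => σ.2.1) '' G) := fun a b σ h =>
    ⟨.inr (.inl ⟨_, h, rfl⟩), .inr (.inr ⟨_, h, rfl⟩)⟩
  refine c ⟨insert K.one E ∪ (Sigma.fst '' G ∪ (fun σ => σ.2.1) '' G), G,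
    ⋃ σ ∈ G, range fun c => ⟨σ.1, σ.2.1, (K.cp σ.2.2 c).1, (K.cp σ.2.2 c).2.1⟩,
    (a.insert _).union ((h2.image _).union (h2.image _)), h2, h2.biUnion fun _ _ => countable_range _,
    .inl (.inl rfl), k, fun a b x σ h => ?_, fun a b σ h τ t => h3 _ h (.inl (.inl ⟨τ, t, rfl⟩)),
    fun a b σ h p t => ⟨h3 _ h (.inl (.inr ⟨p, t, rfl⟩)), h3 _ h (.inr (.inl ⟨p, t, rfl⟩))⟩,
    fun a b σ h c => ⟨mem_biUnion h ⟨c, rfl⟩, h3 _ h (.inr (.inr ⟨c, rfl⟩))⟩⟩ (fun x h => .inl (.inr h)) h1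
  obtain ⟨⟨a', b', σ'⟩, h4, c, e⟩ := mem_iUnion₂.1 h
  cases e
  exact ⟨(k _ _ _ h4).1, (k _ _ _ h4).2, (k _ _ _ (h3 _ h4 (.inr (.inr ⟨c, rfl⟩)))).1⟩

theorem ev_E (a : K.clo.E) : ∀ᶠ A in ev K, a ∈ A.E :=
  ⟨{a}, ∅, countable_singleton _, countable_empty, fun _ h _ => h rfl⟩

theorem ev_F {a b : K.clo.E} (σ : K.clo.F a b) : ∀ᶠ A in ev K, ⟨a, b, σ⟩ ∈ A.F :=
  ⟨∅, {_}, countable_empty, countable_singleton _, fun _ _ h => h rfl⟩

theorem ev_all {X : Sort*} [Countable X] {Φ : X → K.Sub → Prop} (h : ∀ x, ∀ᶠ A in ev K, Φ x A) :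
    ∀ᶠ A in ev K, ∀ x, Φ x A := eventually_countable_forall.2 h

theorem ev_imp {H : Prop} {Φ : K.Sub → Prop} (h : H → ∀ᶠ A in ev K, Φ A) : ∀ᶠ A in ev K, H → Φ A := ev_all h

theorem cnt {a b : K.clo.E} {I : Type} {f : I → K.clo.F a b} (h : K.clo.Prp f) : Countable I := by
  obtain ⟨β, h, D, k⟩ := h
  refine countable_univ_iff.1 ((countable_iUnion fun n : ℕ => (k n).countable).mono fun i _ => ?_)
  obtain ⟨n, hn⟩ := exists_nat_ge (∑ e ∈ D, |K.clo.prB (f i) (h i) e|)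
  exact mem_iUnion.2 ⟨n, fun e he =>
    (Finset.single_le_sum (f := fun e => |K.clo.prB (f i) (h i) e|) (fun _ _ => abs_nonneg _) he).trans hn⟩

section basic

variable {A : K.Sub} {a b c x : K.clo.E} {σ τ : K.clo.F a b} {l : List (K.F a b)}
  {n : List (Σ x, K.F a x × K.F x b)}

theorem fc_eq (h : ⟨a, b, σ⟩ ∈ A.F) : (K.cut A).fc σ = K.fc σ := if_pos h

theorem nk_eq (h : ⟨a, b, σ⟩ ∈ A.F) : (K.cut A).nk σ = K.nk σ := if_pos h

open Classical in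
theorem pt (h : K.clo.Pt σ) : (K.cut A).clo.Pt σ :=
  ⟨ite_eq_right_iff.2 fun _ => h.fc, ite_eq_right_iff.2 fun _ => h.nk, ⟨fun c => h.cp.elim c.1⟩⟩

theorem bd0 (k : ⟨a, b, σ⟩ ∈ A.F) (h : K.Bd σ l n) : (K.cut A).Bd σ l n :=
  ⟨(fc_eq k).symm ▸ h.fc, (nk_eq k).symm ▸ h.nk, ⟨fun c => h.cp.elim c.1⟩⟩

theorem bd (k : ⟨a, b, σ⟩ ∈ A.F) (h : K.clo.Bd σ l n) : (K.cut A).clo.Bd σ l n :=
  let ⟨p, q, r⟩ := bd0 k ⟨h.fc, h.nk, h.cp⟩; ⟨p, q, r⟩

theorem qhs (h : K.clo.qhs a) : ∀ᶠ A in ev K, (K.cut A).clo.qhs a := (ev_E a).mono fun _ k => ⟨k, h⟩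

theorem tp {r : ℚ} (h : K.clo.tp σ r) : ∀ᶠ A in ev K, (K.cut A).clo.tp σ r := (ev_F σ).mono fun _ k => ⟨k, h⟩

theorem idn {σ : K.clo.F a a} (h : K.clo.idn σ) : ∀ᶠ A in ev K, (K.cut A).clo.idn σ :=
  (ev_F σ).mono fun _ k => ⟨k, h⟩

theorem hi1 (h : K.clo.hi1 σ) : ∀ᶠ A in ev K, (K.cut A).clo.hi1 σ := by
  rcases h with h | ⟨h1, h2, ρ, τ, l, h3, h4, h5⟩
  · exact (ev_F σ).mono fun _ k => .inl ⟨k, h⟩
  · filter_upwards [ev_E a, ev_E b, ev_F ρ, ev_F τ] with A k1 k2 k3 k4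
    exact .inr ⟨⟨k1, h1⟩, ⟨k2, h2⟩, ρ, τ, l, bd0 k3 h3, ⟨k4, h4⟩, h5⟩

theorem hi0 (h : K.clo.hi0 σ) : ∀ᶠ A in ev K, (K.cut A).clo.hi0 σ := by
  rcases h with h | ⟨h1, h2, ρ, l, h3, h4⟩
  · exact .of_forall fun _ => .inl h
  · filter_upwards [ev_E a, ev_E b, ev_F ρ] with A k1 k2 k3
    exact .inr ⟨⟨k1, h1⟩, ⟨k2, h2⟩, ρ, l, bd0 k3 h3, h4⟩

theorem capI {L : K.F3 a b x} {Q : K.F x K.one} (h : K.clo.CapI σ τ L Q) :
    ∀ᶠ A in ev K, (K.cut A).clo.CapI σ τ L Q :=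
  let ⟨h1, h2, c, h3, h4⟩ := h
  (ev_F σ).mono fun _ k => ⟨(fc_eq k).trans h1, (nk_eq k).trans h2, ⟨c, k⟩, fun c' => Subtype.ext (h3 c'.1), h4⟩

theorem htp (h : K.clo.Htp σ τ) : ∀ᶠ A in ev K, (K.cut A).clo.Htp σ τ := by
  induction h with
  | refl h => exact .of_forall fun _ => .refl (pt h)
  | step ρ τ' τ'' _ h1 h2 ih =>
    filter_upwards [ih, ev_F ρ] with A k1 k2 using Htp.step (S := (K.cut A).clo) ρ τ' τ'' k1 (pt h1) (bd k2 h2)

theorem cmp {τ : K.clo.F a c} {τ₁ : K.clo.F a b} {τ₂ : K.clo.F b c} (h : K.clo.Cmp τ τ₁ τ₂) :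
    ∀ᶠ A in ev K, (K.cut A).clo.Cmp τ τ₁ τ₂ := by
  obtain ⟨ρ, ρ', ρ₁, ρ₂, h1, h2, h3, h4⟩ := h
  filter_upwards [htp h1, htp h2, htp h3, ev_F ρ] with A k1 k2 k3 k4 using ⟨ρ, ρ', ρ₁, ρ₂, k1, k2, k3, bd k4 h4⟩

theorem kil {u : K.clo.UD a} (h : Kil u σ) :
    ∀ᶠ A in ev K, ∀ u' : (K.cut A).clo.UD a, u'.U = u.U → Kil u' σ := by
  induction h with
  | base σ τ h1 h2 => exact (htp h1).mono fun A k _ _ => Kil.base (S := (K.cut A).clo) σ τ k h2
  | step σ τ h1 _ ih =>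
    filter_upwards [cmp h1, ih] with A k1 k2 u' e using Kil.step (S := (K.cut A).clo) σ τ (e ▸ k1) (k2 u' e)

theorem nz {Q : K.F x K.one} (h : K.clo.Nz Q) : ∀ᶠ A in ev K, (K.cut A).clo.Nz Q := by
  obtain ⟨a, b, σ, τ, L, h1, h2, h3, h4⟩ := h
  filter_upwards [qhs h1, qhs h2, capI h3, hi1 h4] with A k1 k2 k3 k4 using ⟨a, b, σ, τ, L, k1, k2, k3, k4⟩

theorem ud [Countable (K.L a)] (u : K.clo.UD a) : ∀ᶠ A in ev K, ∃ u' : (K.cut A).clo.UD a, u'.U = u.U := by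
  filter_upwards [ev_all fun c : K.L a => (hi1 (u.al c).1).and (ev_F (u.U c))] with A k
  exact ⟨⟨u.U, fun c => pt (u.pt c), u.s, u.t, fun c => ⟨(k c).2, u.tp c⟩,
    fun c => ⟨(k c).1, fun h => ⟨(k c).2, (u.al c).2 h⟩⟩⟩, rfl⟩

end basic

section data

variable (A : K.Sub) {a b c : K.clo.E}

/-- arrows -/
def arr (f : K.clo.Arr a b) : (K.cut A).clo.Arr a b := ⟨f.I, f.f, fun i => pt (f.pt i), f.prp⟩

/-- caps -/
def cap (N : K.clo.Cap) : (K.cut A).clo.Cap := ⟨N.x, N.thin, N.B, N.J1, N.J2, N.g1, N.g2, N.p1, N.p2⟩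

variable {f : K.clo.Arr a b} {g : K.clo.Arr b c} {h : K.clo.Arr c a}

/-- the cells of a double composite lie in `A` -/
def DIn (D : Dbl f g) : Prop := ∀ j, ⟨a, c, D.h j⟩ ∈ A.F ∧ ⟨a, c, D.γ j⟩ ∈ A.F

theorem din (D : Dbl f g) : ∀ᶠ A in ev K, DIn A D :=
  have := cnt D.pp
  ev_all fun _ => (ev_F _).and (ev_F _)

variable {A} in
/-- double composites -/
def dbl (D : Dbl f g) (k : DIn A D) : Dbl (arr A f) (arr A g) :=
  ⟨D.J, D.e, D.p, D.h, D.γ, D.r, D.rr, D.half, D.hr, fun j => bd (k j).1 (D.bh j), fun j => bd (k j).2 (D.bγ j),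
    D.sγ, D.tγ, D.pp, D.ph, D.pγ⟩

variable {D0 : Dbl f g} {D1 : Dbl g h} {N : K.clo.Cap} {T : f.I → g.I → h.I → Prop}

/-- the cells of a pentagon lie in `A` -/
def PIn (P : Pen D0 D1 N T) : Prop :=
  (∀ k, (⟨a, a, P.Q k⟩ ∈ A.F ∧ ⟨a, a, P.S1 k⟩ ∈ A.F ∧ ⟨a, a, P.S2 k⟩ ∈ A.F) ∧
    ⟨a, a, P.R1 k⟩ ∈ A.F ∧ ⟨a, a, P.R2 k⟩ ∈ A.F) ∧ ∀ i, ⟨a, a, P.κ i⟩ ∈ A.F

theorem pin (P : Pen D0 D1 N T) : ∀ᶠ A in ev K, PIn A P :=
  have := cnt P.prp.1
  have := P.f0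
  (ev_all fun _ => ((ev_F _).and ((ev_F _).and (ev_F _))).and ((ev_F _).and (ev_F _))).and (ev_all fun _ => ev_F _)

variable {A}

/-- the lifts of caps -/
def sg {X : Type} {σ : X → K.F a a} (k : ∀ x, ⟨a, a, σ x⟩ ∈ A.F) :
    (Σ x, (K.cut A).clo.C (σ x)) ≃ Σ x, K.clo.C (σ x) :=
  Equiv.sigmaCongrRight fun x => Equiv.subtypeUnivEquiv fun _ => k x

/-- pentagons -/
def pen (P : Pen D0 D1 N T) (k0 : DIn A D0) (k1 : DIn A D1) (k : PIn A P) :
    Pen (dbl D0 k0) (dbl D1 k1) (cap A N) T :=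
  { P with
    bQ := fun i => bd (k.1 i).1.1 (P.bQ i)
    bS1 := fun i => bd (k.1 i).1.2.1 (P.bS1 i)
    bS2 := fun i => bd (k.1 i).1.2.2 (P.bS2 i)
    bR1 := fun i => ⟨(fc_eq (k.1 i).2.1).symm ▸ (P.bR1 i).1, (nk_eq (k.1 i).2.1).trans (P.bR1 i).2⟩
    bR2 := fun i => ⟨(fc_eq (k.1 i).2.2).symm ▸ (P.bR2 i).1, (nk_eq (k.1 i).2.2).trans (P.bR2 i).2⟩
    β1 := ((sg fun i : {i // D0.half (P.e0 i).1.1} => (k.1 i.1).2.1).subtypeEquiv fun _ => Iff.rfl).trans P.β1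
    c1 := fun θ => P.c1 ⟨⟨θ.1.1, θ.1.2.1⟩, θ.2⟩
    β2 := ((sg fun i : {i // D1.half (P.e1 i).1.2} => (k.1 i.1).2.2).subtypeEquiv fun _ => Iff.rfl).trans P.β2
    c2 := fun θ => P.c2 ⟨⟨θ.1.1, θ.1.2.1⟩, θ.2⟩
    pι := fun i => pt (P.pι i)
    bκ := fun i => ⟨(fc_eq (k.2 i)).trans (P.bκ i).1, (nk_eq (k.2 i)).trans (P.bκ i).2⟩
    β0 := (sg k.2).trans P.β0
    c0 := fun θ => P.c0 ⟨θ.1, θ.2.1⟩ }

theorem pid {P : Pen D0 D1 N} (h : P.Id) : ∀ᶠ A in ev K, ∀ k0 k1 k, (pen (A := A) P k0 k1 k).Id :=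
  have := P.f0
  (ev_all fun i => (idn (h.idn i)).and (tp (h.tp i))).mono fun _ k _ _ _ =>
    ⟨fun i => (k i).1, fun i => (k i).2, h.bij⟩

theorem mdl {P : Pen D0 D1 N} (m : P.Mdl) :
    ∀ᶠ A in ev K, ∀ k0 k1 k, Nonempty (pen (A := A) P k0 k1 k).Mdl := by
  have := cnt P.prp.1
  filter_upwards [pid m.toId, qhs m.qhs, ev_all fun k => (ev_F (P.Γ1 k)).and (ev_F (P.Γ2 k)),
    ev_all fun k => ev_imp fun o => hi1 (m.w1 k o).2.2.1, ev_all fun k => ev_imp fun o => hi1 (m.w2 k o).2.2.1,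
    ev_all fun k => ev_imp (hi0 (σ := P.Γ1 k)), ev_all fun k => ev_imp (hi0 (σ := P.Γ2 k))]
    with A h1 h2 h3 h4 h5 h6 h7 k0 k1 k
  exact ⟨{ m with
    toId := h1 k0 k1 k
    qhs := h2
    dd1 := fun i c => m.dd1 i c.1
    dd2 := fun i c => m.dd2 i c.1
    tp1 := fun i o => (m.tp1 i o).imp fun _ p => ⟨p.1, (h3 i).1, p.2⟩
    tp2 := fun i o => (m.tp2 i o).imp fun _ p => ⟨p.1, (h3 i).2, p.2⟩
    w1 := fun i o => let ⟨p, q, _, r, s⟩ := m.w1 i o; ⟨p, q, h4 i o, ⟨(h3 i).1, r⟩, s⟩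
    w2 := fun i o => let ⟨p, q, _, r, s⟩ := m.w2 i o; ⟨p, q, h5 i o, ⟨(h3 i).2, r⟩, s⟩
    n1 := fun i o p q r s => h6 i (m.n1 i o p q r.2 s)
    n2 := fun i o p q r s => h7 i (m.n2 i o p q r.2 s) }⟩

theorem has (k : N.Has) : ∀ᶠ A in ev K, (cap A N).Has := by
  obtain ⟨a, b, c, f, g, h, D0, D1, P, ⟨m⟩⟩ := k
  filter_upwards [din D0, din D1, pin P, mdl m] with A k0 k1 k k2 using ⟨a, b, c, _, _, _, _, _, _, k2 k0 k1 k⟩

theorem rp {L : Type} {p : L → K.F a b} (k : f.Rp p) : ∀ᶠ A in ev K, (arr A f).Rp p :=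
  let ⟨e, k⟩ := k
  have := cnt f.prp
  have := e.injective.countable
  (ev_all fun d => htp (k d)).mono fun _ q => ⟨e, q⟩

end data

/-- **ALG-7** -/
theorem sub : SubStmt.{u} := fun S K r Q R P hP hC hc => by
  have := neBot hC
  have := fun i j (c : S.κ i j) => hc.1 _ _ (S.cob c)
  have := fun i (c : S.γ i) => hc.2 _ (S.cap c)
  have : ∀ i, Countable (K.L (r.ob i)) := fun i =>
    have := (S.ob i).fin
    (r.lab i).symm.injective.countable
  obtain ⟨f, g, h, D0, D1, N, Pn, p1, p2, ⟨i0, τ0, p3, p4⟩, p5, p6⟩ := hP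
  have := cnt f.prp
  have := cnt h.prp
  choose Dk hk p6 p7 using p6
  have e1 := (ev_all fun i => qhs (r.qhs i)).and (ev_all fun i => ud (r.U i))
  have e2 := ev_all fun i => ev_all fun j => ev_all fun c : S.κ i j => ev_all fun d =>
    show ∀ᶠ A in ev K, ∃ τ, (K.cut A).clo.Cmp τ ((r.U i).U (K.s (r.pt c d))) (r.pt c d) ∧
      (K.cut A).clo.Cmp τ (r.pt c d) ((r.U j).U (K.t (r.pt c d))) from
    let ⟨τ, a, b⟩ := r.comU c d; ((cmp a).and (cmp b)).mono fun _ k => ⟨τ, k⟩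
  have e3 := ev_all fun i => ev_all fun j => ev_all fun c : S.κ i j => ev_all fun c' : S.κ i j =>
    ev_all fun d => ev_all fun d' => ev_imp (htp (σ := r.pt c d) (τ := r.pt c' d'))
  have e4 := ev_all fun i => ev_all fun j => ev_all fun k => ev_all fun c₁ : S.κ i j => ev_all fun c₂ : S.κ j k =>
    ev_all fun c : S.κ i k => ev_all fun d => ev_all fun d₁ => ev_all fun d₂ =>
      ev_imp (cmp (τ := r.pt c d) (τ₁ := r.pt c₁ d₁) (τ₂ := r.pt c₂ d₂))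
  have e5 := ev_all fun i => ev_all fun c : S.κ i i => ev_all fun d => ev_all fun s : K.L (r.ob i) => ev_imp
    fun (⟨τ, a, b, e⟩ : ∃ τ, K.clo.Htp (r.pt c d) τ ∧ K.clo.idn τ ∧ K.s τ = s) =>
      show ∀ᶠ A in ev K, ∃ τ, (K.cut A).clo.Htp (r.pt c d) τ ∧ (K.cut A).clo.idn τ ∧ K.s τ = s from
      ((htp a).and (idn b)).mono fun _ k => ⟨τ, k.1, k.2, e⟩
  have e6 := ev_all fun i => ev_all fun j => ev_all fun c : S.κ i j => ev_all fun d => ev_all fun x : ℚ => ev_imp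
    fun (⟨τ, a, b⟩ : ∃ τ, K.clo.Htp (r.pt c d) τ ∧ K.clo.tp τ x) =>
      show ∀ᶠ A in ev K, ∃ τ, (K.cut A).clo.Htp (r.pt c d) τ ∧ (K.cut A).clo.tp τ x from
      ((htp a).and (tp b)).mono fun _ k => ⟨τ, k⟩
  have e7 := ev_all fun i => ev_all fun j => ev_all fun c : S.κ i j => ev_all fun d => ev_imp
    fun (⟨τ, a, b, e⟩ : ∃ τ, K.clo.Htp (r.pt c d) τ ∧ K.clo.hi1 τ ∧ K.s τ = K.s (r.pt c d)) =>
      show ∀ᶠ A in ev K, ∃ τ, (K.cut A).clo.Htp (r.pt c d) τ ∧ (K.cut A).clo.hi1 τ ∧ K.s τ = K.s (r.pt c d) from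
      ((htp a).and (hi1 b)).mono fun _ k => ⟨τ, k.1, k.2, e⟩
  have e8 := ev_all fun i => ev_all fun j => ev_all fun c : S.κ i j => ev_all fun d => ev_imp
    fun (⟨τ, a, b⟩ : ∃ τ, K.clo.Htp (r.pt c d) τ ∧ K.clo.hi0 τ) =>
      show ∀ᶠ A in ev K, ∃ τ, (K.cut A).clo.Htp (r.pt c d) τ ∧ (K.cut A).clo.hi0 τ from
      ((htp a).and (hi0 b)).mono fun _ k => ⟨τ, k⟩
  have e9 := ev_all fun i => ev_all fun k => ev_all fun c : S.κ i k => ev_all fun c' : S.κ i k =>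
    ev_all fun d => ev_all fun d' => ev_imp
    fun (⟨w, σ, σ', ρ, ρ', L, Q, Q', a1, a2, a3, a4, a5, a6, a7, a8⟩ :
      ∃ (w : K.E) (σ σ' ρ ρ' : K.F (r.ob i) (r.ob k)) (L : K.F3 (r.ob i) (r.ob k) w) (Q Q' : K.F w K.one),
        K.clo.Htp (r.pt c d) ρ ∧ K.clo.Htp (r.pt c' d') ρ' ∧ K.thin w ∧ ¬K.dead w ∧ K.clo.CapI σ ρ L Q ∧
          K.clo.CapI σ' ρ' L Q' ∧ K.clo.Nz Q ∧ K.clo.Nz Q') =>
      show ∀ᶠ A in ev K, ∃ (w : K.E) (σ σ' ρ ρ' : K.F (r.ob i) (r.ob k)) (L : K.F3 (r.ob i) (r.ob k) w)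
        (Q Q' : K.F w K.one), (K.cut A).clo.Htp (r.pt c d) ρ ∧ (K.cut A).clo.Htp (r.pt c' d') ρ' ∧ K.thin w ∧
          ¬K.dead w ∧ (K.cut A).clo.CapI σ ρ L Q ∧ (K.cut A).clo.CapI σ' ρ' L Q' ∧ (K.cut A).clo.Nz Q ∧
          (K.cut A).clo.Nz Q' from by
        filter_upwards [htp a1, htp a2, capI a5, capI a6, nz a7, nz a8] with A b1 b2 b5 b6 b7 b8
        exact ⟨w, σ, σ', ρ, ρ', L, Q, Q', b1, b2, a3, a4, b5, b6, b7, b8⟩
  have e10 := ev_all fun i => ev_all fun j => ev_all fun k => ev_all fun c₁ : S.κ i j => ev_all fun c₂ : S.κ j k =>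
    ev_imp fun (⟨f, g, h, D0, D1, D2, N, P, P', a1, a2, a3, a4, a5⟩ :
      ∃ (A : K.clo.Arr (r.ob i) (r.ob j)) (B : K.clo.Arr (r.ob j) (r.ob k)) (C : K.clo.Arr (r.ob k) (r.ob i))
        (D0 : Dbl A B) (D1 : Dbl B C) (D2 : Dbl C A) (N : K.clo.Cap) (P : Pen D0 D1 N) (P' : Pen D1 D2 N),
        A.Rp (r.pt c₁) ∧ B.Rp (r.pt c₂) ∧ N.Has ∧ P.Id ∧ P'.Id) =>
      show ∀ᶠ X in ev K, ∃ (A : (K.cut X).clo.Arr (r.ob i) (r.ob j)) (B : (K.cut X).clo.Arr (r.ob j) (r.ob k))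
        (C : (K.cut X).clo.Arr (r.ob k) (r.ob i)) (D0 : Dbl A B) (D1 : Dbl B C) (D2 : Dbl C A)
        (N : (K.cut X).clo.Cap) (P : Pen D0 D1 N) (P' : Pen D1 D2 N),
        A.Rp (r.pt c₁) ∧ B.Rp (r.pt c₂) ∧ N.Has ∧ P.Id ∧ P'.Id from by
        filter_upwards [din D0, din D1, din D2, pin P, pin P', rp a1, rp a2, has a3, pid a4, pid a5]
          with A k0 k1 k2 k k' b1 b2 b3 b4 b5
        exact ⟨_, _, _, _, _, _, _, _, _, b1, b2, b3, b4 k0 k1 k, b5 k1 k2 k'⟩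
  have e11 := ev_all fun i => ev_all fun c : S.γ i => ev_all fun c' : S.γ i => ev_all fun d => ev_all fun d' =>
    ev_all fun h => ev_all fun h' => ev_imp (htp (σ := r.cp c d h) (τ := r.cp c' d' h'))
  have e12 := ev_all fun j => ev_all fun k => ev_all fun c₁ : S.γ j => ev_all fun c₂ : S.κ j k =>
    ev_all fun c : S.γ k => ev_all fun d => ev_all fun d₁ => ev_all fun d₂ => ev_all fun h₁ => ev_all fun h =>
      ev_imp (cmp (τ := r.cp c d h) (τ₁ := r.cp c₁ d₁ h₁) (τ₂ := r.pt c₂ d₂))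
  have e13 := (((din D0).and (din D1)).and ((pin Pn).and (has p1))).and (((htp p3).and (ev_F τ0)).and
    ((ev_all fun k => kil (p5 k)).and (ev_all fun k => htp (p7 k))))
  obtain ⟨A, ⟨⟨⟨q1, q0⟩, q2, q3⟩, ⟨q4, q5⟩, q6, q7⟩, ⟨⟨q8, q9⟩, q10, q11⟩, q12, ⟨⟨k0, k1⟩, k, s1⟩, ⟨s3, s4⟩, s5, s7⟩ :=
    ((((e1.and (e2.and e3))).and ((e4.and e5).and (e6.and e7))).and
      (((e8.and e9).and (e10.and e11)).and (e12.and e13))).exists
  choose U hU using q0
  exact ⟨A, { r with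
    qhs := q1
    U := U
    isPt := fun c d => pt (r.isPt c d)
    comU := fun c d => by rw [hU, hU]; exact q2 _ _ c d
    nat := fun c c' φ d d' a1 a2 a3 => q3 _ _ c c' d d' (r.nat c c' φ d d' a1 a2 a3)
    comp := fun c₁ c₂ c g d d₁ d₂ a1 a2 a3 => q4 _ _ _ c₁ c₂ c d d₁ d₂ (r.comp c₁ c₂ c g d d₁ d₂ a1 a2 a3)
    id := fun c φ d s a1 a2 a3 a4 => q5 _ c d _ (r.id c φ d s a1 a2 a3 a4)
    deg := fun c d _ _ _ e g Z c₀ x a1 a2 a3 a4 => q6 _ _ c d x (r.deg c d e g Z c₀ x a1 a2 a3 a4)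
    tn := fun c d _ _ _ e g Z a1 a2 => q7 _ _ c d (r.tn c d e g Z a1 a2)
    tp := fun c d e a1 a2 => q8 _ _ c d (r.tp c d e a1 a2)
    bu := fun c c' _ _ _ _ _ _ _ _ _ hv hv' f g s s' d d' d₀ a1 a2 a3 a4 a5 a6 a7 =>
      q9 _ _ c c' d d' (r.bu c c' hv hv' f g s s' d d' d₀ a1 a2 a3 a4 a5 a6 a7)
    triad := fun c₁ c₂ c₃ _ _ _ _ f g h a1 a2 a3 a4 => q10 _ _ _ c₁ c₂ (r.triad c₁ c₂ c₃ f g h a1 a2 a3 a4)
    natc := fun c c' φ d d' a1 a2 a3 =>
      let ⟨h, h', a⟩ := r.natc c c' φ d d' a1 a2 a3; ⟨h, h', q11 _ c c' d d' h h' a⟩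
    compc := fun c₁ c₂ c g d d₁ d₂ a1 a2 a3 h₁ h =>
      q12 _ _ c₁ c₂ c d d₁ d₂ h₁ h (r.compc c₁ c₂ c g d d₁ d₂ a1 a2 a3 h₁ h) },
    _, _, _, _, _, _, pen Pn k0 k1 k, s1, p2, ⟨i0, τ0, s3, s4, p4⟩, fun j => s5 j _ (hU _),
    fun j => ⟨Dk j, hk j, p6 j, s7 j⟩⟩

end Crest.Agent.X212.Sub56
end
end

-- ▼ part X212/Tri19/Sub
section

/-!
# Row 212, layer GEO (helper19): ALG-7', countably many cells with idempotents (after `Sub56.sub`)
-/

set_option autoImplicit false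

open Set Function Filter

noncomputable section

universe u

namespace Crest.Agent.X212.Tri19

open Flo2 Flo2.Sk Bor5.T Sub56

variable {K : Sk.{u}} {a b c : K.clo.E}

theorem ed [Countable (K.L a)] (u : K.clo.ED a) : ∀ᶠ A in ev K, ∃ u' : (K.cut A).clo.ED a, u'.e = u.e := by
  filter_upwards [ev_all fun c : K.L a => cmp (u.ee c)] with A k
  exact ⟨⟨u.e, fun c => pt (u.pt c), u.s, u.t, k⟩, rfl⟩

theorem eIn {E : K.clo.ED a} {τ : K.clo.F a b} (h : E.In τ) :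
    ∀ᶠ A in ev K, ∀ E' : (K.cut A).clo.ED a, E'.e = E.e → E'.In τ :=
  (cmp h).mono fun _ k _ e => by rw [ED.In, e]; exact k

theorem eOut {E : K.clo.ED b} {τ : K.clo.F a b} (h : E.Out τ) :
    ∀ᶠ A in ev K, ∀ E' : (K.cut A).clo.ED b, E'.e = E.e → E'.Out τ :=
  (cmp h).mono fun _ k _ e => by rw [ED.Out, e]; exact k

theorem kil2 {u : K.clo.UD a} {v : K.clo.UD c} {σ : K.clo.F a b} (h : Kil2 u v σ) : ∀ᶠ A in ev K,
    ∀ (u' : (K.cut A).clo.UD a) (v' : (K.cut A).clo.UD c), u'.U = u.U → v'.U = v.U → Kil2 u' v' σ := by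
  obtain ⟨σ₁, τ, τ₀, σ₂, h1, h2, h3, h4, h5⟩ := h
  filter_upwards [cmp h1, cmp h2, cmp h3, htp h4, hi0 h5] with A k1 k2 k3 k4 k5 u' v' e e'
  exact ⟨σ₁, τ, τ₀, σ₂, k1, e ▸ k2, e' ▸ k3, k4, k5⟩

variable {f : K.clo.Arr a b} {g : K.clo.Arr b c} {h : K.clo.Arr c a} {D0 : Dbl f g} {D1 : Dbl g h} {N : K.clo.Cap}
  {T : f.I → g.I → h.I → Prop}

theorem pid2 {P : Pen D0 D1 N} {E : K.clo.ED a} (h : P.Id2 E) : ∀ᶠ A in ev K, ∀ k0 k1 k,
    ∀ E' : (K.cut A).clo.ED a, E'.e = E.e → (pen (A := A) P k0 k1 k).Id2 E' :=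
  have := P.f0
  (ev_all fun i => htp (h.htp i)).mono fun _ k _ _ _ _ e => ⟨fun i => by rw [e]; exact k i, h.bij⟩

theorem mdl2 {P : Pen D0 D1 N T} (m : P.Mdl2) :
    ∀ᶠ A in ev K, ∀ k0 k1 k, Nonempty (pen (A := A) P k0 k1 k).Mdl2 := by
  have := cnt P.prp.1
  have := P.f0
  filter_upwards [ev_all fun i => (hi1 (m.hi1 i)).and (tp (m.tp i)), qhs m.qhs,
    ev_all fun k => (ev_F (P.Γ1 k)).and (ev_F (P.Γ2 k)),
    ev_all fun k => ev_imp fun o => hi1 (m.w1 k o).2.2.1, ev_all fun k => ev_imp fun o => hi1 (m.w2 k o).2.2.1,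
    ev_all fun k => ev_imp (hi0 (σ := P.Γ1 k)), ev_all fun k => ev_imp (hi0 (σ := P.Γ2 k))]
    with A h1 h2 h3 h4 h5 h6 h7 k0 k1 k
  exact ⟨{ m with
    hi1 := fun i => (h1 i).1
    tp := fun i => (h1 i).2
    qhs := h2
    dd1 := fun i c => m.dd1 i c.1
    dd2 := fun i c => m.dd2 i c.1
    tp1 := fun i o => (m.tp1 i o).imp fun _ p => ⟨p.1, (h3 i).1, p.2⟩
    tp2 := fun i o => (m.tp2 i o).imp fun _ p => ⟨p.1, (h3 i).2, p.2⟩
    w1 := fun i o => let ⟨p, q, _, r, s⟩ := m.w1 i o; ⟨p, q, h4 i o, ⟨(h3 i).1, r⟩, s⟩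
    w2 := fun i o => let ⟨p, q, _, r, s⟩ := m.w2 i o; ⟨p, q, h5 i o, ⟨(h3 i).2, r⟩, s⟩
    n1 := fun i o p q s => (m.n1 i o p q s).imp (h6 i) (.imp fun _ p => ⟨p.1, (h3 i).1, p.2⟩)
    n2 := fun i o p q s => (m.n2 i o p q s).imp (h7 i) (.imp fun _ p => ⟨p.1, (h3 i).2, p.2⟩) }⟩

theorem has2 (k : N.Has2) : ∀ᶠ A in ev K, (cap A N).Has2 := by
  obtain ⟨a, b, c, f, g, h, D0, D1, T, P, ⟨m⟩⟩ := k
  filter_upwards [din D0, din D1, pin P, mdl2 m] with A k0 k1 k k2 using ⟨a, b, c, _, _, _, _, _, _, _, k2 k0 k1 k⟩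

/-- **ALG-7'** -/
theorem sub2Stmt : Sub2Stmt.{u} := fun S K r Q R P hP hC hc => by
  have := neBot hC
  have := fun i j (c : S.κ i j) => hc.1 _ _ (S.cob c)
  have := fun i (c : S.γ i) => hc.2 _ (S.cap c)
  have : ∀ i, Countable (K.L (r.ob i)) := fun i =>
    have := (S.ob i).fin
    (r.lab i).symm.injective.countable
  obtain ⟨f, g, h, D0, D1, N, T, Pn, p1, p2, ⟨i0, τ0, p3, p4⟩, p5, p6⟩ := hP
  have := cnt f.prp
  have := cnt h.prp
  choose Dk hk p6 p7 using p6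
  have e0 := ((ev_all fun i => ed (r.E i)).and (ev_all fun i => ev_all fun c : K.L (r.ob i) => eOut (r.eU i c))).and
    ((ev_all fun i => ev_all fun j => ev_all fun c : S.κ i j => ev_all fun d =>
      (eIn (r.ept c d).1).and (eOut (r.ept c d).2)).and
    (ev_all fun i => ev_all fun c : S.γ i => ev_all fun d => ev_all fun h => eOut (r.ecp c d h)))
  have e1 := (ev_all fun i => qhs (r.qhs i)).and (ev_all fun i => ud (r.U i))
  have e2 := ev_all fun i => ev_all fun j => ev_all fun c : S.κ i j => ev_all fun d =>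
    show ∀ᶠ A in ev K, ∃ τ, (K.cut A).clo.Cmp τ ((r.U i).U (K.s (r.pt c d))) (r.pt c d) ∧
      (K.cut A).clo.Cmp τ (r.pt c d) ((r.U j).U (K.t (r.pt c d))) from
    let ⟨τ, a, b⟩ := r.comU c d; ((cmp a).and (cmp b)).mono fun _ k => ⟨τ, k⟩
  have e3 := ev_all fun i => ev_all fun j => ev_all fun c : S.κ i j => ev_all fun c' : S.κ i j =>
    ev_all fun d => ev_all fun d' => ev_imp (htp (σ := r.pt c d) (τ := r.pt c' d'))
  have e4 := ev_all fun i => ev_all fun j => ev_all fun k => ev_all fun c₁ : S.κ i j => ev_all fun c₂ : S.κ j k =>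
    ev_all fun c : S.κ i k => ev_all fun d => ev_all fun d₁ => ev_all fun d₂ =>
      ev_imp (cmp (τ := r.pt c d) (τ₁ := r.pt c₁ d₁) (τ₂ := r.pt c₂ d₂))
  have e5 := ev_all fun i => ev_all fun c : S.κ i i => ev_all fun d => ev_all fun s : K.L (r.ob i) =>
    ev_imp (htp (σ := r.pt c d) (τ := (r.E i).e s))
  have e6 := ev_all fun i => ev_all fun j => ev_all fun c : S.κ i j => ev_all fun d => ev_all fun x : ℚ => ev_imp
    fun (⟨τ, a, b⟩ : ∃ τ, K.clo.Htp (r.pt c d) τ ∧ K.clo.tp τ x) =>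
      show ∀ᶠ A in ev K, ∃ τ, (K.cut A).clo.Htp (r.pt c d) τ ∧ (K.cut A).clo.tp τ x from
      ((htp a).and (tp b)).mono fun _ k => ⟨τ, k⟩
  have e7 := ev_all fun i => ev_all fun j => ev_all fun c : S.κ i j => ev_all fun d => ev_imp
    fun (⟨τ, a, b, e⟩ : ∃ τ, K.clo.Htp (r.pt c d) τ ∧ K.clo.hi1 τ ∧ K.s τ = K.s (r.pt c d)) =>
      show ∀ᶠ A in ev K, ∃ τ, (K.cut A).clo.Htp (r.pt c d) τ ∧ (K.cut A).clo.hi1 τ ∧ K.s τ = K.s (r.pt c d) from
      ((htp a).and (hi1 b)).mono fun _ k => ⟨τ, k.1, k.2, e⟩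
  have e8 := ev_all fun i => ev_all fun j => ev_all fun c : S.κ i j => ev_all fun d => ev_imp
    fun (⟨τ, a, b⟩ : ∃ τ, K.clo.Htp (r.pt c d) τ ∧ K.clo.hi0 τ) =>
      show ∀ᶠ A in ev K, ∃ τ, (K.cut A).clo.Htp (r.pt c d) τ ∧ (K.cut A).clo.hi0 τ from
      ((htp a).and (hi0 b)).mono fun _ k => ⟨τ, k⟩
  have e9 := ev_all fun i => ev_all fun k => ev_all fun c : S.κ i k => ev_all fun c' : S.κ i k =>
    ev_all fun d => ev_all fun d' => ev_imp
    fun (⟨w, σ, σ', ρ, ρ', L, Q, Q', a1, a2, a3, a4, a5, a6, a7, a8⟩ :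
      ∃ (w : K.E) (σ σ' ρ ρ' : K.F (r.ob i) (r.ob k)) (L : K.F3 (r.ob i) (r.ob k) w) (Q Q' : K.F w K.one),
        K.clo.Htp (r.pt c d) ρ ∧ K.clo.Htp (r.pt c' d') ρ' ∧ K.thin w ∧ ¬K.dead w ∧ K.clo.CapI σ ρ L Q ∧
          K.clo.CapI σ' ρ' L Q' ∧ K.clo.Nz Q ∧ K.clo.Nz Q') =>
      show ∀ᶠ A in ev K, ∃ (w : K.E) (σ σ' ρ ρ' : K.F (r.ob i) (r.ob k)) (L : K.F3 (r.ob i) (r.ob k) w)
        (Q Q' : K.F w K.one), (K.cut A).clo.Htp (r.pt c d) ρ ∧ (K.cut A).clo.Htp (r.pt c' d') ρ' ∧ K.thin w ∧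
          ¬K.dead w ∧ (K.cut A).clo.CapI σ ρ L Q ∧ (K.cut A).clo.CapI σ' ρ' L Q' ∧ (K.cut A).clo.Nz Q ∧
          (K.cut A).clo.Nz Q' from by
        filter_upwards [htp a1, htp a2, capI a5, capI a6, nz a7, nz a8] with A b1 b2 b5 b6 b7 b8
        exact ⟨w, σ, σ', ρ, ρ', L, Q, Q', b1, b2, a3, a4, b5, b6, b7, b8⟩
  have e10 := ev_all fun i => ev_all fun j => ev_all fun k => ev_all fun c₁ : S.κ i j => ev_all fun c₂ : S.κ j k =>
    ev_imp fun (⟨⟨f0, g0, D0, a5, a6⟩, f, g, h, D1, D2, N, P, a1, a2, a3, a4⟩ :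
      (∃ (A : K.clo.Arr (r.ob i) (r.ob j)) (B : K.clo.Arr (r.ob j) (r.ob k)) (_ : Dbl A B),
        A.Rp (r.pt c₁) ∧ B.Rp (r.pt c₂)) ∧
      ∃ (A : K.clo.Arr (r.ob i) (r.ob j)) (B : K.clo.Arr (r.ob j) (r.ob k)) (C : K.clo.Arr (r.ob k) (r.ob i))
        (D1 : Dbl B C) (D2 : Dbl C A) (N : K.clo.Cap) (P : Pen D1 D2 N),
        A.Rp (r.pt c₁) ∧ B.Rp (r.pt c₂) ∧ N.Has2 ∧ P.Id2 (r.E j)) =>
      show ∀ᶠ X in ev K, ∀ E' : (K.cut X).clo.ED (r.ob j), E'.e = (r.E j).e →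
        (∃ (A : (K.cut X).clo.Arr (r.ob i) (r.ob j)) (B : (K.cut X).clo.Arr (r.ob j) (r.ob k)) (_ : Dbl A B),
          A.Rp (r.pt c₁) ∧ B.Rp (r.pt c₂)) ∧
        ∃ (A : (K.cut X).clo.Arr (r.ob i) (r.ob j)) (B : (K.cut X).clo.Arr (r.ob j) (r.ob k))
        (C : (K.cut X).clo.Arr (r.ob k) (r.ob i)) (D1 : Dbl B C) (D2 : Dbl C A)
        (N : (K.cut X).clo.Cap) (P : Pen D1 D2 N), A.Rp (r.pt c₁) ∧ B.Rp (r.pt c₂) ∧ N.Has2 ∧ P.Id2 E' from by
        filter_upwards [din D0, din D1, din D2, pin P, rp a1, rp a2, has2 a3, pid2 a4, rp a5, rp a6]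
          with A k0 k1 k2 k b1 b2 b3 b4 b5 b6 E' e
        exact ⟨⟨_, _, dbl D0 k0, b5, b6⟩, _, _, _, _, _, _, _, b1, b2, b3, b4 k1 k2 k E' e⟩
  have e11 := ev_all fun i => ev_all fun c : S.γ i => ev_all fun c' : S.γ i => ev_all fun d => ev_all fun d' =>
    ev_all fun h => ev_all fun h' => ev_imp (htp (σ := r.cp c d h) (τ := r.cp c' d' h'))
  have e12 := ev_all fun j => ev_all fun k => ev_all fun c₁ : S.γ j => ev_all fun c₂ : S.κ j k =>
    ev_all fun c : S.γ k => ev_all fun d => ev_all fun d₁ => ev_all fun d₂ => ev_all fun h₁ => ev_all fun h =>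
      ev_imp (cmp (τ := r.cp c d h) (τ₁ := r.cp c₁ d₁ h₁) (τ₂ := r.pt c₂ d₂))
  have e13 := (((din D0).and (din D1)).and ((pin Pn).and (has2 p1))).and (((htp p3).and (ev_F τ0)).and
    ((ev_all fun k => (kil2 (p5 k).1).and (eIn (p5 k).2)).and (ev_all fun k => htp (p7 k))))
  obtain ⟨A, ⟨⟨t0, t1⟩, t2, t3⟩, ⟨⟨⟨q1, q0⟩, q2, q3⟩, ⟨q4, q5⟩, q6, q7⟩, ⟨⟨q8, q9⟩, q10, q11⟩, q12,
      ⟨⟨k0, k1⟩, k, s1⟩, ⟨s3, s4⟩, s5, s7⟩ := (e0.and ((((e1.and (e2.and e3))).and ((e4.and e5).and (e6.and e7))).and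
      (((e8.and e9).and (e10.and e11)).and (e12.and e13)))).exists
  choose U hU using q0
  choose E hE using t0
  exact ⟨A, { r with
    qhs := q1
    U := U
    E := E
    eU := fun i c => by rw [hU]; exact t1 i c _ (hE i)
    ept := fun c d => ⟨(t2 _ _ c d).1 _ (hE _), (t2 _ _ c d).2 _ (hE _)⟩
    ecp := fun c d h => t3 _ c d h _ (hE _)
    isPt := fun c d => pt (r.isPt c d)
    comU := fun c d => by rw [hU, hU]; exact q2 _ _ c d
    nat := fun c c' φ d d' a1 a2 a3 => q3 _ _ c c' d d' (r.nat c c' φ d d' a1 a2 a3)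
    comp := fun c₁ c₂ c g d d₁ d₂ a1 a2 a3 => q4 _ _ _ c₁ c₂ c d d₁ d₂ (r.comp c₁ c₂ c g d d₁ d₂ a1 a2 a3)
    id := fun c φ d s a1 a2 a3 a4 => by rw [hE]; exact q5 _ c d _ (r.id c φ d s a1 a2 a3 a4)
    deg := fun c d _ _ _ e g Z c₀ x a1 a2 a3 a4 => q6 _ _ c d x (r.deg c d e g Z c₀ x a1 a2 a3 a4)
    tn := fun c d _ _ _ e g Z a1 a2 => q7 _ _ c d (r.tn c d e g Z a1 a2)
    tp := fun c d e a1 a2 => q8 _ _ c d (r.tp c d e a1 a2)
    bu := fun c c' _ _ _ _ _ _ _ _ _ hv hv' f g s s' d d' d₀ a1 a2 a3 a4 a5 a6 a7 =>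
      q9 _ _ c c' d d' (r.bu c c' hv hv' f g s s' d d' d₀ a1 a2 a3 a4 a5 a6 a7)
    triad := fun c₁ c₂ c₃ _ _ _ _ f g h a1 a2 a3 a4 =>
      q10 _ _ _ c₁ c₂ (r.triad c₁ c₂ c₃ f g h a1 a2 a3 a4) _ (hE _)
    natc := fun c c' φ d d' a1 a2 a3 =>
      let ⟨h, h', a⟩ := r.natc c c' φ d d' a1 a2 a3; ⟨h, h', q11 _ c c' d d' h h' a⟩
    compc := fun c₁ c₂ c g d d₁ d₂ a1 a2 a3 h₁ h =>
      q12 _ _ c₁ c₂ c d d₁ d₂ h₁ h (r.compc c₁ c₂ c g d d₁ d₂ a1 a2 a3 h₁ h) },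
    _, _, _, _, _, _, _, pen Pn k0 k1 k, s1, p2, ⟨i0, τ0, s3, s4, p4⟩,
    fun j => ⟨(s5 j).1 _ _ (hU _) (hU _), (s5 j).2 _ (hE _)⟩,
    fun j => ⟨Dk j, hk j, p6 j, s7 j⟩⟩

end Crest.Agent.X212.Tri19
end
end

-- ▼ part X212/Tri19/Tri
section

/-!
# Row 212, layer GEO (helper19): exactness up to an idempotent (ALG-3')
-/

set_option autoImplicit false

open Module Function Filter

noncomputable section

namespace Crest.Agent.X212.Tri19

open Win22 Flo2 WG Alg43 Cx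
open Bor5 (K)

theorem key {V V' V'' Λ : Type*} [AddCommGroup V] [Module K V] [AddCommGroup V''] [Module K V''] (g : Gd K V Λ)
    (deg : Λ → ℚ) (fd : ∀ a, FiniteDimensional K (g.up {l | deg l ≤ a})) {E N : V →ₗ[K] V} {F : V' → V}
    {G : V →ₗ[K] V''} (dN : ∀ l, ∀ x ∈ g.W l, N x ∈ g.up {k | deg k < deg l}) (h1 : ∀ x, G (F x) = 0)
    (h2 : ∀ y, G y = 0 → ∃ x, F x = E y + N y) (hE : ∀ y, E (E y) = E y) (hF : ∀ x, E (F x) = F x)
    (hG : ∀ y, G (E y) = G y) {y : V} (hy : G y = 0) : ∃ x, F x = E y := by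
  obtain ⟨a, ha⟩ := g.exists_le deg y
  have hi := g.inj_add deg (u := .id) injective_id (fun l x hx => g.W_le_up (S := {k | deg k = deg l}) rfl hx) dN
  have hS : ∀ z ∈ g.up {l | deg l ≤ a} ⊓ LinearMap.ker G,
      (LinearMap.id + N : V →ₗ[K] V) z ∈ g.up {l | deg l ≤ a} ⊓ LinearMap.ker G := fun z hz => by
    obtain ⟨x, e⟩ := h2 z hz.2
    have k := h1 x
    rw [e, map_add, hG, ← map_add] at k
    exact ⟨add_mem hz.1 (g.map_up' (fun l hl y hy => g.mono' (fun k hk => hk.le.trans hl) (dN l y hy)) hz.1), k⟩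
  have := fd a
  obtain ⟨z, hz⟩ := LinearMap.surjective_of_injective (f := (LinearMap.id + N).restrict hS)
    (fun a b h => Subtype.ext (hi (congrArg Subtype.val h))) ⟨y, ha, hy⟩
  obtain ⟨x, e⟩ := h2 z z.2.2
  refine ⟨x, ?_⟩
  rw [← hF, e, map_add, hE, ← map_add]
  exact congrArg (fun z => E z.1) hz

theorem nul_lim {S : Sk} (Z : Flo2.Cs S) {a b c : S.E} {f : S.Arr a b} {g : S.Arr b c} (D : Sk.Dbl f g) (y) :
    (Z.cx c).cx.d ((wm _ (bd_nul (Z := Z) D)).lim y) + (wm _ (bd_nul D)).lim ((Z.cx a).cx.d y) =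
      (ach Z g).lim ((ach Z f).lim y) := by
  obtain ⟨x, -, r, -⟩ := exists_rp y
  exact (((Z.cx c).dM.rp ((wm _ (bd_nul D)).rp r)).add ((wm _ (bd_nul D)).rp ((Z.cx a).dM.rp r))).ext
    ((ach Z g).rp ((ach Z f).rp r)) (r.loc (nul_loc Z D))

/-- ALG-3' -/
theorem tri2Stmt : Tri2Stmt := fun _ Z a b c f g h D1 D2 _ P E hN h0 hE h1 h2 h3 h4 => by
  let u := tch P.pι (show Al fun i => Z.z (P.ι i) from Cof.fintype _)
  obtain rfl : E = u.hm := funext fun y => (hE y).trans ((tch_hm _ _ y).2.trans (finsum_eq_sum_of_fintype _)).symm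
  obtain ⟨G, e⟩ := pen_loc Z P
  have lo : ∀ᶠ m in atTop, ∀ i k, capT Z P m i k ≠ 0 → ((Z.A b).lab m k).2 < ((Z.A b).lab m i).2 :=
    (capT_low P hN).mono fun m k i l u => by
      obtain ⟨t, ht⟩ := k i l u
      rwa [h0, add_zero] at ht
  let ν := wm (capT Z P) fun r => ⟨r, lo.mono fun m k i l hi u => (k i l u).le.trans hi⟩
  let hB := wm _ (bd_nul (Z := Z) D1)
  let hC := wm _ (bd_nul (Z := Z) D2)
  have eB : ∀ y, _ + hB.lim _ = _ := nul_lim Z D1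
  have eC : ∀ y, _ + hC.lim _ = _ := nul_lim Z D2
  have eq : ∀ y, (Z.cx b).cx.d (G.lim y) + G.lim ((Z.cx b).cx.d y) =
      (ach Z f).lim (hB.lim y) + hC.lim ((ach Z g).lim y) + (u.lim y + ν.lim y) := fun y => by
    obtain ⟨x, -, r, -⟩ := exists_rp y
    exact (((Z.cx b).dM.rp (G.rp r)).add (G.rp ((Z.cx b).dM.rp r))).ext
      ((((ach Z f).rp (hB.rp r)).add (hC.rp ((ach Z g).rp r))).add ((u.rp r).add (ν.rp r))) (r.loc e)
  have cν : IsCh (Z.cx b).cx.toCx (Z.cx b).cx.toCx ν.lim := fun x => by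
    have e1 := congrArg (Z.cx b).cx.d (eq x)
    have e2 := eq ((Z.cx b).cx.d x)
    have e3 := congrArg (ach Z f).lim (eB x)
    have e4 := eC ((ach Z g).lim x)
    rw [map_add, map_add, map_add, map_add, Cx.dd, u.isCh, (ach Z f).isCh] at e1
    rw [Cx.dd, map_zero] at e2
    rw [map_add] at e3
    rw [(ach Z g).isCh] at e4
    have a1 := add_self2 K ((ach Z f).lim (hB.lim ((Z.cx b).cx.d x)))
    have a2 := add_self2 K (hC.lim ((ach Z g).lim ((Z.cx b).cx.d x)))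
    have a3 := add_self2 K ((ach Z f).lim ((ach Z h).lim ((ach Z g).lim x)))
    linear_combination (norm := abel) e2 - e1 - e3 - e4 + a1 + a2 - a3
  rw [ach_hm] at h2 h3 h4
  rw [ach_hm Z f] at h4
  rw [ach_hm, ach_hm]
  refine fun y => key (Z.cx b).cx.hg Prod.snd (fun r => ?_) (fun l c hc => HCx.map_hg cν (ν.lim_up
    (lo.mono fun m k => Gen.mat_up fun i j hi u => hi ▸ k i j u)) hc) h4 (fun y hy => ?_) h1 h2 h3
  · have : FiniteDimensional K ((Z.cx b).cx.g.up {l | l.2 ≤ r}) := (Z.cx b).lg_le_fd r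
    rw [HCx.hg_up]
    exact HCx.fd_img _
  · obtain ⟨x, hx, rfl⟩ := (Z.cx b).cx.exists_cls y
    obtain ⟨z, hz⟩ := ((Z.cx c).cx.cls_eq_zero ((ach Z g).isCh.cyc hx)).1 hy
    have e1 := eB x
    have e2 := eC z
    have e3 := eq x
    rw [hx, map_zero, add_zero] at e1 e3
    rw [hz] at e2
    have hw : (Z.cx a).cx.d (hB.lim x + (ach Z h).lim z) = 0 := by
      rw [map_add, e1, (ach Z h).isCh, hz, add_self2 K]
    refine ⟨(Z.cx a).cx.cls _ hw, Eq.trans (((Z.cx b).cx.cls_eq_iff ((ach Z f).isCh.cyc hw)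
      ((u.isCh.add cν).cyc hx)).2 ⟨hC.lim z + G.lim x, ?_⟩) ((Z.cx b).cx.cls_add (u.isCh.cyc hx) (cν.cyc hx) _)⟩
    rw [map_add, map_add, LinearMap.add_apply]
    have a1 := add_self2 K (u.lim x + ν.lim x)
    linear_combination (norm := abel) e2 + e3 + a1

end Crest.Agent.X212.Tri19
end
end

-- ▼ part X212/Nv5/PenT
section

/-!
# Row 212, layer S (helper5): the pentagon over a set of triples (ALG-4', after `Alg43.pentStmt`)
-/

set_option autoImplicit false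
set_option linter.unusedSectionVars false

open Module Function Filter

noncomputable section

namespace Crest.Agent.X212.Alg43

open Win22 Flo2 WG
open Bor5 (K)

variable {S : Sk} {Z : Cs S} {a b c : S.E} {I J M : Type}

open Classical in
/-- `φ` if `p` holds -/
def ind (p : Prop) (φ : Mx Z a b) : Mx Z a b := if p then φ else 0

variable {p : Prop} {φ φ' : Mx Z a b} {ψ : Mx Z b c} {F : I → Mx Z a b} {G : J → Mx Z b c}

theorem ind_zero {m i k} (h : φ m i k = 0) : ind p φ m i k = 0 := by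
  unfold ind; split_ifs; exacts [h, rfl]

theorem ind_add : ind p (φ + φ') = ind p φ + ind p φ' := by unfold ind; split_ifs <;> simp

theorem mul_ind : mul φ (ind p ψ) = ind p (mul φ ψ) := by
  unfold ind; split_ifs; exacts [rfl, by funext m i k; simp [mul]]

theorem ind_mul : mul (ind p φ) ψ = ind p (mul φ ψ) := by
  unfold ind; split_ifs; exacts [rfl, by funext m i k; simp [mul]]

theorem Leq.ind (h : Leq (del φ) φ') : Leq (del (ind p φ)) (ind p φ') := by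
  rw [del, mul_ind, ind_mul, ← ind_add]
  unfold Alg43.ind; split_ifs; exacts [h, Leq.rfl]

theorem Al.ind (h : Al F) (q : I → Prop) : Al fun i => ind (q i) (F i) := h.mono fun _ _ _ k l => ind_zero (k l)

theorem Bd.ind (h : Bd φ) : Bd (ind p φ) :=
  fun r => (h r).imp fun _ k => k.mono fun _ k i l hi e => k i l hi fun u => e (ind_zero u)

theorem Has.leq (h : Has F φ) (e : Leq φ φ') : Has F φ' := ⟨h.1, h.2.trans e⟩

theorem Al.curry {Φ : I × J → Mx Z a b} (h : Al Φ) : Has (fun i => tot fun j => Φ (i, j)) (tot Φ) :=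
  ⟨h.push Prod.fst fun i _ _ k l => finsum_eq_zero_of_forall_eq_zero fun j => k (i, j) rfl l,
    h.fin.mono fun _ _ k l => (finsum_curry _ (k l)).symm⟩

/-- the products over a relation -/
def rel (R : I → J → Prop) (F : I → Mx Z a b) (G : J → Mx Z b c) : Mx Z a c :=
  tot fun p : I × J => ind (R p.1 p.2) (mul (F p.1) (G p.2))

theorem has_rel {f : I → S.F a b} {g : J → S.F b c} (hf : Al fun i => Z.z (f i))
    (hg : Al fun j => Z.z (g j)) (R : I → J → Prop) (e : M → I × J) (he : Injective e)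
    (hR : ∀ k, R (e k).1 (e k).2) (hs : ∀ p, S.t (f p.1) = S.s (g p.2) → R p.1 p.2 → p ∈ Set.range e) :
    Has (fun k => mul (Z.z (f (e k).1)) (Z.z (g (e k).2))) (rel R (fun i => Z.z (f i)) fun j => Z.z (g j)) :=
  ⟨(hf.prod' (fun _ => bd_z _) hg).comp he, by
    rw [tot_inj (F' := fun p : I × J => ind (R p.1 p.2) (mul (Z.z (f p.1)) (Z.z (g p.2)))) e he
      (fun k => if_pos (hR k)) fun p hp => by
        unfold ind; split_ifs with u; exacts [mul_off fun h => hp (hs p h u), rfl]]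
    exact Leq.rfl⟩

theorem has_relR (hF : Al F) (hb : ∀ i, Bd (F i)) (hG : Al G) (R : I → J → Prop) :
    Has (fun i => mul (F i) (tot fun j => ind (R i j) (G j))) (rel R F G) :=
  have k := ((hF.prod' hb hG).ind fun p => R p.1 p.2).curry
  ⟨hF.mono fun _ _ _ k l => by simp [mul, k], (tot_congr k.1 (hF.mono fun _ _ _ k l => by simp [mul, k]) fun i => by
    simpa only [mul_ind] using mul_tot (hb i) (hG.ind (R i))).symm.trans k.2⟩

theorem has_relL (hF : Al F) (hb : ∀ i, Bd (F i)) (hG : Al G) (R : I → J → Prop) :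
    Has (fun j => mul (tot fun i => ind (R i j) (F i)) (G j)) (rel R F G) := by
  have k := (Al.curry (Φ := fun p : J × I => ind (R p.2 p.1) (mul (F p.2) (G p.1)))
    (((hF.prod' hb hG).ind fun p => R p.1 p.2).comp Prod.swap_injective))
  have l : Al fun j => mul (tot fun i => ind (R i j) (F i)) (G j) :=
    (hF.prod hb hG).push Prod.snd fun j m i k l => Finset.sum_eq_zero fun s _ => by
      rw [tot, finsum_mul]
      refine finsum_eq_zero_of_forall_eq_zero fun x => ?_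
      unfold ind; split_ifs; exacts [k (x, j) rfl s l, zero_mul _]
  refine ⟨l, (tot_congr k.1 l fun j => by simpa only [ind_mul] using tot_mul (hF.ind (R · j)) (G j)).symm.trans ?_⟩
  rw [rel, ← tot_inj (F := fun p : J × I => ind (R p.2 p.1) (mul (F p.2) (G p.1))) Prod.swap Prod.swap_injective
    (fun _ => rfl) fun p hp => (hp (Prod.swap_surjective p)).elim]
  exact k.2

theorem mat_tot {m : ℕ} {y : (Z.A a).ι m → K} (T : Finset I)
    (h : ∀ i, y i ≠ 0 → ∀ κ ∉ T, ∀ k, F κ m i k = 0) : mat (tot F m) y = ∑ κ ∈ T, mat (F κ m) y := by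
  funext l
  refine Eq.trans ?_ (Finset.sum_apply l T fun κ => mat (F κ m) y).symm
  show ∑ i, y i * ∑ᶠ κ, F κ m i l = ∑ κ ∈ T, ∑ i, y i * F κ m i l
  rw [Finset.sum_comm]
  refine Finset.sum_congr rfl fun i _ => ?_
  by_cases e : y i = 0
  · simp [e]
  · rw [finsum_eq_sum_of_support_subset (s := T) _ fun κ t => by_contra fun u => t (h i e κ u l), Finset.mul_sum]

theorem Has.fin (h : Has F φ) {xs : ∀ m, (Z.cx a).H m} {x : (Z.cx a).LH} (r : Rp xs x) :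
    ∃ T : Finset I, ∀ T', T ⊆ T' → ∀ᶠ m in uf, mat (φ m) (xs m) = ∑ κ ∈ T', mat (F κ m) (xs m) := by
  obtain ⟨s, hs⟩ := r.le
  obtain ⟨T, k⟩ := h.1 s
  refine ⟨T, fun T' u => (hs.and ((ev_uf k).and (r.loc h.2.loc))).mono fun m ⟨k1, k2, k3⟩ => k3.symm.trans ?_⟩
  have hy : ∀ i, ¬((Z.A a).lab m i).2 ≤ s → xs m i = 0 := ((Z.A a).le_eq m s ▸ k1 :)
  exact mat_tot T' fun i e κ t => k2 i (by_contra fun v => e (hy i v)) κ fun v => t (u v)

variable {f : S.Arr a b} {g : S.Arr b c} {h : S.Arr c a}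

variable (Z) in
/-- the null-homotopy over a relation -/
def nulp (D : Sk.Dbl f g) (R : f.I → g.I → Prop) : Mx Z a c :=
  (tot fun j => ind (R (D.e j).1.1 (D.e j).1.2) (Z.z (D.h j))) +
    tot fun j : {j // D.half j} => ind (R (D.e j).1.1 (D.e j).1.2) (Z.z (D.γ j))

theorem bd_nulp (D : Sk.Dbl f g) (R : f.I → g.I → Prop) : Bd (nulp Z D R) :=
  (((alive D.ph).ind _).bd fun _ => (bd_z _).ind).add ((((alive D.pγ).sub _).ind _).bd fun _ => (bd_z _).ind)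

theorem del_nulp (D : Sk.Dbl f g) {R : f.I → g.I → Prop}
    (hR : ∀ j, R (D.e j).1.1 (D.e j).1.2 → R (D.e (D.r j)).1.1 (D.e (D.r j)).1.2) :
    Leq (del (nulp Z D R)) (rel R (fun i => Z.z (f.f i)) fun j => Z.z (g.f j)) := by
  have a1 := (alive (Z := Z) D.pp).ind fun j => R (D.e j).1.1 (D.e j).1.2
  have i1 : Injective fun j => (D.e j).1 := Subtype.val_injective.comp D.e.injective
  have h0 : Has (fun j => ind (R (D.e j).1.1 (D.e j).1.2) (mul (Z.z (f.f (D.e j).1.1)) (Z.z (g.f (D.e j).1.2))))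
      (rel R (fun i => Z.z (f.f i)) fun j => Z.z (g.f j)) :=
    ⟨(((alive f.prp).prod' (fun _ => bd_z _) (alive g.prp)).ind fun p => R p.1 p.2).comp i1, by
      rw [tot_inj (F' := fun p => ind (R p.1 p.2) (mul (Z.z (f.f p.1)) (Z.z (g.f p.2)))) _ i1 (fun _ => rfl)
        fun p hp => by unfold ind; split_ifs; exacts [mul_off fun u => hp ⟨D.e.symm ⟨p, u⟩, by simp⟩, rfl]]
      exact Leq.rfl⟩
  have h1 := (a1.has.add h0).del ((alive D.ph).ind _) fun j => by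
    rw [← ind_add]
    exact Leq.ind (by simpa [nkt] using mas_bd (Z := Z) (D.bh j))
  have h2 := (a1.half D.rr D.hr).del (((alive D.pγ).sub _).ind fun j => R (D.e j).1.1 (D.e j).1.2) fun j => by
    rw [show R (D.e (D.r j)).1.1 (D.e (D.r j)).1.2 = R (D.e j).1.1 (D.e j).1.2 from
      propext ⟨fun u => by simpa [D.rr] using hR _ u, hR _⟩, ← ind_add]
    exact Leq.ind (by simpa using mas_bd (Z := Z) (D.bγ j))
  rw [nulp, del_add]
  refine (h1.and h2).mono fun m i k l => ?_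
  have := k.1 l
  have := k.2 l
  simp only [Pi.add_apply] at *
  grind

variable {D0 : Sk.Dbl f g} {D1 : Sk.Dbl g h} {N : S.Cap} {T : f.I → g.I → h.I → Prop} (P : Sk.Pen D0 D1 N T)

/-- **the pentagon identity** -/
theorem penT : ∃ G φ ψ : Mx Z a a, Bd G ∧ Has (fun k => mul (nulp Z D0 fun i j => T i j k) (Z.z (h.f k))) φ ∧
    Has (fun i => mul (Z.z (f.f i)) (nulp Z D1 (T i))) ψ ∧ Leq (del G) (φ + ψ + (zt Z P.ι + capT Z P)) := by
  obtain ⟨pQ, pA, pB, pS1, pS2, pΓ1, pΓ2, pR1, pR2, pρ⟩ := P.prp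
  have aκ : Al fun t => Z.z (P.κ t) := Cof.fintype _
  have h1 := (((has_z (Z := Z) pA).add (has_z pB)).add ((has_rel (alive f.prp) (alive D1.ph)
    (fun i j => T i (D1.e j).1.1 (D1.e j).1.2) _ (Subtype.val_injective.comp P.e1.injective)
    (fun k => (P.e1 k).2.2) fun p hp u => ⟨P.e1.symm ⟨p, hp, u⟩, by simp⟩).add
    (has_rel (alive D0.ph) (alive h.prp) (fun j k => T (D0.e j).1.1 (D0.e j).1.2 k) _
      (Subtype.val_injective.comp P.e0.injective) (fun k => (P.e0 k).2.2)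
      fun p hp u => ⟨P.e0.symm ⟨p, hp, u⟩, by simp⟩))).del (alive pQ) fun k => by
      simpa [nkt] using mas_bd (Z := Z) (P.bQ k)
  have h2 := ((((alive (Z := Z) pB).half (r1_r1 P) (r1_half P)).add ((alive pΓ1).sub _).has).add
    (has_rel ((alive D0.pγ).sub D0.half) (alive h.prp) (fun j k => T (D0.e j).1.1 (D0.e j).1.2 k)
      (fun k : {k // D0.half (P.e0 k).1.1} => (⟨(P.e0 k).1.1, k.2⟩, (P.e0 k).1.2))
      (fun k k' e => Subtype.ext (P.e0.injective (Subtype.ext (by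
        simp only [Prod.mk.injEq, Subtype.mk.injEq] at e; exact Prod.ext e.1 e.2)))) (fun k => (P.e0 k).2.2)
      fun p hp u => ⟨⟨P.e0.symm ⟨(p.1, p.2), D0.tγ _ ▸ hp, u⟩, by simpa using p.1.2⟩, by simp⟩)).del
    ((alive pS1).sub _) fun k => by simpa [nkt, add_assoc] using mas_bd (Z := Z) (P.bS1 k)
  have h3 := ((((alive (Z := Z) pA).half (r2_r2 P) (r2_half P)).add ((alive pΓ2).sub _).has).add
    (has_rel (alive f.prp) ((alive D1.pγ).sub D1.half) (fun i j => T i (D1.e j).1.1 (D1.e j).1.2)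
      (fun k : {k // D1.half (P.e1 k).1.2} => ((P.e1 k).1.1, ⟨(P.e1 k).1.2, k.2⟩))
      (fun k k' e => Subtype.ext (P.e1.injective (Subtype.ext (by
        simp only [Prod.mk.injEq, Subtype.mk.injEq] at e; exact Prod.ext e.1 e.2)))) (fun k => (P.e1 k).2.2)
      fun p hp u => ⟨⟨P.e1.symm ⟨(p.1, p.2), D1.sγ _ ▸ hp, u⟩, by simpa using p.2.2⟩, by simp⟩)).del
    ((alive pS2).sub _) fun k => by simpa [nkt, add_assoc] using mas_bd (Z := Z) (P.bS2 k)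
  have h4 := ((((alive (Z := Z) pΓ1).sub _).has.add ((alive pρ).half (r1_r1 P) (r1_half P))).add
    (has_live (cof_Lc P) N.p1 P.β1 P.c1)).del ((alive pR1).sub _) fun k => by
      simpa using mas (Z := Z) _ (P.bR1 k).1 (.of_eq (P.bR1 k).2)
  have h5 := ((((alive (Z := Z) pΓ2).sub _).has.add ((alive pρ).half (r2_r2 P) (r2_half P))).add
    (has_live (cof_Lc P) N.p2 P.β2 P.c2)).del ((alive pR2).sub _) fun k => by
      simpa using mas (Z := Z) _ (P.bR2 k).1 (.of_eq (P.bR2 k).2)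
  have h6 := ((Al.has (F := fun t => Z.z (P.ι t)) (Cof.fintype _)).add
    ((has_cap (Q := fun _ : Unit => N.B) (cof_Lc P) (Cof.fintype _)).caps (fun p => P.β0.symm p.1)
      (fun p p' e => Prod.ext (P.β0.symm.injective e) rfl)
      (fun t => by rw [P.c0, P.β0.apply_symm_apply])
      fun θ u => (u ⟨(P.β0 θ, ()), by simp⟩).elim)).del aκ fun t => by
      simpa using mas (Z := Z) _ (.of_eq (P.bκ t).1) (.of_eq (P.bκ t).2)
  refine ⟨_, _, _, (((((bd_zt (alive pQ)).add (bd_zt ((alive pS1).sub fun k => D0.half (P.e0 k).1.1))).add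
    (bd_zt ((alive pS2).sub fun k => D1.half (P.e1 k).1.2))).add
    (bd_zt ((alive pR1).sub fun k => D0.half (P.e0 k).1.1))).add
    (bd_zt ((alive pR2).sub fun k => D1.half (P.e1 k).1.2))).add (bd_zt aκ),
    by simpa only [nulp, add_mul'] using (has_relL (alive D0.ph) (fun _ => bd_z _) (alive h.prp)
      fun j k => T (D0.e j).1.1 (D0.e j).1.2 k).add (has_relL ((alive D0.pγ).sub D0.half) (fun _ => bd_z _)
        (alive h.prp) fun j k => T (D0.e j).1.1 (D0.e j).1.2 k),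
    by simpa only [nulp, mul_add'] using (has_relR (alive f.prp) (fun _ => bd_z _) (alive D1.ph)
      fun i j => T i (D1.e j).1.1 (D1.e j).1.2).add (has_relR (alive f.prp) (fun _ => bd_z _)
        ((alive D1.pγ).sub D1.half) fun i j => T i (D1.e j).1.1 (D1.e j).1.2), ?_⟩
  simp only [del_add]
  refine (h1.and (h2.and (h3.and (h4.and (h5.and h6))))).mono fun m i k l => ?_
  have k1 := k.1 l
  have k2 := k.2.1 l
  have k3 := k.2.2.1 l
  have k4 := k.2.2.2.1 l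
  have k5 := k.2.2.2.2.1 l
  have k6 := k.2.2.2.2.2 l
  have e : zt Z (fun _ : Unit => N.B) = Z.z N.B := by
    funext m i k; exact finsum_unique _
  rw [e] at k6
  simp only [Pi.add_apply, capT, mul_add, Finset.sum_add_distrib] at *
  simp only [zt] at *
  rw [k1, k2, k3, k4, k5, k6]
  grind

theorem del_ind {f : I → S.F a b} (hp : ∀ κ, S.Pt (f κ)) (h : S.Prp f) (q : I → Prop) : (Z.cx a).Loc fun m y =>
    (Z.cx b).d m (mp (tot fun i => ind (q i) (Z.z (f i))) m y) =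
      mp (tot fun i => ind (q i) (Z.z (f i))) m ((Z.cx a).d m y) :=
  loc_mono (del_tot ((alive h).ind q) (F' := fun i => ind (q i) 0) (fun _ => ⟨∅, Eventually.of_forall
    fun _ _ _ _ _ _ => ind_zero rfl⟩) fun κ => Leq.ind (by
      simpa using mas_bd (Z := Z) (l := []) (n := []) ⟨.of_eq (hp κ).fc, .of_eq (hp κ).nk, (hp κ).cp⟩)).loc
    fun m y k => by
      rw [mat_del, mat_tot (F := fun i => ind (q i) 0) ∅ fun _ _ _ _ _ => ind_zero rfl] at k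
      exact funext fun l => CharTwo.add_eq_zero.1 (congrFun k l)

/-- ALG-4' -/
theorem pent2Stmt : Pent2Stmt := fun S Z b c f g h D0 D1 N T P hN hI ⟨t, ht⟩ hh y hy => by
  classical
  have hz : zt Z P.ι = Z.z (P.ι t) := by
    funext m i k; exact finsum_eq_single _ t fun t' u => (u (hI _ _)).elim
  have h1 : ∀ᶠ m in uf, Z.z (P.ι t) m (Z.pt m) (Z.pt m) ≠ 0 := by
    refine (Ultrafilter.em (hyperfilter ℕ) _).resolve_right fun u => ht ?_
    rw [Z.hm_eq (P.pι t)]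
    refine Cx.hext fun x hx => ?_
    obtain ⟨xs, -, rx, -⟩ := exists_rp x
    refine ((Z.cx _).cx.cls_congr _ (map_zero _) (((Z.ch (P.pι t)).rp rx).ext Rp.zero
      (u.mono fun m u => funext fun k => ?_))).trans ((Z.cx _).cx.cls_zero _)
    exact (mat_one Z m _ _ k).trans (mul_eq_zero_of_right _ (not_not.1 u))
  have h2 : ∀ t', Z.dg (P.ι t') = 0 := fun t' => by
    obtain ⟨m, u⟩ := h1.exists
    simpa [hI t' t] using congrArg Prod.snd (Z.hz _ m _ _ u).2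
  have h3 : ∀ᶠ m in atTop, capT Z P m (Z.pt m) (Z.pt m) = 0 :=
    (capT_low P hN).mono fun m k => by_contra fun u => by
      obtain ⟨t', v⟩ := k _ _ u
      simp [h2] at v
  obtain ⟨G, φ, ψ, hG, hφ, hψ, e⟩ := penT (Z := Z) P
  obtain ⟨x, hx, rfl⟩ := (Z.cx _).cx.exists_cls y
  choose w hw using fun i => ((Z.cx b).cx.cls_eq_zero ((Z.ch (f.pt i)).isCh.cyc hx)).1
    (by have := hy i; rwa [Z.hm_eq (f.pt i)] at this)
  obtain ⟨xs, -, rx, -⟩ := exists_rp x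
  choose ws _ rw' _ using fun i => exists_rp (w i)
  have e1 : ∀ i, ∀ᶠ m in uf, (Z.cx b).d m (ws i m) = mp (Z.z (f.f i)) m (xs m) := fun i =>
    ((Z.cx b).dM.rp (rw' i)).ev (show Rp _ ((Z.cx b).cx.d (w i)) from hw i ▸ (Z.ch (f.pt i)).rp rx)
  obtain ⟨A, hA⟩ := alive (Z := Z) f.prp 0
  have eA : ∀ {d : S.E} (χ : f.I → Mx Z b d), ∀ᶠ m in uf, mat (tot (fun i => mul (Z.z (f.f i)) (χ i)) m) (xs m) =
      ∑ i ∈ A, mp (χ i) m ((Z.cx b).d m (ws i m)) := fun χ =>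
    ((ev_uf hA).and ((eventually_all_finset A).2 fun i _ => e1 i)).mono fun m k =>
      (mat_tot A fun i _ κ u l => Finset.sum_eq_zero fun j _ =>
        mul_eq_zero_of_left (k.1 i (by rw [Z.pt_eq m i, Z.pt_deg]) κ u j) _).trans
        (Finset.sum_congr rfl fun i u => by rw [mat_mul, k.2 i u]; rfl)
  let Γ := fun i k => tot fun j => ind (T i j k) (Z.z (g.f j))
  have rv := fun k => ((wm _ (bd_nulp (Z := Z) D0 fun i j => T i j k)).rp rx).add (Rp.sum A fun i _ =>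
    (wm (Γ i k) (((alive g.prp).ind _).bd fun _ => (bd_z _).ind)).rp (rw' i))
  have e2 : ∀ k, ∀ᶠ m in uf, mp (Z.z (h.f k)) m (mp (nulp Z D0 fun i j => T i j k) m (xs m) +
      ∑ i ∈ A, mp (Γ i k) m (ws i m)) = 0 := fun k => by
    have hv := ((Z.cx c).dM.rp (rv k)).ext Rp.zero (((eA (Γ · k)).and ((rx.loc ((del_nulp D0 (R := (T · · k)) fun j => P.T1 j k).trans
      (has_relR (alive f.prp) (fun _ => bd_z _) (alive g.prp) _).2.symm).loc).and ((eventually_all_finset A).2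
        fun i _ => (rw' i).loc (del_ind g.pt g.prp (T i · k))))).mono fun m ⟨k1, k2, k3⟩ => by
      rw [mat_del, k1, show mat (Z.d S.one m) (xs m) = 0 from d_one Z m _, map_zero, add_zero] at k2
      show (Z.cx c).d m (_ + _) = 0
      rw [map_add, map_sum]
      exact (congrArg₂ (fun u v : (Z.cx c).H m => u + v) k2 (Finset.sum_congr rfl k3)).trans (add_self2 K _))
    obtain ⟨s, hs⟩ := ((Z.cx S.one).cx.cls_eq_zero ((Z.ch (h.pt k)).isCh.cyc hv)).1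
      (by have := LinearMap.congr_fun (hh k) ((Z.cx c).cx.cls _ hv); rwa [Z.hm_eq (h.pt k)] at this)
    obtain ⟨ss, -, rs, -⟩ := exists_rp s
    exact (((Z.cx S.one).dM.rp rs).ev (show Rp _ ((Z.cx S.one).cx.d s) from hs ▸ (Z.ch (h.pt k)).rp (rv k))).mono
      fun m k => k.symm.trans (d_one Z m _)
  obtain ⟨C, hC⟩ := hφ.fin rx
  choose B hB using fun i => ((has_relL (alive g.prp) (fun _ => bd_z _) (alive h.prp) (T i)).leq
    (del_nulp (Z := Z) D1 (P.T2 i)).symm).fin (rw' i)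
  refine ((Z.cx _).cx.cls_congr _ (map_zero _) (rx.ext Rp.zero ((h1.and ((ev_uf h3).and ((rx.loc e.loc).and
    ((hC (C ∪ A.biUnion B) Finset.subset_union_left).and ((rx.loc hψ.2.loc).and ((eA fun i => nulp Z D1 (T i)).and
      (((eventually_all_finset A).2 fun i u => hB i (C ∪ A.biUnion B) ((Finset.subset_biUnion_of_mem B u).trans
        Finset.subset_union_right)).and ((eventually_all_finset (C ∪ A.biUnion B)).2 fun k _ => e2 k)))))))).mono
        fun m ⟨k1, k2, k3, k4, k5, k6, k7, k8⟩ => ?_))).trans ((Z.cx _).cx.cls_zero _)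
  have d0 : ∀ y, mat (Z.d S.one m) y = 0 := d_one Z m
  have k0 : mat (φ m) (xs m) + mat (ψ m) (xs m) = 0 := by
    have k7' := fun i u => (show _ = mat (del (nulp Z D1 (T i)) m) (ws i m) by rw [mat_del, d0, zero_add]).trans (k7 i u)
    rw [k4, ← k5, k6.trans ((Finset.sum_congr rfl k7').trans Finset.sum_comm)]
    refine Finset.sum_add_distrib.symm.trans (Finset.sum_eq_zero fun k u => ?_)
    have := k8 k u
    rw [map_add, map_sum] at this
    simp only [mat_mul]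
    exact this
  rw [mat_del, d0, d0, map_zero, add_zero, mat_add, mat_add, mat_add, k0, zero_add, hz] at k3
  funext l
  have k9 : (0 : K) = mat (Z.z (P.ι t) m) (xs m) l + mat (capT Z P m) (xs m) l := congrFun k3 l
  rw [mat_one, mat_one, k2, mul_zero, add_zero] at k9
  exact (mul_eq_zero.1 k9.symm).resolve_right k1

end Crest.Agent.X212.Alg43
end
end

-- ▼ part X212/Lad50/Clo

/-!
# Row 212, ALG-5 (helper50): the marks `hi1`, `hi0` may be closed under one homotopy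
-/

set_option autoImplicit false

open Filter

noncomputable section

namespace Crest.Agent.X212.Lad50.Cl

open Win22 Flo2
open Bor5 (K)

variable {S : Sk} (Z : Cs S)

/-- no differential leaves a high degree -/
theorem dz {e : S.E} (he : S.qhs e) (s : S.L e) {x : ℚ} (hx : (Z.A e).w s + Z.N e + 1 ≤ x) :
    ∀ᶠ m in atTop, ∀ i, (Z.A e).lab m i = (s, x) → ∀ j, Z.d e m i j = 0 := by
  by_cases h : ∃ k : ℕ, x = (Z.A e).w s + k
  · obtain ⟨k, rfl⟩ := h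
    have hN : Z.N e + 1 ≤ k := by
      have : (Z.N e : ℚ) + 1 ≤ k := by linarith
      exact_mod_cast this
    obtain ⟨k, rfl⟩ : ∃ k', k = k' + 1 := ⟨k - 1, by omega⟩
    rcases Nat.even_or_odd k with h | h
    · exact (Z.od e he s (k + 1) (by omega) h.add_one).mono fun m hm i hi => (hm i hi).elim
    · refine (Z.od e he s k (by omega) h).mono fun m hm i hi j => by_contra fun h0 => hm j ?_
      rw [Z.hom e m i j h0, hi]
      simp only [sh, Nat.cast_add_one, Prod.mk.injEq, true_and]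
      ring
  · refine Eventually.of_forall fun m i hi => (h ?_).elim
    have := (Z.A e).lat m i
    rwa [hi] at this

/-- the facets of a family without necks and caps cancel in high degrees -/
theorem van {a b : S.E} (ha : S.qhs a) (hb : S.qhs b) {ρ : S.F a b} {l : List (S.F a b)}
    (h : S.Bd ρ l []) (c : S.L a) : ∃ n : ℚ, ∀ x, n ≤ x → ∀ᶠ m in atTop, ∀ i,
      (Z.A a).lab m i = (c, x) → ∀ k, (l.map fun τ => Z.z τ m i k).sum = 0 := by
  refine ⟨max ((Z.A a).w c + Z.N a + 1) ((Z.A b).w (S.t ρ) + Z.N b + 1 - Z.dg ρ), fun x hx => ?_⟩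
  rw [max_le_iff] at hx
  filter_upwards [Bs.mas_bd Z h x, dz Z ha c hx.1,
    dz Z hb (S.t ρ) (x := x + Z.dg ρ) (by linarith [hx.2])] with m h1 h2 h3 i hi k
  have h4 := h1 i (by rw [hi]) k
  rw [List.map_nil, List.sum_nil, add_zero] at h4
  rw [← h4, Finset.sum_eq_zero fun j _ => by rw [h2 i hi j, zero_mul], zero_add]
  refine Finset.sum_eq_zero fun j _ => ?_
  by_cases h0 : Z.z ρ m i j = 0
  · rw [h0, zero_mul]
  · rw [h3 j (by rw [(Z.hz ρ m i j h0).2, hi]) k, mul_zero]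

/-- families that vanish in high degrees -/
theorem lst {a b : S.E} (c : S.L a) (l : List (S.F a b)) (h : ∀ τ ∈ l, S.hi0 τ) :
    ∃ n : ℚ, ∀ x, n ≤ x → ∀ᶠ m in atTop, ∀ i,
      (Z.A a).lab m i = (c, x) → ∀ k, (l.map fun τ => Z.z τ m i k).sum = 0 := by
  induction l with
  | nil => exact ⟨0, fun _ _ => Eventually.of_forall fun _ _ _ _ => rfl⟩
  | cons τ l ih =>
    obtain ⟨n, hn⟩ := ih fun τ' h' => h τ' (List.mem_cons_of_mem _ h')
    obtain ⟨n', hn'⟩ := Z.hi0 τ (h τ List.mem_cons_self)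
    refine ⟨max n n', fun x hx => ?_⟩
    rw [max_le_iff] at hx
    filter_upwards [hn x hx.1, hn' x hx.2] with m h1 h2 i hi k
    rw [List.map_cons, List.sum_cons, h1 i hi k, add_zero]
    by_contra h0
    have := (Z.hz τ m i k h0).1
    rw [hi] at this
    exact h0 (h2 i (by rw [hi, ← this]) k)

theorem hi1 {a b : S.E} (σ : S.F a b) (h : S.clo.hi1 σ) : ∃ n : ℚ, ∀ x, n ≤ x → ∀ᶠ m in atTop,
    ∀ i, (Z.A a).lab m i = (S.s σ, x) → ∃ k, Z.z σ m i k ≠ 0 := by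
  rcases h with h | ⟨ha, hb, ρ, τ, l, h, h1, hs, h0⟩
  · exact Z.hi1 σ h
  obtain ⟨n₁, e₁⟩ := van Z ha hb h (S.s σ)
  obtain ⟨n₂, e₂⟩ := lst Z (S.s σ) l h0
  obtain ⟨n₃, e₃⟩ := Z.hi1 τ h1
  refine ⟨max n₁ (max n₂ n₃), fun x hx => ?_⟩
  simp only [max_le_iff] at hx
  filter_upwards [e₁ x hx.1, e₂ x hx.2.1, e₃ x hx.2.2] with m k₁ k₂ k₃ i hi
  refine (k₃ i (by rw [hi, hs])).imp fun k hk h' => hk ?_
  have := k₁ i hi k
  rwa [List.map_cons, List.map_cons, List.sum_cons, List.sum_cons, k₂ i hi k, h', zero_add,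
    add_zero] at this

theorem hi0 {a b : S.E} (σ : S.F a b) (h : S.clo.hi0 σ) : ∃ n : ℚ, ∀ x, n ≤ x → ∀ᶠ m in atTop,
    ∀ i, (Z.A a).lab m i = (S.s σ, x) → ∀ k, Z.z σ m i k = 0 := by
  rcases h with h | ⟨ha, hb, ρ, l, h, h0⟩
  · exact Z.hi0 σ h
  obtain ⟨n₁, e₁⟩ := van Z ha hb h (S.s σ)
  obtain ⟨n₂, e₂⟩ := lst Z (S.s σ) l h0
  refine ⟨max n₁ n₂, fun x hx => ?_⟩
  rw [max_le_iff] at hx
  filter_upwards [e₁ x hx.1, e₂ x hx.2] with m k₁ k₂ i hi k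
  have := k₁ i hi k
  rwa [List.map_cons, List.sum_cons, k₂ i hi k, add_zero] at this

/-- **ALG-5** -/
theorem clo : CloStmt := fun _ ⟨Z⟩ => ⟨{ Z with hi1 := hi1 Z, hi0 := hi0 Z }⟩

end Crest.Agent.X212.Lad50.Cl
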