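import Mathlib
import Crest.Agent.X212.Lad50.KhA
import Crest.Agent.X212.Prf6.Main
import Crest.Agent.X212.Arx49.Arc
import Crest.Agent.X212.Tub3.Main
import Crest.Agent.X212.Mor94.Main_Mg
import Crest.Agent.X212.Orx52.Orb
import Crest.Agent.X212.Sep15.Cm2

/-!
# Row 212, KillH1 (helper50): finitely many Dehn twists kill the first cohomology of a surface
-/

set_option autoImplicit false
set_option linter.unusedSectionVars false
noncomputable section
open Set Filter Topology Function Complex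
open scoped ContDiff Manifold

namespace Crest.Agent.X212.Lad50.Kh
open Prf6

/-- every connected closed surface has cut systems -/
theorem graph : Graph := graph_of Mor94.morse Mor94.noc Cut44.cutS

/-- an annulus whose core crosses a wall once -/
theorem exists_cross (X : Sf) {U W : Set X.R} {B : ℂ → X.R} (hU : IsOpen U)
    (ho : IsOpen (U \ W)) (hc : IsPreconnected (U \ W)) (hB : Pm oC X.o B 0) (h0 : B 0 ∈ U)
    (hW : ∀ᶠ z in 𝓝 0, B z ∈ W ↔ z.im = 0) :
    ∃ A, An X.o A ∧ range A ⊆ U ∧ (∀ y ∈ core A, y ∈ W → y = B 0) ∧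
      ∃ k > (0 : ℝ), ∀ᶠ t : ℝ in 𝓝 0, B t = A (-(t / k : ℝ) * I) := by
  obtain ⟨γ, hγ, hγU, hγZ, k, hk, hγ0⟩ := Arx49.arcx X U W B hU ho hc hB h0 hW
  have hk' : (k : ℂ) ≠ 0 := ofReal_ne_zero.2 hk.ne'
  have hkI : (k : ℂ) * I ≠ 0 := mul_ne_zero hk' I_ne_zero
  obtain ⟨A, hAn, hAU, hAγ, hA0⟩ := Tub3.tub X γ U 1 (fun _ => 0) (fun _ z => B (0 + k * I * z)) hγ
    hU hγU (fun _ _ _ _ => Subsingleton.elim _ _)
    (fun _ => Pm.comp (f := fun z => 0 + k * I * z) (by simpa using hB) (pm_affine hkI 0 0))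
    (fun _ => hγ0.mono fun u hu => by rw [zero_add u, hu]; congr 1; ring)
  refine ⟨A, hAn, hAU, ?_, k, hk, ?_⟩
  · rintro _ ⟨s, rfl⟩ hs
    simp only [hAγ] at hs ⊢
    obtain ⟨n, rfl⟩ := hγZ s hs
    rw [← (hγ.inj 0 _).2 ⟨n, (zero_add _).symm⟩]
    simpa using hγ0.self_of_nhds
  · have h1 : Tendsto (fun t : ℝ => -((t / k : ℝ) : ℂ) * I) (𝓝 0) (𝓝 0) :=
      Continuous.tendsto' (by fun_prop) _ _ (by simp)
    refine (h1.eventually (hA0 0)).mono fun t ht => ?_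
    rw [ofReal_zero, zero_add] at ht
    rw [ht]
    congr 1
    push_cast
    field_simp
    simp

/-- the annulus dual to an arc -/
theorem arc_an (X : Sf) (hM : IsPreconnected (univ : Set X.R)) {Z : Set X.R} {B : ℂ → X.R}
    {η : X.R → ℝ} (h : Arc X.o Z B η) : ∃ A, An X.o A ∧ NS A ∧ range A ⊆ Zᶜ ∧
      (∃ k > (0 : ℝ), ∀ᶠ t : ℝ in 𝓝 0, B t = A (-(t / k : ℝ) * I)) ∧
      ∀ t : ℝ, t ≠ 0 → B t ∉ core A := by
  have e0 : Zᶜ \ core B = (Z ∪ core B)ᶜ := by rw [compl_union]; rfl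
  obtain ⟨A, hA, hAU, h1, k, hk, h0⟩ := exists_cross X (W := core B) h.cl.isOpen_compl
    (e0 ▸ h.cl'.isOpen_compl) (e0 ▸ h.cc) (h.st.1 0) (h.off 0)
    (Eventually.of_forall fun z => h.st.mem_core)
  have h3 : ∀ t : ℝ, t ≠ 0 → B t ∉ core A := fun t ht h' =>
    ht (ofReal_eq_zero.1 (h.st.2 (h1 _ h' ⟨t, rfl⟩)))
  refine ⟨A, hA, ?_, hAU, ⟨k, hk, h0⟩, h3⟩
  obtain ⟨c1, y, hy⟩ := Si.arc_conn h (l := atTop)
    (by rw [cocompact_eq_atBot_atTop]; exact le_sup_right) (Ioi_mem_atTop 0) isPreconnected_Ioi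
  obtain ⟨c2, -⟩ := Si.arc_conn h (l := atBot)
    (by rw [cocompact_eq_atBot_atTop]; exact le_sup_left) (Iio_mem_atBot 0) isPreconnected_Iio
  obtain ⟨r, hr, hrr⟩ := Metric.eventually_nhds_iff.1 h0
  have h2 : ∀ s : ℝ, (-((s / k : ℝ) : ℂ) * I).im = -(s / k) := fun s => by
    simp only [mul_im, neg_re, ofReal_re, I_im, mul_one, neg_im, ofReal_im, I_re, mul_zero,
      add_zero]
  refine Si.ns_of_join hM hA (c1.union y (.inl hy) (.inl hy) c2) ?_
    (z := -((-(r / 2) / k : ℝ) : ℂ) * I) (w := -((r / 2 / k : ℝ) : ℂ) * I)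
    (by rw [h2, neg_div, neg_neg]; positivity) (by rw [h2, neg_lt_zero]; positivity) ?_ ?_
  · rintro p ((hp | ⟨t, ht, rfl⟩) | hp | ⟨t, ht, rfl⟩)
    · exact fun hq => hAU (core_subset A hq) hp
    · exact h3 t (ne_of_gt ht)
    · exact fun hq => hAU (core_subset A hq) hp
    · exact h3 t (ne_of_lt ht)
  · rw [← hrr (by rw [Real.dist_eq, sub_zero, abs_neg, abs_of_pos] <;> linarith)]
    exact .inr (.inr ⟨_, by simp only [mem_Iio]; linarith, rfl⟩)
  · rw [← hrr (by rw [Real.dist_eq, sub_zero, abs_of_pos] <;> linarith)]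
    exact .inl (.inr ⟨_, by simp only [mem_Ioi]; linarith, rfl⟩)

/-- the class of a non-separating annulus is killed by its own twist -/
theorem dual (X : Sf) {A : ℂ → X.R} (hA : An X.o A) (hn : NS A) :
    ∃ v : X.R → Circle, ContMDiff IC (𝓡 1) ∞ v ∧ ∃ f : X.R → ℝ, Continuous f ∧
      ∀ y, vv A y = ee (f y) * (v (tw A y) / v y) := by
  have e0 : univ \ core A = (core A)ᶜ := (compl_eq_univ_sdiff _).symm
  obtain ⟨C, hC, -, h1, k, hk, h0⟩ := exists_cross X (W := core A) isOpen_univ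
    (e0 ▸ hA.isCompact_core.isClosed.isOpen_compl) (e0 ▸ hn) (hA.1 0) trivial
    (Eventually.of_forall fun z => hA.mem_core)
  have hAc := cont_of_pm hA.1
  have h2 := cross hC (c := fun t : ℝ => A t) (hAc.comp continuous_ofReal) hk h0
    (S := Icc (-(1 / 2)) (1 / 2)) fun t ht h h' => by
      obtain ⟨n, hn⟩ := (hA.2 _ _).1 (h1 _ h' ⟨t, rfl⟩).symm
      have h3 : t = n := by exact_mod_cast hn.trans (zero_add _)
      subst h3
      have h4 : (-1 : ℝ) < n := by linarith [ht.1]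
      have h5 : (n : ℝ) < 1 := by linarith [ht.2]
      have h6 : -1 < n := by exact_mod_cast h4
      have h7 : n < 1 := by exact_mod_cast h5
      exact h (by rw [show n = 0 by omega, Int.cast_zero])
  obtain ⟨l, hl, el⟩ := ex_log ((vv_sm hC).continuous.comp hAc)
  have h3 := log_diff isPreconnected_Icc (g := fun t : ℝ => l t) (by fun_prop) h2
    (fun t _ => (el t).trans (ee_cross C _ t).symm) (a := 1 / 2) (b := -(1 / 2))
    (by constructor <;> norm_num) (by constructor <;> norm_num)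
  have h4 : A (1 / 2 : ℝ) = A (-(1 / 2) : ℝ) := by
    rw [← hA.per ((-(1 / 2) : ℝ) : ℂ) 1]; congr 1; push_cast; ring
  rw [if_neg (by norm_num), if_pos (by norm_num), h4] at h3
  obtain ⟨f, hf, ef⟩ := twist hA (v := vv C) hl el (by linarith)
  refine ⟨fun y => (vv C y)⁻¹, (vv_sm hC).inv, f, hf, fun y => ?_⟩
  rw [ef, inv_div_inv]

/-- the maps killed by the `t k` -/
def NN {M : Type*} [TopologicalSpace M] [ChartedSpace ℂ M] {n : ℕ} (t : Fin n → M → M) :
    Subgroup (M → Circle) where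
  carrier := {u | ∃ (v : Fin n → M → Circle) (f : M → ℝ), (∀ k, ContMDiff IC (𝓡 1) ∞ (v k)) ∧
    Continuous f ∧ ∀ x, u x = ee (f x) * ∏ k, v k (t k x) / v k x}
  one_mem' := ⟨fun _ _ => 1, fun _ => 0, fun _ => contMDiff_const, continuous_const, fun x => by
    simp [ee_zero]⟩
  mul_mem' := fun ⟨v, f, h1, h2, h3⟩ ⟨v', f', h1', h2', h3'⟩ => ⟨fun k x => v k x * v' k x,
    fun x => f x + f' x, fun k => (h1 k).mul (h1' k), h2.add h2', fun x => by
      rw [Pi.mul_apply, h3, h3', ee_add, mul_mul_mul_comm, ← Finset.prod_mul_distrib]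
      simp only [mul_div_mul_comm]⟩
  inv_mem' := fun ⟨v, f, h1, h2, h3⟩ => ⟨fun k x => (v k x)⁻¹, fun x => -f x,
    fun k => (h1 k).inv, h2.neg, fun x => by
      rw [Pi.inv_apply, h3, ee_neg, mul_inv, ← Finset.prod_inv_distrib]
      simp only [inv_div_inv, inv_div]⟩

theorem kill (X : Sf) (hM : IsPreconnected (univ : Set X.R)) :
    ∃ (n : ℕ) (t : Fin n → Equiv.Perm X.R), (∀ k, t k ∈ G X.o) ∧
      ∀ u : X.R → Circle, Continuous u → u ∈ NN fun k => t k := by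
  classical
  obtain ⟨x⟩ := X.ne
  obtain ⟨C⟩ := graph X hM x
  choose A hA hn hZ h0 hS using fun j : Fin C.m => arc_an X hM (C.arc j j.2)
  refine ⟨C.m, fun j => tw (A j), fun j => (hA j).tw_mem, fun u hu => ?_⟩
  set N := NN fun j => tw (A j) with hN
  have hv : ∀ j, vv (A j) ∈ N := fun j => by
    obtain ⟨v, h1, f, h2, h3⟩ := dual X (hA j) (hn j)
    refine ⟨Pi.mulSingle j v, f, fun k => ?_, h2, fun y => ?_⟩
    · by_cases h : k = j
      · subst h; rwa [Pi.mulSingle_eq_same]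
      · rw [Pi.mulSingle_eq_of_ne h]; exact contMDiff_const
    · rw [h3, Finset.prod_eq_single j (fun k _ h => by simp [Pi.mulSingle_eq_of_ne h])
        (by simp), Pi.mulSingle_eq_same]
  have up : ∀ j ≤ C.m, ∃ w ∈ N, Continuous w ∧ Lg (C.Z j) (u * w) := by
    intro j
    induction j with
    | zero =>
      intro _
      obtain ⟨E, hE, h1, -⟩ := exists_st_at X.o (univ_mem : univ ∈ 𝓝 x)
      obtain ⟨φ, hφ, -, h2⟩ := C.root (range E) (hE.isOpen_range.mem_nhds ⟨0, h1⟩)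
      refine ⟨1, one_mem _, continuous_const, ?_⟩
      rw [mul_one]
      refine (lg_chart (hE.comp (inv_mem (hφ.mem 1))) hu).mono fun y hy => ?_
      obtain ⟨z, hz⟩ := h2 ⟨y, hy, rfl⟩
      exact ⟨z, by simp [hz]⟩
    | succ j ih =>
      intro hj
      obtain ⟨w, h1, h2, h3⟩ := ih (by omega)
      obtain ⟨k, hk, h4⟩ := h0 ⟨j, hj⟩
      obtain ⟨n, h5⟩ := lg_step (C.arc j hj) (hA ⟨j, hj⟩) (hZ _) hk h4 (hS _) (hu.mul h2) h3
      refine ⟨w * vv (A ⟨j, hj⟩) ^ n, mul_mem h1 (zpow_mem (hv _) n),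
        h2.mul ((vv_sm (hA _)).continuous.zpow n), ?_⟩
      rwa [C.succ j hj, ← mul_assoc]
  obtain ⟨w, h1, h2, O, hO, hZO, g, hg, eg⟩ := up C.m le_rfl
  obtain ⟨D, hD, -, hL⟩ := C.face
  have hK : IsCompact Oᶜ := hO.isClosed_compl.isCompact
  obtain ⟨φ, hφ, -, h3⟩ := hL Oᶜ hK (compl_subset_compl.2 hZO)
  obtain ⟨f, hf, ef⟩ := lg_face (hD.comp (inv_mem (hφ.mem 1))) (hu.mul h2) hg eg hK fun y hy => by
    obtain ⟨z, hz⟩ := h3 ⟨y, hy, rfl⟩
    exact ⟨z, by simp [hz]⟩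
  refine (mul_mem_cancel_right h1).1 ⟨fun _ _ => 1, f, fun _ => contMDiff_const, hf, fun y => ?_⟩
  simp [ef]

open Orx52 in
theorem killH1 : Sep15.KillH1 := by
  intro R oR hR ho
  rcases isEmpty_or_nonempty R with he | he
  · exact ⟨0, Fin.elim0, fun k => k.elim0, fun u _ => ⟨Fin.elim0, fun _ => 0, fun k => k.elim0,
      contMDiff_const, fun x => he.elim x⟩⟩
  obtain ⟨n, t, h1, h2⟩ := kill (sf ho) hR.isPreconnected_univ
  have sm : ∀ g ∈ G (sf ho).o, ContMDiff (𝓡 2) (𝓡 2) ∞ fun x : R => ofCp (g (toCp x)) :=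
    fun g hg => ld_ofCp.contMDiff.comp ((G_sm hg).comp ld_toCp.contMDiff)
  refine ⟨n, fun k => Glue52.diffeoOf _ _ (sm _ (h1 k)) (sm _ (inv_mem (h1 k)))
    (fun x => (t k).symm_apply_apply x) fun x => (t k).apply_symm_apply x, fun k x _ => ?_,
    fun u hu => ?_⟩
  · exact ((pm_R_iff ho (f := fun x : R => ofCp (t k (toCp x))) (x := x)).1 (h1 k x)).2 x rfl
  · obtain ⟨v, f, h3, h4, h5⟩ := h2 (u ∘ ofCp) (hu.comp ld_ofCp.contMDiff).continuous
    have h6 : ∀ k, ContMDiff (𝓡 2) (𝓡 1) ∞ fun x : R => v k (toCp x) :=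
      fun k => (h3 k).comp ld_toCp.contMDiff
    refine ⟨fun k x => v k (toCp x), fun x => 2 * Real.pi * f (toCp x), h6, fun x => ?_, h5⟩
    refine Cyl58.contMDiffAt_of_comp_left (Glue52.ld_circleExp _)
      (continuous_const.mul h4).continuousAt ?_
    have h7 : Circle.exp ∘ (fun x : R => 2 * Real.pi * f (toCp x)) =
        fun x => u x / ∏ k, v k (toCp (ofCp (t k (toCp x)))) / v k (toCp x) :=
      funext fun x => eq_div_iff_mul_eq'.2 (h5 x).symm
    rw [h7]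
    exact (hu.div (contMDiff_finsetProd fun k _ => ((h6 k).comp (sm _ (h1 k))).div (h6 k))) x

end Crest.Agent.X212.Lad50.Kh
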