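import Crest.Agent.X212.Lad50.Fin
import Crest.Agent.R096.Cx3_609

-- ▼ part X212/Lad50/Glue
section

/-!
# Row 212, layer T: blocks glue to a ladder (`Prd34.GlueStmt`, given that rungs separate)
-/

open Set Filter Topology Metric

namespace Crest.Agent.X212.Lad50

open Crest.Agent.R096.Ce_537 Prd34

/-- a rung separates -/
structure SepH (u : P → V) : Prop where
  oU : IsOpen (Up u)
  oD : IsOpen (Dn u)
  dis : Disjoint (Up u) (Dn u)
  cov : ∀ x, x ∈ Up u ∨ x ∈ Dn u ∨ x ∈ range u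

/-- rungs separate -/
def SepStmt : Prop := ∀ (K J : Finset (Fin 3)) (H : V → V) (c δ : ℝ) (u : P → V),
  K ∪ J = {0, 1} → Disjoint K J → Per J H → Rung K J H c δ u → SepH u

variable {K J : Finset (Fin 3)} {H : V → V} {c δ : ℝ} {u : P → V}

lemma not_mem_range_of_up {x : V} (h : x ∈ Up u) : x ∉ range u := by
  obtain ⟨z, -, h⟩ := h; exact h.source_mem

lemma not_mem_range_of_dn {x : V} (h : x ∈ Dn u) : x ∉ range u := by
  obtain ⟨z, -, h⟩ := h; exact h.source_mem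

lemma mem_up_of_le (hu : Rung K J H c δ u) {x : V} (h : c + δ ≤ x 2) : x ∈ Up u := by
  have h1 : ∀ y, u y 2 < x 2 := fun y => by linarith [(abs_lt.1 (hu.ht y)).2]
  exact ⟨x, h1, JoinedIn.refl fun ⟨y, e⟩ => (h1 y).ne (by rw [e])⟩

lemma mem_dn_of_le (hu : Rung K J H c δ u) {x : V} (h : x 2 ≤ c - δ) : x ∈ Dn u := by
  have h1 : ∀ y, x 2 < u y 2 := fun y => by linarith [(abs_lt.1 (hu.ht y)).1]
  exact ⟨x, h1, JoinedIn.refl fun ⟨y, e⟩ => (h1 y).ne (by rw [e])⟩

lemma lt_of_mem_up (hu : Rung K J H c δ u) (hs : SepH u) {x : V} (h : x ∈ Up u ∪ range u) :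
    c - δ < x 2 := by
  rcases h with h | ⟨y, rfl⟩
  · by_contra hc
    exact disjoint_left.1 hs.dis h (mem_dn_of_le hu (not_lt.1 hc))
  · linarith [(abs_lt.1 (hu.ht y)).1]

lemma lt_of_mem_dn (hu : Rung K J H c δ u) (hs : SepH u) {x : V} (h : x ∈ Dn u ∪ range u) :
    x 2 < c + δ := by
  rcases h with h | ⟨y, rfl⟩
  · by_contra hc
    exact disjoint_left.1 hs.dis (mem_up_of_le hu (not_lt.1 hc)) h
  · linarith [(abs_lt.1 (hu.ht y)).2]

lemma lv_pr (x : V) : lv (x 2) (pr x) = x := by funext i; fin_cases i <;> rfl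

lemma pr_lv (c : ℝ) (y : P) : pr (lv c y) = y := by funext i; fin_cases i <;> rfl

lemma neg_mem_lat {l : V} (hl : l ∈ Prd34.lat J) : -l ∈ Prd34.lat J :=
  mem_lat_iff.2 (neg_mem (mem_lat_iff.1 hl))

lemma add_mem_range (h2 : (2 : Fin 3) ∉ J) (hu : Rung K J H c δ u) {l x : V}
    (hl : l ∈ Prd34.lat J) (hx : x ∈ range u) : x + l ∈ range u := by
  obtain ⟨y, rfl⟩ := hx
  have e : lv 0 (pr l) = l := by rw [← (hl 2).2 h2, lv_pr]
  exact ⟨y + pr l, by rw [hu.eqv y _ (by rwa [e]), e]⟩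

lemma joinedIn_add (h2 : (2 : Fin 3) ∉ J) (hu : Rung K J H c δ u) {l x z : V}
    (hl : l ∈ Prd34.lat J) (h : JoinedIn (range u)ᶜ x z) : JoinedIn (range u)ᶜ (x + l) (z + l) := by
  refine (h.map (f := fun w => w + l) (by fun_prop)).mono ?_
  rintro _ ⟨w, hw, rfl⟩ h
  exact hw (by simpa using add_mem_range h2 hu (neg_mem_lat hl) h)

lemma add_mem_up (h2 : (2 : Fin 3) ∉ J) (hu : Rung K J H c δ u) {l x : V}
    (hl : l ∈ Prd34.lat J) (hx : x ∈ Up u ∪ range u) : x + l ∈ Up u ∪ range u := by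
  rcases hx with ⟨z, h1, h⟩ | h
  · exact Or.inl ⟨z + l, fun y => by simpa [(hl 2).2 h2] using h1 y, joinedIn_add h2 hu hl h⟩
  · exact Or.inr (add_mem_range h2 hu hl h)

lemma mem_range_of_both (hs : SepH u) {x : V} (h1 : x ∈ Up u ∪ range u)
    (h2 : x ∈ Dn u ∪ range u) : x ∈ range u := by
  rcases h1 with h1 | h1
  · rcases h2 with h2 | h2
    · exact absurd h2 (disjoint_left.1 hs.dis h1)
    · exact h2
  · exact h1

lemma lv_mem_slab (hu : Rung K J H c δ u) {y : P} (h : u y ∈ Prd34.slab K) :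
    lv c y ∈ Prd34.slab K := by
  by_cases ho : lv c y ∈ out K
  · rwa [hu.bd y ho] at h
  · exact mem_slab_of_not_mem ho

lemma isClosed_lay (K : Finset (Fin 3)) (c : ℝ) : IsClosed (Lay K c) :=
  (isClosed_slab K).inter ((isClosed_le continuous_const (continuous_apply 2)).inter
    (isClosed_le (continuous_apply 2) continuous_const))

/-- **Blocks glue.** -/
theorem glue_of (hS : SepStmt) : GlueStmt := by
  intro K J hKJ hd H hH u G hu hG
  have hs : ∀ n, SepH (u n) := fun n => hS K J H n _ _ hKJ hd hH (hu n)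
  have h2J : (2 : Fin 3) ∉ J := fun h => by
    have : (2 : Fin 3) ∈ K ∪ J := Finset.mem_union_right _ h
    rw [hKJ] at this; exact absurd this (by decide)
  have hKi : ∀ i, i ∉ J → i ∈ K ∨ i = 2 := fun i hi => by
    by_cases h : i = 2
    · exact Or.inr h
    · have : i ∈ K ∪ J := by rw [hKJ]; revert h; fin_cases i <;> simp
      exact Or.inl ((Finset.mem_union.1 this).resolve_right hi)
  have hlay : ∀ x ∈ Prd34.slab K, x ∈ Lay K ⌊x 2⌋ := fun x hx =>
    ⟨hx, Int.floor_le _, (Int.lt_floor_add_one _).le⟩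
  have heq : ∀ n : ℤ, ∀ x ∈ Lay K n, G ⌊x 2⌋ x = G n x := fun n x hx => by
    rcases hx.2.2.lt_or_eq with h | h
    · rw [Int.floor_eq_iff.2 ⟨hx.2.1, h⟩]
    · have e : ⌊x 2⌋ = n + 1 := by rw [h]; exact_mod_cast Int.floor_intCast (R := ℝ) (n + 1)
      have e' : x 2 = ((n + 1 : ℤ) : ℝ) := by rw [h]; push_cast; ring
      rw [e, (hG n).top x hx h, (hG (n + 1)).bot x ⟨hx.1, e'.ge, by linarith⟩ e']
  have himg : ∀ n : ℤ, ∀ x ∈ Lay K n, ∃ a ∈ Blk K (u n) (u (n + 1)), H a = G n x :=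
    fun n x hx => (hG n).img.subset ⟨x, hx, rfl⟩
  have hfib : ∀ n m : ℤ, n < m → ∀ x ∈ Lay K n, ∀ y ∈ Lay K m, G n x = G m y →
      x - y ∈ Prd34.lat J := by
    intro n m hnm x hx y hy e
    obtain ⟨a, ha, ea⟩ := himg n x hx
    obtain ⟨b, hb, eb⟩ := himg m y hy
    have h1 := (hH.fib a b).1 (by rw [ea, eb, e])
    have h2 := add_mem_up h2J (hu m) h1 hb.1.2
    rw [add_sub_cancel] at h2
    have h3 := lt_of_mem_up (hu m) (hs m) h2
    have h4 := lt_of_mem_dn (hu (n + 1)) (hs (n + 1)) ha.2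
    have h5 : m = n + 1 := by
      have : (m : ℝ) < ((n + 2 : ℤ) : ℝ) := by push_cast at h4 ⊢; linarith
      have : m < n + 2 := by exact_mod_cast this
      omega
    subst h5
    obtain ⟨p, rfl⟩ := mem_range_of_both (hs _) h2 ha.2
    have h6 := lv_mem_slab (hu (n + 1)) ha.1.1
    set w := lv ((n + 1 : ℤ) : ℝ) p with hw
    have w2 : w 2 = ((n + 1 : ℤ) : ℝ) := rfl
    have w2' : w 2 = n + 1 := by rw [w2]; push_cast; ring
    have w3 : w ∈ Lay K n := ⟨h6, by linarith, by linarith⟩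
    have w4 : w ∈ Lay K ((n + 1 : ℤ) : ℝ) := ⟨h6, by linarith, by linarith⟩
    have f1 := ((hG n).fib x hx w w3).1 (by rw [(hG n).top w w3 w2', hw, pr_lv, ea])
    have f2 := ((hG (n + 1)).fib y hy w w4).1 (by
      rw [(hG (n + 1)).bot w w4 w2, hw, pr_lv, ea, e])
    have := sub_mem (mem_lat_iff.1 f1) (mem_lat_iff.1 f2)
    rw [sub_sub_sub_cancel_right] at this
    exact mem_lat_iff.2 this
  refine ⟨fun x => G ⌊x 2⌋ x, ⟨fun x hx => ?_, fun x hx y hy => ⟨fun e => ?_, fun e => ?_⟩, ?_,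
    fun x hx y hy e i hi => ?_, fun x hx ho => (hG _).sid x (hlay x hx) ho⟩, fun x hx h => ?_⟩
  · have key : ∀ n : ℤ, ∃ r > 0, PLOn (fun x : V => G ⌊x 2⌋ x) (closedBall x r ∩ Lay K n) := by
      intro n
      by_cases h : x ∈ Lay K n
      · obtain ⟨r, hr, h⟩ := lpl_congr (hG n).pl (heq n) x h
        exact ⟨r / 2, half_pos hr,
          h.mono (inter_subset_inter_left _ (closedBall_subset_ball (half_lt_self hr)))⟩
      · obtain ⟨r, hr, h⟩ := Metric.isOpen_iff.1 (isClosed_lay K n).isOpen_compl x h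
        exact ⟨r / 2, half_pos hr, (plOn_empty _).mono fun y hy =>
          h (closedBall_subset_ball (half_lt_self hr) hy.1) hy.2⟩
    obtain ⟨r, hr, p1⟩ := key (⌊x 2⌋ - 1)
    obtain ⟨s, hs, p2⟩ := key ⌊x 2⌋
    have h1 := Int.floor_le (x 2)
    have h2 := Int.lt_floor_add_one (x 2)
    refine ⟨min (min r s) (min 1 (⌊x 2⌋ + 1 - x 2)), lt_min (lt_min hr hs) (lt_min one_pos
      (by linarith)), (p1.union p2 (isClosed_closedBall.inter (isClosed_lay _ _))
      (isClosed_closedBall.inter (isClosed_lay _ _))).mono fun y hy => ?_⟩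
    have h3 := mem_ball_iff_norm.1 hy.1
    simp only [lt_min_iff] at h3
    have h4 := abs_le.1 (norm_le_pi_norm (y - x) 2)
    rw [Pi.sub_apply] at h4
    rcases le_total (y 2) ⌊x 2⌋ with h | h
    · exact Or.inl ⟨mem_closedBall_iff_norm.2 h3.1.1.le, hy.2, by push_cast; linarith [h3.2.1],
        by push_cast; linarith⟩
    · exact Or.inr ⟨mem_closedBall_iff_norm.2 h3.1.2.le, hy.2, h, by linarith [h3.2.2]⟩
  · rcases lt_trichotomy ⌊x 2⌋ ⌊y 2⌋ with h | h | h
    · exact hfib _ _ h x (hlay x hx) y (hlay y hy) e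
    · have hy' := hlay y hy
      simp only [← h] at e hy'
      exact ((hG _).fib x (hlay x hx) y hy').1 e
    · simpa using neg_mem_lat (hfib _ _ h y (hlay y hy) x (hlay x hx) e.symm)
  · have h : x 2 = y 2 := sub_eq_zero.1 ((e 2).2 h2J)
    have hy' := hlay y hy
    simp only [← h] at hy' ⊢
    exact ((hG _).fib x (hlay x hx) y hy').2 e
  · apply Subset.antisymm
    · rintro _ ⟨x, hx, rfl⟩
      obtain ⟨a, ha, ea⟩ := himg _ x (hlay x hx)
      exact ⟨a, ha.1.1, ea⟩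
    · rintro _ ⟨a, ha, rfl⟩
      obtain ⟨n, hn, hmax⟩ := Int.exists_greatest_of_bdd (P := fun n => a ∈ Up (u n) ∪ range (u n))
        ⟨⌊a 2⌋ + 1, fun n hn => by
          have h1 := lt_of_mem_up (hu n) (hs n) hn
          have h2 := Int.lt_floor_add_one (a 2)
          have : (n : ℝ) < ((⌊a 2⌋ + 2 : ℤ) : ℝ) := by push_cast; linarith
          have : n < ⌊a 2⌋ + 2 := by exact_mod_cast this
          omega⟩
        ⟨⌊a 2⌋ - 1, Or.inl (mem_up_of_le (hu _) (by push_cast; linarith [Int.floor_le (a 2)]))⟩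
      have h1 : a ∈ Dn (u (n + 1)) ∪ range (u (n + 1)) := by
        rcases (hs (n + 1)).cov a with h | h
        · have := hmax _ (Or.inl h); omega
        · exact h
      obtain ⟨x, hx, e⟩ := (hG n).img.superset ⟨a, ⟨⟨ha, hn⟩, h1⟩, rfl⟩
      exact ⟨x, hx.1, (heq n x hx).trans e⟩
  · rcases hKi i hi with h | rfl
    · have h1 := hx i h
      have h2 := hy i h
      exact (abs_sub _ _).trans (by linarith)
    · obtain ⟨a, ha, ea⟩ := himg _ x (hlay x hx)
      have h1 : a 2 = y 2 := sub_eq_zero.1 (((hH.fib a y).1 (ea.trans e) 2).2 h2J)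
      have h2 := lt_of_mem_up (hu _) (hs _) ha.1.2
      have h3 := lt_of_mem_dn (hu _) (hs _) ha.2
      have h4 := Int.floor_le (x 2)
      have h5 := Int.lt_floor_add_one (x 2)
      push_cast at h3
      rw [abs_le]; constructor <;> linarith
  · have h0 : ⌊x 2⌋ = 0 := by rw [h]; simp
    have hl := hlay x hx
    simp only [h0] at hl ⊢
    exact (hG 0).bot x hl (by rw [h]; simp)

end Crest.Agent.X212.Lad50
end

-- ▼ part X212/Lad50/Rung

/-!
# Row 212, layer T: the disc rung (`Prd34.Rung2Stmt`) from Dehn's lemma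
-/

open Set Filter Topology Metric

namespace Crest.Agent.X212.Lad50

open Crest.Agent.R096.Ce_537 Prd34
open Crest.Agent.R096.Cx_609 (equivOfInjOn exists_equiv_of_bijOn finConv_closedBall finConv_sphere)

lemma norm_pr (x : V) : ‖pr x‖ = max |x 0| |x 1| := norm_vec2 _ _

lemma mem_slab_iff {x : V} : x ∈ Prd34.slab {0, 1} ↔ ‖pr x‖ ≤ 1 := by
  simp [Prd34.slab, norm_pr]

lemma mem_out_iff {x : V} : x ∈ out {0, 1} ↔ 1 ≤ ‖pr x‖ := by
  simp [out, norm_pr]

lemma plOn_pr (A : Set V) : PLOn pr A := pl_vec2 (pl_coord 0 _) (pl_coord 1 _)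

lemma plOn_lv (c : ℝ) (A : Set P) : PLOn (lv c) A :=
  pl_vec3 (pl_coord 0 _) (pl_coord 1 _) (plOn_const _ _)

lemma continuous_pr : Continuous pr := continuousOn_univ.1 (plOn_pr _).1

lemma continuous_lv (c : ℝ) : Continuous (lv c) := continuousOn_univ.1 (plOn_lv c _).1

lemma lv_injective (c : ℝ) : Function.Injective (lv c) := fun y y' h => by
  rw [← pr_lv c y, h, pr_lv]

/-- the affine part of the chart at the wall -/
noncomputable def aff3 (s t ε : ℝ) (hε : ε ≠ 0) : V ≃ₜ V where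
  toFun w := ![t + ε * w 1, s + ε * w 0, -ε * w 2]
  invFun z := ![(z 1 - s) / ε, (z 0 - t) / ε, -z 2 / ε]
  left_inv w := by funext i; fin_cases i <;> simp <;> field_simp
  right_inv w := by funext i; fin_cases i <;> simp <;> field_simp <;> ring
  continuous_toFun := by fun_prop
  continuous_invFun := by fun_prop

/-- cyclic permutation of the coordinates -/
def cyc : V ≃ₜ V where
  toFun z := ![z 1, z 2, z 0]
  invFun z := ![z 2, z 0, z 1]
  left_inv w := by funext i; fin_cases i <;> rfl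
  right_inv w := by funext i; fin_cases i <;> rfl
  continuous_toFun := by fun_prop
  continuous_invFun := by fun_prop

lemma rho_zero : rho 0 = 1 := by rw [rho_of_le (by norm_num)]; ring

/-- a flat chart at a point of the wall of `B² × ℝ` -/
lemma exists_wall_chart {p : V} (hp : ‖pr p‖ = 1) {r : ℝ} (hr : 0 < r) :
    ∃ φ : V → V, PLOn φ (cube 3) ∧ InjOn φ (cube 3) ∧ φ 0 = p ∧ φ '' cube 3 ∈ 𝓝 p ∧
      MapsTo φ (cube 3) (ball p r) ∧
      ∀ w, (‖pr (φ w)‖ ≤ 1 ↔ 0 ≤ w 2) ∧ (1 ≤ ‖pr (φ w)‖ ↔ w 2 ≤ 0) := by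
  obtain ⟨s, hs⟩ := pol_sur 0 (pr p) (by rw [hp, rho_zero])
  have hP : Pol pol rho := by
    refine ⟨locPL_pol, isOpenMap_pol, pol_fib, rho_strictMono, continuous_rho,
      fun t => by linarith [(rho_mem t).1], norm_pol, pol_sur, fun y hy => ?_⟩
    have h0 := abs_le.1 ((norm_le_pi_norm y 0).trans hy)
    rw [pol_top 0 (by push_cast; linarith [h0.1]) (by push_cast; linarith [h0.2]),
      rho_of_le ((norm_le_pi_norm y 1).trans hy)]
    simp
  have hq := per_qq hP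
  have h0 : cyc (qq pol ![p 2, s, 0]) = p := by
    change ![pol ![s, 0] 0, pol ![s, 0] 1, p 2] = p
    rw [hs]; funext i; fin_cases i <;> rfl
  have hc : Continuous fun z => cyc (qq pol z) := cyc.continuous.comp hq.cont
  obtain ⟨η, hη, hb⟩ := Metric.mem_nhds_iff.1 (hc.continuousAt (x := ![p 2, s, 0])
    (by rw [h0]; exact ball_mem_nhds p hr))
  set ε := min (η / 2) (1 / 4) with hε
  have e0 : 0 < ε := lt_min (half_pos hη) (by norm_num)
  have e1 : ε < η := (min_le_left _ _).trans_lt (half_lt_self hη)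
  have e2 : ε ≤ 1 / 4 := min_le_right _ _
  set a := aff3 s (p 2) ε e0.ne' with ha
  have ha0 : a 0 = ![p 2, s, 0] := by funext i; fin_cases i <;> simp [ha, aff3]
  have hcube : ∀ w ∈ cube 3, ∀ i, |ε * w i| ≤ ε := fun w hw i => by
    rw [abs_mul, abs_of_pos e0]
    exact mul_le_of_le_one_right e0.le ((norm_le_pi_norm w i).trans (mem_closedBall_zero_iff.1 hw))
  refine ⟨fun w => cyc (qq pol (a w)), ?_, fun w hw w' hw' e => ?_, by simp only [ha0, h0], ?_,
    fun w hw => hb ?_, fun w => ?_⟩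
  · refine plOn_of_locPL (Ω := univ) ?_ (isCompact_closedBall _ _) (subset_univ _)
    refine locPL_comp (g := cyc) (locPL_of_plOn (pl_vec3 (pl_coord 1 _) (pl_coord 2 _)
      (pl_coord 0 _)) univ) (locPL_comp (f := a) (locPL_qq hP) (locPL_of_plOn (pl_vec3
      (pl_add (plOn_const _ _) (pl_mul _ (pl_coord 1 _)))
      (pl_add (plOn_const _ _) (pl_mul _ (pl_coord 0 _))) (pl_mul _ (pl_coord 2 _))) _)
      (mapsTo_univ _ _)) (mapsTo_univ _ _)
  · have h1 := mem_lat_iff.1 ((hq.fib _ _).1 (cyc.injective e))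
    refine a.injective (sub_eq_zero.1 (lat_eq_zero one_pos h1 fun j hj => ?_))
    rw [Finset.mem_singleton.1 hj]
    change |(s + ε * w 0) - (s + ε * w' 0)| < 1
    have h2 := abs_le.1 (hcube w hw 0)
    have h3 := abs_le.1 (hcube w' hw' 0)
    rw [abs_lt]; constructor <;> linarith
  · have ho : IsOpenMap fun w => cyc (qq pol (a w)) :=
      cyc.isOpenMap.comp (hq.opn.comp a.isOpenMap)
    have := ho.image_mem_nhds (closedBall_mem_nhds (0 : V) one_pos)
    simpa only [ha0, h0] using this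
  · rw [mem_ball_iff_norm]
    refine lt_of_le_of_lt ((pi_norm_le_iff_of_nonneg e0.le).2 fun i => ?_) e1
    fin_cases i
    · simpa [ha, aff3] using hcube w hw 1
    · simpa [ha, aff3] using hcube w hw 0
    · simpa [ha, aff3] using hcube w hw 2
  · have e : ‖pr (cyc (qq pol (a w)))‖ = rho (-ε * w 2) := by
      have : pr (cyc (qq pol (a w))) = pol ![s + ε * w 0, -ε * w 2] := by
        funext i; fin_cases i <;> rfl
      rw [this, norm_pol]; rfl
    rw [e, ← rho_zero, rho_strictMono.le_iff_le, rho_strictMono.le_iff_le]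
    constructor <;> constructor <;> intro h <;> nlinarith

/-- open pieces of `h (B² × ℝ)` are manifolds -/
lemma mf_slab {h : V → V} (hh : IsOpenEmbedding h) (hp : LocPL h (rim {0, 1})) {O : Set V}
    (hO : IsOpen O) :
    Mf (h '' (Prd34.slab {0, 1} ∩ O)) (h '' (Prd34.slab {0, 1} ∩ out {0, 1} ∩ O)) := by
  refine ⟨image_mono fun x hx => ⟨hx.1.1, hx.2⟩, ?_, ?_⟩
  · rw [← image_diff hh.injective]
    refine hh.isOpenMap _ ?_
    have : (Prd34.slab {0, 1} ∩ O) \ (Prd34.slab {0, 1} ∩ out {0, 1} ∩ O) = (out {0, 1})ᶜ ∩ O := by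
      ext x; constructor
      · exact fun hx => ⟨fun h => hx.2 ⟨⟨hx.1.1, h⟩, hx.1.2⟩, hx.1.2⟩
      · exact fun hx => ⟨⟨mem_slab_of_not_mem hx.1, hx.2⟩, fun h => hx.1 h.1.2⟩
    rw [this]
    exact (isClosed_out _).isOpen_compl.inter hO
  · rintro _ ⟨p, ⟨⟨h1, h2⟩, h3⟩, rfl⟩
    obtain ⟨r, hr, pr1⟩ := hp p (out_subset_rim _ h2)
    obtain ⟨r', hr', pr2⟩ := Metric.isOpen_iff.1 hO p h3
    obtain ⟨φ, f1, f2, f3, f4, f5, f6⟩ := exists_wall_chart
      (le_antisymm (mem_slab_iff.1 h1) (mem_out_iff.1 h2)) (lt_min hr hr')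
    have hO' : ∀ w ∈ cube 3, φ w ∈ O := fun w hw =>
      pr2 (ball_subset_ball (min_le_right _ _) (f5 hw))
    refine ⟨_, equivOfInjOn (finConv_closedBall 3) isClosed_closedBall (f := fun w => h (φ w))
      (pr1.comp f1 fun w hw => ball_subset_ball (min_le_left _ _) (f5 hw))
      (hh.injective.comp_injOn f2), congrArg h f3, ?_, ?_, ?_⟩
    · rw [← image_image h φ]; exact hh.isOpenMap.image_mem_nhds f4
    · ext z; constructor
      · rintro ⟨⟨w, hw, rfl⟩, y, hy, e⟩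
        rw [hh.injective e] at hy
        exact ⟨w, ⟨hw, (f6 w).1.1 (mem_slab_iff.1 hy.1)⟩, rfl⟩
      · rintro ⟨w, hw, rfl⟩
        exact ⟨⟨w, hw.1, rfl⟩, φ w, ⟨mem_slab_iff.2 ((f6 w).1.2 hw.2), hO' w hw.1⟩, rfl⟩
    · ext z; constructor
      · rintro ⟨⟨w, hw, rfl⟩, y, hy, e⟩
        rw [hh.injective e] at hy
        exact ⟨w, ⟨hw, le_antisymm ((f6 w).2.1 (mem_out_iff.1 hy.1.2))
          ((f6 w).1.1 (mem_slab_iff.1 hy.1.1))⟩, rfl⟩
      · rintro ⟨w, hw, rfl⟩
        have h4 : w 2 = 0 := hw.2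
        exact ⟨⟨w, hw.1, rfl⟩, φ w, ⟨⟨mem_slab_iff.2 ((f6 w).1.2 h4.ge),
          mem_out_iff.2 ((f6 w).2.2 h4.le)⟩, hO' w hw.1⟩, rfl⟩

/-- **The disc rung.** -/
theorem rung2_of (hD : DehnStmt) : Rung2Stmt := by
  classical
  intro h hH hp c δ hδ
  have hh := emb_of_per hH
  set O : Set V := {x | |x 2 - c| < δ} with hO
  have hOo : IsOpen O := isOpen_lt (by fun_prop) continuous_const
  have hlO : ∀ y, lv c y ∈ O := fun y => by
    change |c - c| < δ; simpa using hδ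
  have hrim : LocPL (fun y => h (lv c y)) {y | 1 ≤ ‖y‖} :=
    locPL_comp hp (locPL_of_plOn (plOn_lv c _) _) fun y hy =>
      out_subset_rim _ (mem_out_iff.2 (by rwa [pr_lv]))
  have hsph : ∀ y ∈ sph 2, ‖y‖ = 1 := fun y hy => by simpa using hy
  have hinj : Function.Injective fun y => h (lv c y) := hh.injective.comp (lv_injective c)
  set γ := equivOfInjOn (finConv_sphere 2) isClosed_sphere
    (plOn_of_locPL hrim (isCompact_sphere 0 1) fun y hy => (hsph y hy).ge) hinj.injOn with hγ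
  obtain ⟨D, d1, d2, d3⟩ := hD _ _ _ γ (fun y => h (lv c y)) (mf_slab hh hp hOo)
    (by
      rintro _ ⟨y, hy, rfl⟩
      exact ⟨_, ⟨⟨mem_slab_iff.2 (by rw [pr_lv, hsph y hy]),
        mem_out_iff.2 (by rw [pr_lv, hsph y hy])⟩, hlO y⟩, rfl⟩)
    (hh.continuous.comp (continuous_lv c)).continuousOn
    (fun y hy => ⟨_, ⟨mem_slab_iff.2 (by rw [pr_lv]; simpa using hy), hlO y⟩, rfl⟩)
    (fun _ _ => rfl)
  obtain ⟨e, e1, -⟩ := (isBall_cube 2).extend d1 γ
  set F : P → V := (cube 2).piecewise e.f fun y => h (lv c y) with hF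
  have F1 : ∀ y ∈ cube 2, F y = e.f y := fun y hy => piecewise_eq_of_mem _ _ _ hy
  have F2 : ∀ y, 1 ≤ ‖y‖ → F y = h (lv c y) := fun y hy => by
    by_cases hc : y ∈ cube 2
    · rw [F1 y hc]
      exact e1 (by simpa using le_antisymm (mem_closedBall_zero_iff.1 hc) hy)
    · exact piecewise_eq_of_notMem _ _ _ hc
  have hFp : LocPL F univ := locPL_of_closed isClosed_closedBall
    (isClosed_le continuous_const continuous_norm)
    (fun y hy => (not_le.1 fun h => hy (mem_closedBall_zero_iff.2 h)).le)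
    (lpl_congr (lpl_of_plOn e.pf) F1) (lpl_of_locPL hrim Subset.rfl F2)
  have hex : ∀ y, ∃ x, h x = F y ∧ x ∈ O ∧ (y ∈ cube 2 → x ∈ Prd34.slab {0, 1}) := fun y => by
    by_cases hc : y ∈ cube 2
    · obtain ⟨x, hx, ex⟩ := d2 (e.mf hc)
      exact ⟨x, by rw [F1 y hc, ex], hx.2, fun _ => hx.1⟩
    · exact ⟨lv c y, (F2 y (not_le.1 fun h => hc (mem_closedBall_zero_iff.2 h)).le).symm, hlO y,
        fun h => absurd h hc⟩
  choose u hu1 hu2 hu3 using hex
  have hbd : ∀ y, 1 ≤ ‖y‖ → u y = lv c y := fun y hy => hh.injective (by rw [hu1, F2 y hy])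
  have hins : ∀ y, ‖y‖ < 1 → u y ∉ out {0, 1} := fun y hy ho => by
    have hc : y ∈ cube 2 := mem_closedBall_zero_iff.2 hy.le
    have h1 : e.f y ∈ D ∩ h '' (Prd34.slab {0, 1} ∩ out {0, 1} ∩ O) :=
      ⟨e.mf hc, u y, ⟨⟨hu3 y hc, ho⟩, hu2 y⟩, by rw [hu1, F1 y hc]⟩
    rw [d3] at h1
    obtain ⟨z, hz, ez⟩ := h1
    have h2 : z = y := e.injOn (sph_subset_cube hz) hc ((e1 hz).trans ez)
    rw [← h2, hsph z hz] at hy
    exact lt_irrefl _ hy
  refine ⟨u, ?_, fun y y' ey => ?_, fun y m hm => ?_, fun y hy => hbd y ?_, fun y hy => hins y ?_,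
    hu2, ?_⟩
  · rw [hh.isInducing.continuous_iff]
    have : h ∘ u = F := funext hu1
    rw [this]
    exact continuous_iff_continuousAt.2 fun y => locPL_continuousAt hFp (mem_univ y)
  · have key : ∀ y y', u y = u y' → ‖y‖ < 1 → ‖y'‖ < 1 := fun y y' ey hy => by
      by_contra hc
      refine hins y hy ?_
      rw [ey, hbd y' (not_lt.1 hc), mem_out_iff, pr_lv]; exact not_lt.1 hc
    by_cases hy : ‖y‖ < 1
    · have hc : y ∈ cube 2 := mem_closedBall_zero_iff.2 hy.le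
      have hc' : y' ∈ cube 2 := mem_closedBall_zero_iff.2 (key y y' ey hy).le
      exact e.injOn hc hc' (by rw [← F1 y hc, ← F1 y' hc', ← hu1, ← hu1, ey])
    · have hy' : ¬ ‖y'‖ < 1 := fun h => hy (key y' y ey.symm h)
      rw [hbd y (not_lt.1 hy), hbd y' (not_lt.1 hy')] at ey
      exact lv_injective c ey
  · have h0 : lv 0 m = 0 := funext fun i => (hm i).2 (Finset.notMem_empty i)
    have h1 : m = 0 := by
      rw [← pr_lv 0 m, h0]; funext i; fin_cases i <;> rfl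
    rw [h0, h1, add_zero, add_zero]
  · rw [mem_out_iff, pr_lv] at hy; exact hy
  · rw [mem_out_iff, pr_lv] at hy; exact not_le.1 hy
  · simpa only [hu1] using hFp

end Crest.Agent.X212.Lad50
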